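import Mathlib
import Vale.Agent.Lib.P154.ChartSum
import Vale.Agent.Lib.P154E.ETCheck

/-!
Closed forms for the real mirrors of the Taylor model programs at full strength.
-/

namespace Vale.Agent.Lib.P154E

open Vale.Agent.Lib.P154

lemma uPart_eq (R X : ℝ) :
    uPartER R X =
      (sigC X, sigC X / 3, rg3C R X, R ^ (2 : ℕ), ssC R X, c3C R X, ssC R X / 3, 1 - R, 1 + R * (1 / 2 - X), 1 + R * (1 / 2 + X), 1 - ssC R X / 2 + c3C R X, R * sigC X) := by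
  unfold uPartER
  repeat' refine Prod.ext ?_ ?_
  all_goals (dsimp only; (try simp only [sigC, rg3C, ssC, c3C]); (try push_cast); (try ring))

lemma vPart_eq (Q Y : ℝ) :
    vPartER Q Y =
      (Y ^ (2 : ℕ), sigC Y, Q ^ (2 : ℕ), Q ^ (2 : ℕ) * sigC Y, Q * (Y ^ (2 : ℕ) - 1 / 4), Q ^ (2 : ℕ) * (Q * (Y ^ (2 : ℕ) - 1 / 4)), 1 - Q ^ (2 : ℕ) * sigC Y / 2 + Q ^ (2 : ℕ) * (Q * (Y ^ (2 : ℕ) - 1 / 4)), (11 / 128) * (Q ^ (2 : ℕ) * sigC Y * (1 - (3 / 64) * (Q ^ (2 : ℕ) * sigC Y))), (Q ^ (2 : ℕ)) ^ (2 : ℕ)) := by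
  unfold vPartER
  repeat' refine Prod.ext ?_ ?_
  all_goals (dsimp only; (try simp only [sigC]); (try push_cast); (try ring))

lemma alphas_eq (X Y : ℝ) :
    alphasER X Y =
      (alC X (-1) (1 / 2 - Y) (1 / 2 + Y), alC X (-1) (1 / 2 + Y) (1 / 2 - Y), alC X (1 / 2 - Y) (-1) (1 / 2 + Y), alC X (1 / 2 - Y) (1 / 2 + Y) (-1), alC X (1 / 2 + Y) (-1) (1 / 2 - Y), alC X (1 / 2 + Y) (1 / 2 - Y) (-1)) := by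
  unfold alphasER
  repeat' refine Prod.ext ?_ ?_
  all_goals (dsimp only; (try simp only [alC]); (try push_cast); (try ring))

lemma matF_eq (U0 U1 U2 X Y y2 : ℝ) :
    matFER U0 U1 U2 X Y y2 =
      (U0 ^ (2 : ℕ) * (-1) + U1 ^ (2 : ℕ) * (1 / 2 - Y) + U2 ^ (2 : ℕ) * (1 / 2 + Y), U0 ^ (2 : ℕ) * 1 + U1 ^ (2 : ℕ) * (1 / 4 - Y + y2) + U2 ^ (2 : ℕ) * (1 / 4 + Y + y2), (-U0) * (-1) + ((1 / 2 - X) * U1) * (1 / 2 - Y) + ((1 / 2 + X) * U2) * (1 / 2 + Y), U0 ^ (2 : ℕ) * (-1) + U1 ^ (2 : ℕ) * (1 / 2 + Y) + U2 ^ (2 : ℕ) * (1 / 2 - Y), U0 ^ (2 : ℕ) * 1 + U1 ^ (2 : ℕ) * (1 / 4 + Y + y2) + U2 ^ (2 : ℕ) * (1 / 4 - Y + y2), (-U0) * (-1) + ((1 / 2 - X) * U1) * (1 / 2 + Y) + ((1 / 2 + X) * U2) * (1 / 2 - Y), U0 ^ (2 : ℕ) * (1 / 2 - Y) + U1 ^ (2 : ℕ) * (-1) +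 U2 ^ (2 : ℕ) * (1 / 2 + Y), U0 ^ (2 : ℕ) * (1 / 4 - Y + y2) + U1 ^ (2 : ℕ) * 1 + U2 ^ (2 : ℕ) * (1 / 4 + Y + y2), (-U0) * (1 / 2 - Y) + ((1 / 2 - X) * U1) * (-1) + ((1 / 2 + X) * U2) * (1 / 2 + Y), U0 ^ (2 : ℕ) * (1 / 2 - Y) + U1 ^ (2 : ℕ) * (1 / 2 + Y) + U2 ^ (2 : ℕ) * (-1), U0 ^ (2 : ℕ) * (1 / 4 - Y + y2) + U1 ^ (2 : ℕ) * (1 / 4 + Y + y2) + U2 ^ (2 : ℕ) * 1, (-U0) * (1 / 2 - Y) + ((1 / 2 - X) * U1) * (1 / 2 + Y) + ((1 / 2 + X) * U2) * (-1), U0 ^ (2 : ℕ) * (1 / 2 + Y) + U1 ^ (2 : ℕ) * (-1) + U2 ^ (2 : ℕ) * (1 / 2 - Y), U0 ^ (2 : ℕ) * (1 / 4 + Y + y2) + U1 ^ (2 : ℕ) * 1 + U2 ^ (2 : ℕ) * (1 / 4 - Y + y2), (-U0) * (1 / 2 + Y) + ((1 / 2 - X) * U1) * (-1) + ((1 / 2 + X) * U2) * (1 / 2 - Y), U0 ^ (2 : ℕ) * (1 / 2 + Y) + U1 ^ (2 : ℕ) * (1 / 2 - Y)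 + U2 ^ (2 : ℕ) * (-1), U0 ^ (2 : ℕ) * (1 / 4 + Y + y2) + U1 ^ (2 : ℕ) * (1 / 4 - Y + y2) + U2 ^ (2 : ℕ) * 1, (-U0) * (1 / 2 + Y) + ((1 / 2 - X) * U1) * (1 / 2 - Y) + ((1 / 2 + X) * U2) * (-1), U0 ^ (2 : ℕ) + U1 ^ (2 : ℕ) + U2 ^ (2 : ℕ)) := by
  unfold matFER
  repeat' refine Prod.ext ?_ ?_
  all_goals (dsimp only; (try simp only [sigC]); (try push_cast); (try ring))

lemma matD_eq (U0 U1 U2 X Y : ℝ) :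
    matDER U0 U1 U2 X Y =
      ((-U0) * (-1) + ((1 / 2 - X) * U1) * (1 / 2 - Y) + ((1 / 2 + X) * U2) * (1 / 2 + Y), (-U0) * (-1) + ((1 / 2 - X) * U1) * (1 / 2 + Y) + ((1 / 2 + X) * U2) * (1 / 2 - Y), (-U0) * (1 / 2 - Y) + ((1 / 2 - X) * U1) * (-1) + ((1 / 2 + X) * U2) * (1 / 2 + Y), (-U0) * (1 / 2 - Y) + ((1 / 2 - X) * U1) * (1 / 2 + Y) + ((1 / 2 + X) * U2) * (-1), (-U0) * (1 / 2 + Y) + ((1 / 2 - X) * U1) * (-1) + ((1 / 2 + X) * U2) * (1 / 2 - Y), (-U0) * (1 / 2 + Y) + ((1 / 2 - X) * U1) * (1 / 2 - Y) + ((1 / 2 + X) * U2) * (-1), U0 ^ (2 : ℕ), U1 ^ (2 : ℕ), U2 ^ (2 : ℕ), 1 / 2 - Y, 1 / 2 + Y) := by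
  unfold matDER
  repeat' refine Prod.ext ?_ ?_
  all_goals (dsimp only; (try simp only [sigC]); (try push_cast); (try ring))

lemma matG_eq (U0 U1 U2 Y : ℝ) :
    matGER U0 U1 U2 Y =
      (U0 ^ (2 : ℕ), U1 ^ (2 : ℕ), U2 ^ (2 : ℕ), 1 / 2 - Y, 1 / 2 + Y) := by
  unfold matGER
  repeat' refine Prod.ext ?_ ?_
  all_goals (dsimp only; (try simp only [sigC]); (try push_cast); (try ring))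

lemma permA_eq (R Q al : ℝ) :
    permAER R Q al =
      (R * al, 1 + Q * (R * al)) := by
  unfold permAER
  repeat' refine Prod.ext ?_ ?_
  all_goals (dsimp only; (try simp only [sigC]); (try push_cast); (try ring))

/-- The closed form of one term of the first functional. -/
noncomputable def RgE (C1 GG3 Ah rp2 al ib Q L : ℝ) : ℝ :=
  al ^ (2 : ℕ) * ib * (C1 * Q + GG3 * (ib + 2)) -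
    Ah * (ib * ((2 * L - rp2 * (al * Q) * (ib + 1)) ^ (2 : ℕ) + 2 * (rp2 * (al * Q)) ^ (2 : ℕ)))

lemma RgE_split (C1 GG3 Ah rp2 al ib Q L : ℝ) :
    RgE C1 GG3 Ah rp2 al ib Q L =
      C1 * (al ^ (2 : ℕ) * Q * ib) + GG3 * (al ^ (2 : ℕ) * (ib ^ (2 : ℕ) + 2 * ib)) -
        Ah * (4 * (ib * L ^ (2 : ℕ)) - 4 * rp2 * (al * L * (Q * (ib ^ (2 : ℕ) + ib))) +
          rp2 ^ (2 : ℕ) * (al ^ (2 : ℕ) * Q * Q * (ib ^ (3 : ℕ) + 2 * ib ^ (2 : ℕ) + 3 * ib))) := by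
  unfold RgE
  ring

lemma permB_eq (ra m al w0 w1 w2 v0 v1 v2 Y0 Y1 rp2 C1 GG3 Ah : ℝ) :
    permBER ra m al w0 w1 w2 v0 v1 v2 Y0 Y1 rp2 C1 GG3 Ah =
      RgE C1 GG3 Ah rp2 al m⁻¹ (w0 * (v0 - ra) ^ (2 : ℕ) + w1 * (v1 - ra) ^ (2 : ℕ) + w2 * (v2 - ra) ^ (2 : ℕ)) (Y1 - ra * Y0) := by
  unfold permBER RgE
  dsimp only
  try push_cast
  try ring

lemma permG_eq (ra m al w0 w1 w2 v0 v1 v2 : ℝ) :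
    permGER ra m al w0 w1 w2 v0 v1 v2 = al ^ (2 : ℕ) * (w0 * (v0 - ra) ^ (2 : ℕ) + w1 * (v1 - ra) ^ (2 : ℕ) + w2 * (v2 - ra) ^ (2 : ℕ)) * m⁻¹ := by
  unfold permGER
  dsimp only
  try push_cast
  try ring

lemma qd_0 (ρ x y : ℝ) :
    (1 - ρ) ^ (2 : ℕ) * ((-1) - (ρ * alC x (-1) (1 / 2 - y) (1 / 2 + y))) ^ (2 : ℕ) + (1 + ρ * (1 / 2 - x)) ^ (2 : ℕ) * ((1 / 2 - y) - (ρ * alC x (-1) (1 / 2 - y) (1 / 2 + y))) ^ (2 : ℕ) + (1 + ρ * (1 / 2 + x)) ^ (2 : ℕ) * ((1 / 2 + y) - (ρ * alC x (-1) (1 / 2 - y) (1 / 2 + y))) ^ (2 : ℕ) = (QC ρ x (-1) (1 / 2 - y) (1 / 2 + y)) := by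
  simp only [QC]

lemma qd_1 (ρ x y : ℝ) :
    (1 - ρ) ^ (2 : ℕ) * ((-1) - (ρ * alC x (-1) (1 / 2 + y) (1 / 2 - y))) ^ (2 : ℕ) + (1 + ρ * (1 / 2 - x)) ^ (2 : ℕ) * ((1 / 2 + y) - (ρ * alC x (-1) (1 / 2 + y) (1 / 2 - y))) ^ (2 : ℕ) + (1 + ρ * (1 / 2 + x)) ^ (2 : ℕ) * ((1 / 2 - y) - (ρ * alC x (-1) (1 / 2 + y) (1 / 2 - y))) ^ (2 : ℕ) = (QC ρ x (-1) (1 / 2 + y) (1 / 2 - y)) := by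
  simp only [QC]

lemma qd_2 (ρ x y : ℝ) :
    (1 - ρ) ^ (2 : ℕ) * ((1 / 2 - y) - (ρ * alC x (1 / 2 - y) (-1) (1 / 2 + y))) ^ (2 : ℕ) + (1 + ρ * (1 / 2 - x)) ^ (2 : ℕ) * ((-1) - (ρ * alC x (1 / 2 - y) (-1) (1 / 2 + y))) ^ (2 : ℕ) + (1 + ρ * (1 / 2 + x)) ^ (2 : ℕ) * ((1 / 2 + y) - (ρ * alC x (1 / 2 - y) (-1) (1 / 2 + y))) ^ (2 : ℕ) = (QC ρ x (1 / 2 - y) (-1) (1 / 2 + y)) := by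
  simp only [QC]

lemma qd_3 (ρ x y : ℝ) :
    (1 - ρ) ^ (2 : ℕ) * ((1 / 2 - y) - (ρ * alC x (1 / 2 - y) (1 / 2 + y) (-1))) ^ (2 : ℕ) + (1 + ρ * (1 / 2 - x)) ^ (2 : ℕ) * ((1 / 2 + y) - (ρ * alC x (1 / 2 - y) (1 / 2 + y) (-1))) ^ (2 : ℕ) + (1 + ρ * (1 / 2 + x)) ^ (2 : ℕ) * ((-1) - (ρ * alC x (1 / 2 - y) (1 / 2 + y) (-1))) ^ (2 : ℕ) = (QC ρ x (1 / 2 - y) (1 / 2 + y) (-1)) := by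
  simp only [QC]

lemma qd_4 (ρ x y : ℝ) :
    (1 - ρ) ^ (2 : ℕ) * ((1 / 2 + y) - (ρ * alC x (1 / 2 + y) (-1) (1 / 2 - y))) ^ (2 : ℕ) + (1 + ρ * (1 / 2 - x)) ^ (2 : ℕ) * ((-1) - (ρ * alC x (1 / 2 + y) (-1) (1 / 2 - y))) ^ (2 : ℕ) + (1 + ρ * (1 / 2 + x)) ^ (2 : ℕ) * ((1 / 2 - y) - (ρ * alC x (1 / 2 + y) (-1) (1 / 2 - y))) ^ (2 : ℕ) = (QC ρ x (1 / 2 + y) (-1) (1 / 2 - y)) := by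
  simp only [QC]

lemma qd_5 (ρ x y : ℝ) :
    (1 - ρ) ^ (2 : ℕ) * ((1 / 2 + y) - (ρ * alC x (1 / 2 + y) (1 / 2 - y) (-1))) ^ (2 : ℕ) + (1 + ρ * (1 / 2 - x)) ^ (2 : ℕ) * ((1 / 2 - y) - (ρ * alC x (1 / 2 + y) (1 / 2 - y) (-1))) ^ (2 : ℕ) + (1 + ρ * (1 / 2 + x)) ^ (2 : ℕ) * ((-1) - (ρ * alC x (1 / 2 + y) (1 / 2 - y) (-1))) ^ (2 : ℕ) = (QC ρ x (1 / 2 + y) (1 / 2 - y) (-1)) := by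
  simp only [QC]

lemma hPart_eq (ρ x : ℝ) :
    hPartER (sigC x) (sigC x / 3) (rg3C ρ x) (ssC ρ x) (ssC ρ x / 3) =
      (hrC ρ x, lamC ρ x, sigC x * ssC ρ x * (1 - (3 / 64) * ssC ρ x)) := by
  unfold hPartER
  repeat' refine Prod.ext ?_ ?_
  all_goals (dsimp only; (try simp only [hrC, lamC]); (try push_cast); (try ring))

lemma polys_eq (ρ x : ℝ) :
    polysER (sigC x) (sigC x / 3) (rg3C ρ x) (c3C ρ x) (ssC ρ x / 3) =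
      (h31C ρ x, h61C ρ x, h71C ρ x) := by
  unfold polysER
  repeat' refine Prod.ext ?_ ?_
  all_goals (dsimp only; (try simp only [h31C, h61C, h71C]); (try push_cast); (try ring))

/-- The closed form of the first functional in terms of the six averaged quantities. -/
noncomputable def finalFOld (sig rg3 r2 s G Hr Lam1 f2 h31 h61 h71 rp2 S C3 Gw fS r4 tau B1 B2 B4 B5 B6 : ℝ) : ℝ :=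
      (3 / 2) * ((Hr - tau * Lam1 + rp2 * B1) + sig / 2 - rg3) -
      (11 / 128) * (sig * (2 - (9 / 64) * s) * (1 + r2 * (Hr - tau * Lam1 + rp2 * B1))) +
      3 * (G * Gw * B2) + (rg3 - sig / 2) * fS +
      (21 / 128) * (G * sig * (tau - fS)) +
      (25 / 128) * (3 * rg3 - (11 / 128) * f2) -
      (11 / 1024) * S * (3 * rg3 - (11 / 128) * f2) -
      (11 / 128) * (1 - (3 / 32) * (s + S)) * (4 * B6 + 4 * (tau * h31) - 4 * (rp2 * B4) + S * h61 - 9 * C3 * h71 + r4 * B5) +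
      (33 / 8192) * (3 * (S * sig) + (2 * s - S) * S * (Hr - tau * Lam1 + rp2 * B1))

lemma finalF_eq (sig rg3 r2 s G Hr Lam1 f2 h31 h61 h71 rp2 S C3 Gw fS r4 tau : ℝ) :
    finalFER sig rg3 r2 s G Hr Lam1 f2 h31 h61 h71 rp2 S C3 Gw fS r4 tau =
      ((((3 / 2 - (11 / 128) * (sig * (2 - (9 / 64) * s) * r2)) + (33 / 8192) * ((2 * s - S) * S)) * (Hr - tau * Lam1) + (3 / 2) * (sig / 2 - rg3) - (11 / 128) * (sig * (2 - (9 / 64) * s)) +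
        (rg3 - sig / 2) * fS + (21 / 128) * (G * sig * (tau - fS)) + (25 / 128) * (3 * rg3 - (11 / 128) * f2) -
        (11 / 1024) * S * (3 * rg3 - (11 / 128) * f2) -
        ((11 / 128) * (1 - (3 / 32) * (s + S))) * (4 * (tau * h31) + S * h61 - 9 * (C3 * h71)) + (33 / 8192) * (3 * (S * sig))), ((3 / 2 - (11 / 128) * (sig * (2 - (9 / 64) * s) * r2)) + (33 / 8192) * ((2 * s - S) * S)) * rp2, 3 * (G * Gw), ((11 / 128) * (1 - (3 / 32) * (s + S)))) := by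
  unfold finalFER
  repeat' refine Prod.ext ?_ ?_
  all_goals (dsimp only; (try push_cast); (try ring))

lemma final_split (sig rg3 r2 s G Hr Lam1 f2 h31 h61 h71 rp2 S C3 Gw fS tau is6
      Ka0 Ka1 Ka2 Ka3 Ka4 Ka5 Kb0 Kb1 Kb2 Kb3 Kb4 Kb5 Kc0 Kc1 Kc2 Kc3 Kc4 Kc5 Kd0 Kd1 Kd2 Kd3 Kd4 Kd5 Ke0 Ke1 Ke2 Ke3 Ke4 Ke5 : ℝ) :
    (((3 / 2 - (11 / 128) * (sig * (2 - (9 / 64) * s) * r2)) + (33 / 8192) * ((2 * s - S) * S)) * (Hr - tau * Lam1) + (3 / 2) * (sig / 2 - rg3) - (11 / 128) * (sig * (2 - (9 / 64) * s)) +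
        (rg3 - sig / 2) * fS + (21 / 128) * (G * sig * (tau - fS)) + (25 / 128) * (3 * rg3 - (11 / 128) * f2) -
        (11 / 1024) * S * (3 * rg3 - (11 / 128) * f2) -
        ((11 / 128) * (1 - (3 / 32) * (s + S))) * (4 * (tau * h31) + S * h61 - 9 * (C3 * h71)) + (33 / 8192) * (3 * (S * sig))) + is6 * ((((3 / 2 - (11 / 128) * (sig * (2 - (9 / 64) * s) * r2)) + (33 / 8192) * ((2 * s - S) * S)) * rp2 * Ka0 + 3 * (G * Gw) * Kb0 - ((11 / 128) * (1 - (3 / 32) * (s + S))) * (4 * Kc0 - 4 * rp2 * Kd0 + rp2 ^ (2 : ℕ) * Ke0)) + (((3 / 2 - (11 / 128) * (sig * (2 - (9 / 64) * s) * r2)) + (33 / 8192) * ((2 * s - S) * S)) * rp2 * Ka1 + 3 * (G * Gw) * Kb1 - ((11 / 128) * (1 - (3 / 32) * (s + S))) * (4 * Kc1 - 4 * rp2 * Kd1 + rp2 ^ (2 : ℕ) * Ke1)) + (((3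 / 2 - (11 / 128) * (sig * (2 - (9 / 64) * s) * r2)) + (33 / 8192) * ((2 * s - S) * S)) * rp2 * Ka2 + 3 * (G * Gw) * Kb2 - ((11 / 128) * (1 - (3 / 32) * (s + S))) * (4 * Kc2 - 4 * rp2 * Kd2 + rp2 ^ (2 : ℕ) * Ke2)) + (((3 / 2 - (11 / 128) * (sig * (2 - (9 / 64) * s) * r2)) + (33 / 8192) * ((2 * s - S) * S)) * rp2 * Ka3 + 3 * (G * Gw) * Kb3 - ((11 / 128) * (1 - (3 / 32) * (s + S))) * (4 * Kc3 - 4 * rp2 * Kd3 + rp2 ^ (2 : ℕ) * Ke3)) + (((3 / 2 - (11 / 128) * (sig * (2 - (9 / 64) * s) * r2)) + (33 / 8192) * ((2 * s - S) * S)) * rp2 * Ka4 + 3 * (G * Gw) * Kb4 - ((11 / 128) * (1 - (3 / 32) * (s + S))) * (4 * Kc4 - 4 * rp2 * Kd4 + rp2 ^ (2 : ℕ) * Ke4)) + (((3 / 2 - (11 / 128) * (sig * (2 - (9 / 64) * s) * r2)) + (33 / 8192) * ((2 * s - S) * S)) * rp2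 * Ka5 + 3 * (G * Gw) * Kb5 - ((11 / 128) * (1 - (3 / 32) * (s + S))) * (4 * Kc5 - 4 * rp2 * Kd5 + rp2 ^ (2 : ℕ) * Ke5))) =
    finalFOld sig rg3 r2 s G Hr Lam1 f2 h31 h61 h71 rp2 S C3 Gw fS (rp2 ^ (2 : ℕ)) tau
      (is6 * (Ka0 + Ka1 + Ka2 + Ka3 + Ka4 + Ka5)) (is6 * (Kb0 + Kb1 + Kb2 + Kb3 + Kb4 + Kb5))
      (is6 * (Kd0 + Kd1 + Kd2 + Kd3 + Kd4 + Kd5)) (is6 * (Ke0 + Ke1 + Ke2 + Ke3 + Ke4 + Ke5))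
      (is6 * (Kc0 + Kc1 + Kc2 + Kc3 + Kc4 + Kc5)) := by
  unfold finalFOld
  ring

/-- The exact value of a merge term. -/
noncomputable def rawFcl (GG m s M : ℝ) : ℝ :=
  3 * GG * (m⁻¹) ^ (2 : ℕ) + m * (-3 + (3 / 2) * (s + m⁻¹ * M) - (11 / 128) * (s + m⁻¹ * M) ^ (2 : ℕ) +
    (33 / 8192) * (s + m⁻¹ * M) ^ (3 : ℕ))

lemma rawF_eq (ra m W0 Y0 P1 P2 Y1 QR rp2 s GG : ℝ) :
    rawFER ra m W0 Y0 P1 P2 Y1 QR rp2 s GG =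
      rawFcl GG m s (2 * (QR * (Y1 - ra * Y0)) + m⁻¹ * (rp2 * (P2 - 2 * (ra * P1) + ra ^ (2 : ℕ) * W0))) := by
  unfold rawFER rawFcl
  dsimp only
  push_cast
  ring

lemma rawG_eq (ra m W0 Y0 P1 P2 Y1 QR rp2 s : ℝ) :
    rawGER ra m W0 Y0 P1 P2 Y1 QR rp2 s = m * s + (2 * (QR * (Y1 - ra * Y0)) + m⁻¹ * (rp2 * (P2 - 2 * (ra * P1) + ra ^ (2 : ℕ) * W0))) := by
  unfold rawGER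
  dsimp only
  push_cast
  ring

lemma polyC_eq (s c3 G S C3 : ℝ) :
    polyCER s c3 G S C3 =
      ((1 - (25 / 128) * S + (11 / 1024) * S ^ (2 : ℕ)) * (3 * c3 - (11 / 128) * s ^ (2 : ℕ) * (1 - (3 / 64) * s)) +
        G * (1 - (21 / 128) * s) * (3 * C3 - (11 / 128) * S ^ (2 : ℕ) * (1 - (3 / 64) * S)),
       s + S - (57 / 256) * S * (3 * c3 - (11 / 128) * s ^ (2 : ℕ) * (1 - (3 / 64) * s)) -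
        ((7 / 32) * s - (9 / 32) * (3 * c3) + (3 / 256) * s ^ (2 : ℕ)) * (3 * C3 - (11 / 128) * S ^ (2 : ℕ) * (1 - (3 / 64) * S)) -
        (1 / 1024) * S * s) := by
  unfold polyCER
  repeat' refine Prod.ext ?_ ?_
  all_goals (dsimp only; (try push_cast); (try ring))

lemma qf_0 (ρ x y : ℝ) :
    (1 - ρ) ^ (2 : ℕ) * 1 + (1 + ρ * (1 / 2 - x)) ^ (2 : ℕ) * (1 / 4 - y + y ^ (2 : ℕ)) + (1 + ρ * (1 / 2 + x)) ^ (2 : ℕ) * (1 / 4 + y + y ^ (2 : ℕ)) - 2 * ((ρ * (alC x (-1) (1 / 2 - y) (1 / 2 + y))) * ((1 - ρ) ^ (2 : ℕ) * (-1) + (1 + ρ * (1 / 2 - x)) ^ (2 : ℕ) * (1 / 2 - y) + (1 + ρ * (1 / 2 + x)) ^ (2 : ℕ) * (1 / 2 + y))) + (ρ * (alC x (-1) (1 / 2 - y) (1 / 2 + y))) ^ (2 : ℕ) * ((1 - ρ) ^ (2 : ℕ) + (1 + ρ * (1 / 2 - x)) ^ (2 : ℕ) + (1 + ρ * (1 / 2 +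 x)) ^ (2 : ℕ)) = (QC ρ x (-1) (1 / 2 - y) (1 / 2 + y)) := by
  simp only [QC, alC]
  ring

lemma lf_0 (ρ x y : ℝ) :
    (-(1 - ρ)) * (-1) + ((1 / 2 - x) * (1 + ρ * (1 / 2 - x))) * (1 / 2 - y) + ((1 / 2 + x) * (1 + ρ * (1 / 2 + x))) * (1 / 2 + y) - (ρ * (alC x (-1) (1 / 2 - y) (1 / 2 + y))) * (ρ * sigC x) = (LC ρ x (-1) (1 / 2 - y) (1 / 2 + y)) := by
  simp only [LC, alC, sigC]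
  ring

lemma qf_1 (ρ x y : ℝ) :
    (1 - ρ) ^ (2 : ℕ) * 1 + (1 + ρ * (1 / 2 - x)) ^ (2 : ℕ) * (1 / 4 + y + y ^ (2 : ℕ)) + (1 + ρ * (1 / 2 + x)) ^ (2 : ℕ) * (1 / 4 - y + y ^ (2 : ℕ)) - 2 * ((ρ * (alC x (-1) (1 / 2 + y) (1 / 2 - y))) * ((1 - ρ) ^ (2 : ℕ) * (-1) + (1 + ρ * (1 / 2 - x)) ^ (2 : ℕ) * (1 / 2 + y) + (1 + ρ * (1 / 2 + x)) ^ (2 : ℕ) * (1 / 2 - y))) + (ρ * (alC x (-1) (1 / 2 + y) (1 / 2 - y))) ^ (2 : ℕ) * ((1 - ρ) ^ (2 : ℕ) + (1 + ρ * (1 / 2 - x)) ^ (2 : ℕ) + (1 + ρ * (1 / 2 + x)) ^ (2 : ℕ)) = (QC ρ x (-1) (1 / 2 + y) (1 / 2 - y)) := by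
  simp only [QC, alC]
  ring

lemma lf_1 (ρ x y : ℝ) :
    (-(1 - ρ)) * (-1) + ((1 / 2 - x) * (1 + ρ * (1 / 2 - x))) * (1 / 2 + y) + ((1 / 2 + x) * (1 + ρ * (1 / 2 + x))) * (1 / 2 - y) - (ρ * (alC x (-1) (1 / 2 + y) (1 / 2 - y))) * (ρ * sigC x) = (LC ρ x (-1) (1 / 2 + y) (1 / 2 - y)) := by
  simp only [LC, alC, sigC]
  ring

lemma qf_2 (ρ x y : ℝ) :
    (1 - ρ) ^ (2 : ℕ) * (1 / 4 - y + y ^ (2 : ℕ)) + (1 + ρ * (1 / 2 - x)) ^ (2 : ℕ) * 1 + (1 + ρ * (1 / 2 + x)) ^ (2 : ℕ) * (1 / 4 + y + y ^ (2 : ℕ)) - 2 * ((ρ * (alC x (1 / 2 - y) (-1) (1 / 2 + y))) * ((1 - ρ) ^ (2 : ℕ) * (1 / 2 - y) + (1 + ρ * (1 / 2 - x)) ^ (2 : ℕ) * (-1) + (1 + ρ * (1 / 2 + x)) ^ (2 : ℕ) * (1 / 2 + y))) + (ρ * (alC x (1 / 2 - y) (-1) (1 / 2 + y))) ^ (2 : ℕ) * ((1 - ρ) ^ (2 :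 ℕ) + (1 + ρ * (1 / 2 - x)) ^ (2 : ℕ) + (1 + ρ * (1 / 2 + x)) ^ (2 : ℕ)) = (QC ρ x (1 / 2 - y) (-1) (1 / 2 + y)) := by
  simp only [QC, alC]
  ring

lemma lf_2 (ρ x y : ℝ) :
    (-(1 - ρ)) * (1 / 2 - y) + ((1 / 2 - x) * (1 + ρ * (1 / 2 - x))) * (-1) + ((1 / 2 + x) * (1 + ρ * (1 / 2 + x))) * (1 / 2 + y) - (ρ * (alC x (1 / 2 - y) (-1) (1 / 2 + y))) * (ρ * sigC x) = (LC ρ x (1 / 2 - y) (-1) (1 / 2 + y)) := by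
  simp only [LC, alC, sigC]
  ring

lemma qf_3 (ρ x y : ℝ) :
    (1 - ρ) ^ (2 : ℕ) * (1 / 4 - y + y ^ (2 : ℕ)) + (1 + ρ * (1 / 2 - x)) ^ (2 : ℕ) * (1 / 4 + y + y ^ (2 : ℕ)) + (1 + ρ * (1 / 2 + x)) ^ (2 : ℕ) * 1 - 2 * ((ρ * (alC x (1 / 2 - y) (1 / 2 + y) (-1))) * ((1 - ρ) ^ (2 : ℕ) * (1 / 2 - y) + (1 + ρ * (1 / 2 - x)) ^ (2 : ℕ) * (1 / 2 + y) + (1 + ρ * (1 / 2 + x)) ^ (2 : ℕ) * (-1))) + (ρ * (alC x (1 / 2 - y) (1 / 2 + y) (-1))) ^ (2 : ℕ) * ((1 - ρ) ^ (2 : ℕ) + (1 + ρ * (1 / 2 - x)) ^ (2 : ℕ) + (1 + ρ * (1 / 2 + x)) ^ (2 : ℕ)) = (QC ρ x (1 / 2 - y) (1 / 2 + y) (-1)) := by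
  simp only [QC, alC]
  ring

lemma lf_3 (ρ x y : ℝ) :
    (-(1 - ρ)) * (1 / 2 - y) + ((1 / 2 - x) * (1 + ρ * (1 / 2 - x))) * (1 / 2 + y) + ((1 / 2 + x) * (1 + ρ * (1 / 2 + x))) * (-1) - (ρ * (alC x (1 / 2 - y) (1 / 2 + y) (-1))) * (ρ * sigC x) = (LC ρ x (1 / 2 - y) (1 / 2 + y) (-1)) := by
  simp only [LC, alC, sigC]
  ring

lemma qf_4 (ρ x y : ℝ) :
    (1 - ρ) ^ (2 : ℕ) * (1 / 4 + y + y ^ (2 : ℕ)) + (1 + ρ * (1 / 2 - x)) ^ (2 : ℕ) * 1 + (1 + ρ * (1 / 2 + x)) ^ (2 : ℕ) * (1 / 4 - y + y ^ (2 : ℕ)) - 2 * ((ρ * (alC x (1 / 2 + y) (-1) (1 / 2 - y))) * ((1 - ρ) ^ (2 : ℕ) * (1 / 2 + y) + (1 + ρ * (1 / 2 - x)) ^ (2 : ℕ) * (-1) + (1 + ρ * (1 / 2 + x)) ^ (2 : ℕ) * (1 / 2 - y))) + (ρ * (alC x (1 / 2 + y) (-1) (1 / 2 - y))) ^ (2 : ℕ) * ((1 - ρ) ^ (2 :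 ℕ) + (1 + ρ * (1 / 2 - x)) ^ (2 : ℕ) + (1 + ρ * (1 / 2 + x)) ^ (2 : ℕ)) = (QC ρ x (1 / 2 + y) (-1) (1 / 2 - y)) := by
  simp only [QC, alC]
  ring

lemma lf_4 (ρ x y : ℝ) :
    (-(1 - ρ)) * (1 / 2 + y) + ((1 / 2 - x) * (1 + ρ * (1 / 2 - x))) * (-1) + ((1 / 2 + x) * (1 + ρ * (1 / 2 + x))) * (1 / 2 - y) - (ρ * (alC x (1 / 2 + y) (-1) (1 / 2 - y))) * (ρ * sigC x) = (LC ρ x (1 / 2 + y) (-1) (1 / 2 - y)) := by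
  simp only [LC, alC, sigC]
  ring

lemma qf_5 (ρ x y : ℝ) :
    (1 - ρ) ^ (2 : ℕ) * (1 / 4 + y + y ^ (2 : ℕ)) + (1 + ρ * (1 / 2 - x)) ^ (2 : ℕ) * (1 / 4 - y + y ^ (2 : ℕ)) + (1 + ρ * (1 / 2 + x)) ^ (2 : ℕ) * 1 - 2 * ((ρ * (alC x (1 / 2 + y) (1 / 2 - y) (-1))) * ((1 - ρ) ^ (2 : ℕ) * (1 / 2 + y) + (1 + ρ * (1 / 2 - x)) ^ (2 : ℕ) * (1 / 2 - y) + (1 + ρ * (1 / 2 + x)) ^ (2 : ℕ) * (-1))) + (ρ * (alC x (1 / 2 + y) (1 / 2 - y) (-1))) ^ (2 : ℕ) * ((1 - ρ) ^ (2 : ℕ) + (1 + ρ * (1 / 2 - x)) ^ (2 : ℕ) + (1 + ρ * (1 / 2 + x)) ^ (2 : ℕ)) = (QC ρ x (1 / 2 + y) (1 / 2 - y) (-1)) := by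
  simp only [QC, alC]
  ring

lemma lf_5 (ρ x y : ℝ) :
    (-(1 - ρ)) * (1 / 2 + y) + ((1 / 2 - x) * (1 + ρ * (1 / 2 - x))) * (1 / 2 - y) + ((1 / 2 + x) * (1 + ρ * (1 / 2 + x))) * (-1) - (ρ * (alC x (1 / 2 + y) (1 / 2 - y) (-1))) * (ρ * sigC x) = (LC ρ x (1 / 2 + y) (1 / 2 - y) (-1)) := by
  simp only [LC, alC, sigC]
  ring

/-- Closed form of the program `progFER`. -/
theorem progF_eq (ρ x r y : ℝ) :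
    progFER ρ x r y = (1 + r * (ρ * alC x (-1) (1 / 2 - y) (1 / 2 + y)), 1 + r * (ρ * alC x (-1) (1 / 2 + y) (1 / 2 - y)), 1 + r * (ρ * alC x (1 / 2 - y) (-1) (1 / 2 + y)), 1 + r * (ρ * alC x (1 / 2 - y) (1 / 2 + y) (-1)), 1 + r * (ρ * alC x (1 / 2 + y) (-1) (1 / 2 - y)), 1 + r * (ρ * alC x (1 / 2 + y) (1 / 2 - y) (-1)), sigC y,
      finalFOld (sigC x) (rg3C ρ x) (ρ ^ (2 : ℕ)) (ssC ρ x) (1 - ssC ρ x / 2 + c3C ρ x) (hrC ρ x) (lamC ρ x)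
        (sigC x * ssC ρ x * (1 - (3 / 64) * ssC ρ x)) (h31C ρ x) (h61C ρ x) (h71C ρ x) (r ^ (2 : ℕ)) (r ^ (2 : ℕ) * sigC y)
        (r ^ (2 : ℕ) * (r * (y ^ (2 : ℕ) - 1 / 4))) (1 - r ^ (2 : ℕ) * sigC y / 2 + r ^ (2 : ℕ) * (r * (y ^ (2 : ℕ) - 1 / 4)))
        ((11 / 128) * (r ^ (2 : ℕ) * sigC y * (1 - (3 / 64) * (r ^ (2 : ℕ) * sigC y)))) ((r ^ (2 : ℕ)) ^ (2 : ℕ))
        (((3 : ℕ) : ℝ) * (r * (y ^ (2 : ℕ) - 1 / 4) * (sigC y)⁻¹))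
        (((sigC y)⁻¹ / 2 ^ (1 : ℕ) / 3) * ((alC x (-1) (1 / 2 - y) (1 / 2 + y)) ^ (2 : ℕ) * (QC ρ x (-1) (1 / 2 - y) (1 / 2 + y)) * (1 + r * (ρ * alC x (-1) (1 / 2 - y) (1 / 2 + y)))⁻¹ + (alC x (-1) (1 / 2 + y) (1 / 2 - y)) ^ (2 : ℕ) * (QC ρ x (-1) (1 / 2 + y) (1 / 2 - y)) * (1 + r * (ρ * alC x (-1) (1 / 2 + y) (1 / 2 - y)))⁻¹ + (alC x (1 / 2 - y) (-1) (1 / 2 + y)) ^ (2 : ℕ) * (QC ρ x (1 / 2 - y) (-1) (1 / 2 + y)) * (1 + r * (ρ * alC x (1 / 2 - y) (-1) (1 / 2 + y)))⁻¹ + (alC x (1 / 2 - y) (1 / 2 + y) (-1)) ^ (2 : ℕ) * (QC ρ x (1 / 2 - y) (1 / 2 + y) (-1)) * (1 + r * (ρ * alC x (1 / 2 - y) (1 / 2 + y) (-1)))⁻¹ + (alC x (1 / 2 + y) (-1) (1 / 2 - y)) ^ (2 : ℕ) * (QC ρ x (1 / 2 + y) (-1) (1 / 2 - y)) * (1 + r * (ρ * alC x (1 / 2 + y) (-1) (1 /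 2 - y)))⁻¹ + (alC x (1 / 2 + y) (1 / 2 - y) (-1)) ^ (2 : ℕ) * (QC ρ x (1 / 2 + y) (1 / 2 - y) (-1)) * (1 + r * (ρ * alC x (1 / 2 + y) (1 / 2 - y) (-1)))⁻¹))
        (((sigC y)⁻¹ / 2 ^ (1 : ℕ) / 3) * ((alC x (-1) (1 / 2 - y) (1 / 2 + y)) ^ (2 : ℕ) * ((1 + r * (ρ * alC x (-1) (1 / 2 - y) (1 / 2 + y)))⁻¹ ^ (2 : ℕ) + 2 * (1 + r * (ρ * alC x (-1) (1 / 2 - y) (1 / 2 + y)))⁻¹) + (alC x (-1) (1 / 2 + y) (1 / 2 - y)) ^ (2 : ℕ) * ((1 + r * (ρ * alC x (-1) (1 / 2 + y) (1 / 2 - y)))⁻¹ ^ (2 : ℕ) + 2 * (1 + r * (ρ * alC x (-1) (1 / 2 + y) (1 / 2 - y)))⁻¹) + (alC x (1 / 2 - y) (-1) (1 / 2 + y)) ^ (2 : ℕ) * ((1 + r * (ρ * alC x (1 / 2 - y) (-1) (1 / 2 + y)))⁻¹ ^ (2 : ℕ) + 2 * (1 + r * (ρ * alC x (1 / 2 - y) (-1) (1 / 2 + y)))⁻¹) + (alC x (1 / 2 - y) (1 / 2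 + y) (-1)) ^ (2 : ℕ) * ((1 + r * (ρ * alC x (1 / 2 - y) (1 / 2 + y) (-1)))⁻¹ ^ (2 : ℕ) + 2 * (1 + r * (ρ * alC x (1 / 2 - y) (1 / 2 + y) (-1)))⁻¹) + (alC x (1 / 2 + y) (-1) (1 / 2 - y)) ^ (2 : ℕ) * ((1 + r * (ρ * alC x (1 / 2 + y) (-1) (1 / 2 - y)))⁻¹ ^ (2 : ℕ) + 2 * (1 + r * (ρ * alC x (1 / 2 + y) (-1) (1 / 2 - y)))⁻¹) + (alC x (1 / 2 + y) (1 / 2 - y) (-1)) ^ (2 : ℕ) * ((1 + r * (ρ * alC x (1 / 2 + y) (1 / 2 - y) (-1)))⁻¹ ^ (2 : ℕ) + 2 * (1 + r * (ρ * alC x (1 / 2 + y) (1 / 2 - y) (-1)))⁻¹)))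
        (((sigC y)⁻¹ / 2 ^ (1 : ℕ) / 3) * ((alC x (-1) (1 / 2 - y) (1 / 2 + y)) * (LC ρ x (-1) (1 / 2 - y) (1 / 2 + y)) * ((QC ρ x (-1) (1 / 2 - y) (1 / 2 + y)) * ((1 + r * (ρ * alC x (-1) (1 / 2 - y) (1 / 2 + y)))⁻¹ ^ (2 : ℕ) + (1 + r * (ρ * alC x (-1) (1 / 2 - y) (1 / 2 + y)))⁻¹)) + (alC x (-1) (1 / 2 + y) (1 / 2 - y)) * (LC ρ x (-1) (1 / 2 + y) (1 / 2 - y)) * ((QC ρ x (-1) (1 / 2 + y) (1 / 2 - y)) * ((1 + r * (ρ * alC x (-1) (1 / 2 + y) (1 / 2 - y)))⁻¹ ^ (2 : ℕ) + (1 + r * (ρ * alC x (-1) (1 / 2 + y) (1 / 2 - y)))⁻¹)) + (alC x (1 / 2 - y) (-1) (1 / 2 + y)) * (LC ρ x (1 / 2 - y) (-1) (1 / 2 + y)) * ((QC ρ x (1 / 2 - y) (-1) (1 / 2 + y)) * ((1 + r * (ρ * alC x (1 / 2 - y) (-1) (1 / 2 + y)))⁻¹ ^ (2 : ℕ) + (1 + r * (ρ * alC x (1 / 2 - y) (-1)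 (1 / 2 + y)))⁻¹)) + (alC x (1 / 2 - y) (1 / 2 + y) (-1)) * (LC ρ x (1 / 2 - y) (1 / 2 + y) (-1)) * ((QC ρ x (1 / 2 - y) (1 / 2 + y) (-1)) * ((1 + r * (ρ * alC x (1 / 2 - y) (1 / 2 + y) (-1)))⁻¹ ^ (2 : ℕ) + (1 + r * (ρ * alC x (1 / 2 - y) (1 / 2 + y) (-1)))⁻¹)) + (alC x (1 / 2 + y) (-1) (1 / 2 - y)) * (LC ρ x (1 / 2 + y) (-1) (1 / 2 - y)) * ((QC ρ x (1 / 2 + y) (-1) (1 / 2 - y)) * ((1 + r * (ρ * alC x (1 / 2 + y) (-1) (1 / 2 - y)))⁻¹ ^ (2 : ℕ) + (1 + r * (ρ * alC x (1 / 2 + y) (-1) (1 / 2 - y)))⁻¹)) + (alC x (1 / 2 + y) (1 / 2 - y) (-1)) * (LC ρ x (1 / 2 + y) (1 / 2 - y) (-1)) * ((QC ρ x (1 / 2 + y) (1 / 2 - y) (-1)) * ((1 + r * (ρ * alC x (1 / 2 + y) (1 / 2 - y) (-1)))⁻¹ ^ (2 : ℕ) + (1 + r * (ρ * alC x (1 / 2 + y) (1 / 2 - y) (-1)))⁻¹))))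
        (((sigC y)⁻¹ / 2 ^ (1 : ℕ) / 3) * ((alC x (-1) (1 / 2 - y) (1 / 2 + y)) ^ (2 : ℕ) * (QC ρ x (-1) (1 / 2 - y) (1 / 2 + y)) * (QC ρ x (-1) (1 / 2 - y) (1 / 2 + y)) * ((1 + r * (ρ * alC x (-1) (1 / 2 - y) (1 / 2 + y)))⁻¹ ^ (3 : ℕ) + 2 * (1 + r * (ρ * alC x (-1) (1 / 2 - y) (1 / 2 + y)))⁻¹ ^ (2 : ℕ) + 3 * (1 + r * (ρ * alC x (-1) (1 / 2 - y) (1 / 2 + y)))⁻¹) + (alC x (-1) (1 / 2 + y) (1 / 2 - y)) ^ (2 : ℕ) * (QC ρ x (-1) (1 / 2 + y) (1 / 2 - y)) * (QC ρ x (-1) (1 / 2 + y) (1 / 2 - y)) * ((1 + r * (ρ * alC x (-1) (1 / 2 + y) (1 / 2 - y)))⁻¹ ^ (3 : ℕ) + 2 * (1 + r * (ρ * alC x (-1) (1 / 2 + y) (1 / 2 - y)))⁻¹ ^ (2 : ℕ) + 3 * (1 + r * (ρ * alC x (-1) (1 / 2 + y) (1 / 2 - y)))⁻¹) + (alC x (1 / 2 - y) (-1) (1 / 2 + y)) ^ (2 : ℕ) * (QC ρ x (1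 / 2 - y) (-1) (1 / 2 + y)) * (QC ρ x (1 / 2 - y) (-1) (1 / 2 + y)) * ((1 + r * (ρ * alC x (1 / 2 - y) (-1) (1 / 2 + y)))⁻¹ ^ (3 : ℕ) + 2 * (1 + r * (ρ * alC x (1 / 2 - y) (-1) (1 / 2 + y)))⁻¹ ^ (2 : ℕ) + 3 * (1 + r * (ρ * alC x (1 / 2 - y) (-1) (1 / 2 + y)))⁻¹) + (alC x (1 / 2 - y) (1 / 2 + y) (-1)) ^ (2 : ℕ) * (QC ρ x (1 / 2 - y) (1 / 2 + y) (-1)) * (QC ρ x (1 / 2 - y) (1 / 2 + y) (-1)) * ((1 + r * (ρ * alC x (1 / 2 - y) (1 / 2 + y) (-1)))⁻¹ ^ (3 : ℕ) + 2 * (1 + r * (ρ * alC x (1 / 2 - y) (1 / 2 + y) (-1)))⁻¹ ^ (2 : ℕ) + 3 * (1 + r * (ρ * alC x (1 / 2 - y) (1 / 2 + y) (-1)))⁻¹) + (alC x (1 / 2 + y) (-1) (1 / 2 - y)) ^ (2 : ℕ) * (QC ρ x (1 / 2 + y) (-1) (1 / 2 - y)) * (QC ρ x (1 / 2 + y) (-1) (1 / 2 - y)) * ((1 + r * (ρ * alC x (1 / 2 + y)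 (-1) (1 / 2 - y)))⁻¹ ^ (3 : ℕ) + 2 * (1 + r * (ρ * alC x (1 / 2 + y) (-1) (1 / 2 - y)))⁻¹ ^ (2 : ℕ) + 3 * (1 + r * (ρ * alC x (1 / 2 + y) (-1) (1 / 2 - y)))⁻¹) + (alC x (1 / 2 + y) (1 / 2 - y) (-1)) ^ (2 : ℕ) * (QC ρ x (1 / 2 + y) (1 / 2 - y) (-1)) * (QC ρ x (1 / 2 + y) (1 / 2 - y) (-1)) * ((1 + r * (ρ * alC x (1 / 2 + y) (1 / 2 - y) (-1)))⁻¹ ^ (3 : ℕ) + 2 * (1 + r * (ρ * alC x (1 / 2 + y) (1 / 2 - y) (-1)))⁻¹ ^ (2 : ℕ) + 3 * (1 + r * (ρ * alC x (1 / 2 + y) (1 / 2 - y) (-1)))⁻¹)))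
        (((sigC y)⁻¹ / 2 ^ (1 : ℕ) / 3) * ((1 + r * (ρ * alC x (-1) (1 / 2 - y) (1 / 2 + y)))⁻¹ * (LC ρ x (-1) (1 / 2 - y) (1 / 2 + y)) ^ (2 : ℕ) + (1 + r * (ρ * alC x (-1) (1 / 2 + y) (1 / 2 - y)))⁻¹ * (LC ρ x (-1) (1 / 2 + y) (1 / 2 - y)) ^ (2 : ℕ) + (1 + r * (ρ * alC x (1 / 2 - y) (-1) (1 / 2 + y)))⁻¹ * (LC ρ x (1 / 2 - y) (-1) (1 / 2 + y)) ^ (2 : ℕ) + (1 + r * (ρ * alC x (1 / 2 - y) (1 / 2 + y) (-1)))⁻¹ * (LC ρ x (1 / 2 - y) (1 / 2 + y) (-1)) ^ (2 : ℕ) + (1 + r * (ρ * alC x (1 / 2 + y) (-1) (1 / 2 - y)))⁻¹ * (LC ρ x (1 / 2 + y) (-1) (1 / 2 - y)) ^ (2 : ℕ) + (1 + r * (ρ * alC x (1 / 2 + y) (1 / 2 - y) (-1)))⁻¹ * (LC ρ x (1 / 2 + y) (1 / 2 - y) (-1)) ^ (2 : ℕ)))) := by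
  simp only [progFER, uPart_eq, vPart_eq, alphas_eq, permA_eq, hPart_eq, matD_eq, permB_eq, polys_eq, finalF_eq]
  simp only [qd_0, qd_1, qd_2, qd_3, qd_4, qd_5, lf_0, lf_1, lf_2, lf_3, lf_4, lf_5]
  simp only [RgE_split, Prod.mk.injEq, true_and]
  exact final_split ..

/-- Closed form of the program `progGER`. -/
theorem progG_eq (ρ x r y : ℝ) :
    progGER ρ x r y = (1 + r * (ρ * alC x (-1) (1 / 2 - y) (1 / 2 + y)), 1 + r * (ρ * alC x (-1) (1 / 2 + y) (1 / 2 - y)), 1 + r * (ρ * alC x (1 / 2 - y) (-1) (1 / 2 + y)), 1 + r * (ρ * alC x (1 / 2 - y) (1 / 2 + y) (-1)), 1 + r * (ρ * alC x (1 / 2 + y) (-1) (1 / 2 - y)), 1 + r * (ρ * alC x (1 / 2 + y) (1 / 2 - y) (-1)), sigC y,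
      -(hrC ρ x) - ((57 : ℕ) : ℝ) / 2 ^ (8 : ℕ) * (((3 : ℕ) : ℝ) * rg3C ρ x - ((11 : ℕ) : ℝ) / 2 ^ (7 : ℕ) * (sigC x * ssC ρ x * (1 - (3 / 64) * ssC ρ x))) - sigC x / 2 ^ (10 : ℕ) +
        ((11 / 128) * (r ^ (2 : ℕ) * sigC y * (1 - (3 / 64) * (r ^ (2 : ℕ) * sigC y)))) * (((7 : ℕ) : ℝ) / 2 ^ (5 : ℕ) * sigC x - ((9 : ℕ) : ℝ) / 2 ^ (5 : ℕ) * (((3 : ℕ) : ℝ) * rg3C ρ x) + ((3 : ℕ) : ℝ) / 2 ^ (8 : ℕ) * (sigC x * ssC ρ x)) -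
        r ^ (2 : ℕ) * (((sigC y)⁻¹ / 2 ^ (1 : ℕ) / 3) * ((alC x (-1) (1 / 2 - y) (1 / 2 + y)) ^ (2 : ℕ) * (QC ρ x (-1) (1 / 2 - y) (1 / 2 + y)) * (1 + r * (ρ * alC x (-1) (1 / 2 - y) (1 / 2 + y)))⁻¹ + (alC x (-1) (1 / 2 + y) (1 / 2 - y)) ^ (2 : ℕ) * (QC ρ x (-1) (1 / 2 + y) (1 / 2 - y)) * (1 + r * (ρ * alC x (-1) (1 / 2 + y) (1 / 2 - y)))⁻¹ + (alC x (1 / 2 - y) (-1) (1 / 2 + y)) ^ (2 : ℕ) * (QC ρ x (1 / 2 - y) (-1) (1 / 2 + y)) * (1 + r * (ρ * alC x (1 / 2 - y) (-1) (1 / 2 + y)))⁻¹ + (alC x (1 / 2 - y) (1 / 2 + y) (-1)) ^ (2 : ℕ) * (QC ρ x (1 / 2 - y) (1 / 2 + y) (-1)) * (1 + r * (ρ * alC x (1 / 2 - y) (1 / 2 + y) (-1)))⁻¹ + (alC x (1 / 2 + y) (-1) (1 / 2 - y)) ^ (2 : ℕ) * (QC ρ x (1 / 2 + y) (-1) (1 / 2 - y)) * (1 + r * (ρ * alC x (1 / 2 +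 y) (-1) (1 / 2 - y)))⁻¹ + (alC x (1 / 2 + y) (1 / 2 - y) (-1)) ^ (2 : ℕ) * (QC ρ x (1 / 2 + y) (1 / 2 - y) (-1)) * (1 + r * (ρ * alC x (1 / 2 + y) (1 / 2 - y) (-1)))⁻¹)) + (((3 : ℕ) : ℝ) * (r * (y ^ (2 : ℕ) - 1 / 4) * (sigC y)⁻¹)) * (lamC ρ x - (((7 : ℕ) : ℝ) / 2 ^ (5 : ℕ) * sigC x - ((9 : ℕ) : ℝ) / 2 ^ (5 : ℕ) * (((3 : ℕ) : ℝ) * rg3C ρ x) + ((3 : ℕ) : ℝ) / 2 ^ (8 : ℕ) * (sigC x * ssC ρ x)))) := by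
  simp only [progGER, uPart_eq, vPart_eq, alphas_eq, permA_eq, hPart_eq, matG_eq, permG_eq]
  simp only [qd_0, qd_1, qd_2, qd_3, qd_4, qd_5]

/-- Closed form of the program `baseCER`. -/
theorem baseC_eq (ρ x r y : ℝ) :
    baseCER ρ x r y = (ρ * alC x (-1) (1 / 2 - y) (1 / 2 + y), 1 + r * (ρ * alC x (-1) (1 / 2 - y) (1 / 2 + y)), (1 - ρ) ^ (2 : ℕ) * (-1) + (1 + ρ * (1 / 2 - x)) ^ (2 : ℕ) * (1 / 2 - y) + (1 + ρ * (1 / 2 + x)) ^ (2 : ℕ) * (1 / 2 + y), (1 - ρ) ^ (2 : ℕ) * 1 + (1 + ρ * (1 / 2 - x)) ^ (2 : ℕ) * (1 / 4 - y + y ^ (2 : ℕ)) + (1 + ρ * (1 / 2 + x)) ^ (2 : ℕ) * (1 / 4 + y + y ^ (2 : ℕ)), (-(1 - ρ)) * (-1) + ((1 / 2 - x) * (1 + ρ * (1 / 2 - x))) * (1 / 2 - y) + ((1 / 2 + x) * (1 + ρ * (1 / 2 + x))) * (1 / 2 + y), ρ * alC x (-1) (1 / 2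 + y) (1 / 2 - y), 1 + r * (ρ * alC x (-1) (1 / 2 + y) (1 / 2 - y)), (1 - ρ) ^ (2 : ℕ) * (-1) + (1 + ρ * (1 / 2 - x)) ^ (2 : ℕ) * (1 / 2 + y) + (1 + ρ * (1 / 2 + x)) ^ (2 : ℕ) * (1 / 2 - y), (1 - ρ) ^ (2 : ℕ) * 1 + (1 + ρ * (1 / 2 - x)) ^ (2 : ℕ) * (1 / 4 + y + y ^ (2 : ℕ)) + (1 + ρ * (1 / 2 + x)) ^ (2 : ℕ) * (1 / 4 - y + y ^ (2 : ℕ)), (-(1 - ρ)) * (-1) + ((1 / 2 - x) * (1 + ρ * (1 / 2 - x))) * (1 / 2 + y) + ((1 / 2 + x) * (1 + ρ * (1 / 2 + x))) * (1 / 2 - y), ρ * alC x (1 / 2 - y) (-1) (1 / 2 + y), 1 + r * (ρ * alC x (1 / 2 - y) (-1) (1 / 2 + y)), (1 - ρ) ^ (2 : ℕ) * (1 / 2 - y) + (1 + ρ * (1 / 2 - x)) ^ (2 : ℕ) * (-1) + (1 + ρ * (1 / 2 + x)) ^ (2 : ℕ) * (1 / 2 + y), (1 - ρ) ^ (2 : ℕ) * (1 / 4 - y + y ^ (2 : ℕ)) + (1 + ρ * (1 / 2 - x)) ^ (2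 : ℕ) * 1 + (1 + ρ * (1 / 2 + x)) ^ (2 : ℕ) * (1 / 4 + y + y ^ (2 : ℕ)), (-(1 - ρ)) * (1 / 2 - y) + ((1 / 2 - x) * (1 + ρ * (1 / 2 - x))) * (-1) + ((1 / 2 + x) * (1 + ρ * (1 / 2 + x))) * (1 / 2 + y), ρ * alC x (1 / 2 - y) (1 / 2 + y) (-1), 1 + r * (ρ * alC x (1 / 2 - y) (1 / 2 + y) (-1)), (1 - ρ) ^ (2 : ℕ) * (1 / 2 - y) + (1 + ρ * (1 / 2 - x)) ^ (2 : ℕ) * (1 / 2 + y) + (1 + ρ * (1 / 2 + x)) ^ (2 : ℕ) * (-1), (1 - ρ) ^ (2 : ℕ) * (1 / 4 - y + y ^ (2 : ℕ)) + (1 + ρ * (1 / 2 - x)) ^ (2 : ℕ) * (1 / 4 + y + y ^ (2 : ℕ)) + (1 + ρ * (1 / 2 + x)) ^ (2 : ℕ) * 1, (-(1 - ρ)) * (1 / 2 - y) + ((1 / 2 - x) * (1 + ρ * (1 / 2 - x))) * (1 / 2 + y) + ((1 / 2 + x) * (1 + ρ * (1 / 2 + x))) * (-1), ρ * alC x (1 / 2 + y) (-1) (1 / 2 - y), 1 + r * (ρ * alC x (1 / 2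 + y) (-1) (1 / 2 - y)), (1 - ρ) ^ (2 : ℕ) * (1 / 2 + y) + (1 + ρ * (1 / 2 - x)) ^ (2 : ℕ) * (-1) + (1 + ρ * (1 / 2 + x)) ^ (2 : ℕ) * (1 / 2 - y), (1 - ρ) ^ (2 : ℕ) * (1 / 4 + y + y ^ (2 : ℕ)) + (1 + ρ * (1 / 2 - x)) ^ (2 : ℕ) * 1 + (1 + ρ * (1 / 2 + x)) ^ (2 : ℕ) * (1 / 4 - y + y ^ (2 : ℕ)), (-(1 - ρ)) * (1 / 2 + y) + ((1 / 2 - x) * (1 + ρ * (1 / 2 - x))) * (-1) + ((1 / 2 + x) * (1 + ρ * (1 / 2 + x))) * (1 / 2 - y), ρ * alC x (1 / 2 + y) (1 / 2 - y) (-1), 1 + r * (ρ * alC x (1 / 2 + y) (1 / 2 - y) (-1)), (1 - ρ) ^ (2 : ℕ) * (1 / 2 + y) + (1 + ρ * (1 / 2 - x)) ^ (2 : ℕ) * (1 / 2 - y) + (1 + ρ * (1 / 2 + x)) ^ (2 : ℕ) * (-1), (1 - ρ) ^ (2 : ℕ) * (1 / 4 + y + y ^ (2 : ℕ)) + (1 + ρ * (1 / 2 - x)) ^ (2 : ℕ) * (1 / 4 - y + y ^ (2 : ℕ)) + (1 + ρ *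 (1 / 2 + x)) ^ (2 : ℕ) * 1, (-(1 - ρ)) * (1 / 2 + y) + ((1 / 2 - x) * (1 + ρ * (1 / 2 - x))) * (1 / 2 - y) + ((1 / 2 + x) * (1 + ρ * (1 / 2 + x))) * (-1), (1 - ρ) ^ (2 : ℕ) + (1 + ρ * (1 / 2 - x)) ^ (2 : ℕ) + (1 + ρ * (1 / 2 + x)) ^ (2 : ℕ), ρ * sigC x, r * ρ, r ^ (2 : ℕ), ssC ρ x, ((1 - ssC ρ x / 2 + c3C ρ x) * (1 - r ^ (2 : ℕ) * sigC y / 2 + r ^ (2 : ℕ) * (r * (y ^ (2 : ℕ) - 1 / 4)))), (1 - (25 / 128) * (r ^ (2 : ℕ) * sigC y) + (11 / 1024) * (r ^ (2 : ℕ) * sigC y) ^ (2 : ℕ)) * (3 * (c3C ρ x) - (11 / 128) * (ssC ρ x) ^ (2 : ℕ) * (1 - (3 / 64) * (ssC ρ x))) +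
        (1 - ssC ρ x / 2 + c3C ρ x) * (1 - (21 / 128) * (ssC ρ x)) * (3 * (r ^ (2 : ℕ) * (r * (y ^ (2 : ℕ) - 1 / 4))) - (11 / 128) * (r ^ (2 : ℕ) * sigC y) ^ (2 : ℕ) * (1 - (3 / 64) * (r ^ (2 : ℕ) * sigC y))), (ssC ρ x) + (r ^ (2 : ℕ) * sigC y) - (57 / 256) * (r ^ (2 : ℕ) * sigC y) * (3 * (c3C ρ x) - (11 / 128) * (ssC ρ x) ^ (2 : ℕ) * (1 - (3 / 64) * (ssC ρ x))) -
        ((7 / 32) * (ssC ρ x) - (9 / 32) * (3 * (c3C ρ x)) + (3 / 256) * (ssC ρ x) ^ (2 : ℕ)) * (3 * (r ^ (2 : ℕ) * (r * (y ^ (2 : ℕ) - 1 / 4))) - (11 / 128) * (r ^ (2 : ℕ) * sigC y) ^ (2 : ℕ) * (1 - (3 / 64) * (r ^ (2 : ℕ) * sigC y))) -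
        (1 / 1024) * (r ^ (2 : ℕ) * sigC y) * (ssC ρ x)) := by
  simp only [baseCER, uPart_eq, vPart_eq, alphas_eq, permA_eq, matF_eq, polyC_eq]

/-- The corner test for the first functional, in closed form. -/
theorem phiFC_closed {ρ x r y : ℝ} (h : PhiFC ρ x r y) (t0 t1 t2 t3 t4 t5 : ℝ)
    (b0 : -3 * (1 + (r * ρ) * alC x (-1) (1 / 2 - y) (1 / 2 + y)) ≤ t0) (e0 : 0 < (1 + (r * ρ) * alC x (-1) (1 / 2 - y) (1 / 2 + y)) → t0 = rawFcl ((1 - ssC ρ x / 2 + c3C ρ x) * (1 - r ^ (2 : ℕ) * sigC y / 2 + r ^ (2 : ℕ) * (r * (y ^ (2 : ℕ) - 1 / 4)))) (1 + (r * ρ) * alC x (-1) (1 / 2 - y) (1 / 2 + y)) (ssC ρ x) (2 * (r * ρ * LC ρ x (-1) (1 / 2 - y) (1 / 2 + y)) + (1 + (r * ρ) * alC x (-1) (1 / 2 - y) (1 / 2 + y))⁻¹ * (r ^ (2 : ℕ) * QC ρ x (-1) (1 / 2 - y)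 (1 / 2 + y))))
    (b1 : -3 * (1 + (r * ρ) * alC x (-1) (1 / 2 + y) (1 / 2 - y)) ≤ t1) (e1 : 0 < (1 + (r * ρ) * alC x (-1) (1 / 2 + y) (1 / 2 - y)) → t1 = rawFcl ((1 - ssC ρ x / 2 + c3C ρ x) * (1 - r ^ (2 : ℕ) * sigC y / 2 + r ^ (2 : ℕ) * (r * (y ^ (2 : ℕ) - 1 / 4)))) (1 + (r * ρ) * alC x (-1) (1 / 2 + y) (1 / 2 - y)) (ssC ρ x) (2 * (r * ρ * LC ρ x (-1) (1 / 2 + y) (1 / 2 - y)) + (1 + (r * ρ) * alC x (-1) (1 / 2 + y) (1 / 2 - y))⁻¹ * (r ^ (2 : ℕ) * QC ρ x (-1) (1 / 2 + y) (1 / 2 - y))))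
    (b2 : -3 * (1 + (r * ρ) * alC x (1 / 2 - y) (-1) (1 / 2 + y)) ≤ t2) (e2 : 0 < (1 + (r * ρ) * alC x (1 / 2 - y) (-1) (1 / 2 + y)) → t2 = rawFcl ((1 - ssC ρ x / 2 + c3C ρ x) * (1 - r ^ (2 : ℕ) * sigC y / 2 + r ^ (2 : ℕ) * (r * (y ^ (2 : ℕ) - 1 / 4)))) (1 + (r * ρ) * alC x (1 / 2 - y) (-1) (1 / 2 + y)) (ssC ρ x) (2 * (r * ρ * LC ρ x (1 / 2 - y) (-1) (1 / 2 + y)) + (1 + (r * ρ) * alC x (1 / 2 - y) (-1) (1 / 2 + y))⁻¹ * (r ^ (2 : ℕ) * QC ρ x (1 / 2 - y) (-1) (1 / 2 + y))))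
    (b3 : -3 * (1 + (r * ρ) * alC x (1 / 2 - y) (1 / 2 + y) (-1)) ≤ t3) (e3 : 0 < (1 + (r * ρ) * alC x (1 / 2 - y) (1 / 2 + y) (-1)) → t3 = rawFcl ((1 - ssC ρ x / 2 + c3C ρ x) * (1 - r ^ (2 : ℕ) * sigC y / 2 + r ^ (2 : ℕ) * (r * (y ^ (2 : ℕ) - 1 / 4)))) (1 + (r * ρ) * alC x (1 / 2 - y) (1 / 2 + y) (-1)) (ssC ρ x) (2 * (r * ρ * LC ρ x (1 / 2 - y) (1 / 2 + y) (-1)) + (1 + (r * ρ) * alC x (1 / 2 - y) (1 / 2 + y) (-1))⁻¹ * (r ^ (2 : ℕ) * QC ρ x (1 / 2 - y) (1 / 2 + y) (-1))))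
    (b4 : -3 * (1 + (r * ρ) * alC x (1 / 2 + y) (-1) (1 / 2 - y)) ≤ t4) (e4 : 0 < (1 + (r * ρ) * alC x (1 / 2 + y) (-1) (1 / 2 - y)) → t4 = rawFcl ((1 - ssC ρ x / 2 + c3C ρ x) * (1 - r ^ (2 : ℕ) * sigC y / 2 + r ^ (2 : ℕ) * (r * (y ^ (2 : ℕ) - 1 / 4)))) (1 + (r * ρ) * alC x (1 / 2 + y) (-1) (1 / 2 - y)) (ssC ρ x) (2 * (r * ρ * LC ρ x (1 / 2 + y) (-1) (1 / 2 - y)) + (1 + (r * ρ) * alC x (1 / 2 + y) (-1) (1 / 2 - y))⁻¹ * (r ^ (2 : ℕ) * QC ρ x (1 / 2 + y) (-1) (1 / 2 - y))))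
    (b5 : -3 * (1 + (r * ρ) * alC x (1 / 2 + y) (1 / 2 - y) (-1)) ≤ t5) (e5 : 0 < (1 + (r * ρ) * alC x (1 / 2 + y) (1 / 2 - y) (-1)) → t5 = rawFcl ((1 - ssC ρ x / 2 + c3C ρ x) * (1 - r ^ (2 : ℕ) * sigC y / 2 + r ^ (2 : ℕ) * (r * (y ^ (2 : ℕ) - 1 / 4)))) (1 + (r * ρ) * alC x (1 / 2 + y) (1 / 2 - y) (-1)) (ssC ρ x) (2 * (r * ρ * LC ρ x (1 / 2 + y) (1 / 2 - y) (-1)) + (1 + (r * ρ) * alC x (1 / 2 + y) (1 / 2 - y) (-1))⁻¹ * (r ^ (2 : ℕ) * QC ρ x (1 / 2 + y) (1 / 2 - y) (-1))))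
    : 6 * ((1 - (25 / 128) * (r ^ (2 : ℕ) * sigC y) + (11 / 1024) * (r ^ (2 : ℕ) * sigC y) ^ (2 : ℕ)) * (3 * (c3C ρ x) - (11 / 128) * (ssC ρ x) ^ (2 : ℕ) * (1 - (3 / 64) * (ssC ρ x))) +
        (1 - ssC ρ x / 2 + c3C ρ x) * (1 - (21 / 128) * (ssC ρ x)) * (3 * (r ^ (2 : ℕ) * (r * (y ^ (2 : ℕ) - 1 / 4))) - (11 / 128) * (r ^ (2 : ℕ) * sigC y) ^ (2 : ℕ) * (1 - (3 / 64) * (r ^ (2 : ℕ) * sigC y)))) ≤ t0 + t1 + t2 + t3 + t4 + t5 := by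
  have ee0 : 1 + r * (ρ * alC x (-1) (1 / 2 - y) (1 / 2 + y)) = 1 + (r * ρ) * alC x (-1) (1 / 2 - y) (1 / 2 + y) := by ring
  have ee1 : 1 + r * (ρ * alC x (-1) (1 / 2 + y) (1 / 2 - y)) = 1 + (r * ρ) * alC x (-1) (1 / 2 + y) (1 / 2 - y) := by ring
  have ee2 : 1 + r * (ρ * alC x (1 / 2 - y) (-1) (1 / 2 + y)) = 1 + (r * ρ) * alC x (1 / 2 - y) (-1) (1 / 2 + y) := by ring
  have ee3 : 1 + r * (ρ * alC x (1 / 2 - y) (1 / 2 + y) (-1)) = 1 + (r * ρ) * alC x (1 / 2 - y) (1 / 2 + y) (-1) := by ring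
  have ee4 : 1 + r * (ρ * alC x (1 / 2 + y) (-1) (1 / 2 - y)) = 1 + (r * ρ) * alC x (1 / 2 + y) (-1) (1 / 2 - y) := by ring
  have ee5 : 1 + r * (ρ * alC x (1 / 2 + y) (1 / 2 - y) (-1)) = 1 + (r * ρ) * alC x (1 / 2 + y) (1 / 2 - y) (-1) := by ring
  unfold PhiFC at h
  rw [baseC_eq] at h
  simp only [rawF_eq, qf_0, qf_1, qf_2, qf_3, qf_4, qf_5, lf_0, lf_1, lf_2, lf_3, lf_4, lf_5, ee0, ee1, ee2, ee3, ee4, ee5] at h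
  exact h t0 t1 t2 t3 t4 t5 b0 e0 b1 e1 b2 e2 b3 e3 b4 e4 b5 e5

/-- The corner test for the second functional, in closed form. -/
theorem phiGC_closed {ρ x r y : ℝ} (h : PhiGC ρ x r y) (t0 t1 t2 t3 t4 t5 : ℝ)
    (b0 : t0 ≤ 6 * (1 + (r * ρ) * alC x (-1) (1 / 2 - y) (1 / 2 + y))) (e0 : 0 < (1 + (r * ρ) * alC x (-1) (1 / 2 - y) (1 / 2 + y)) → t0 = (1 + (r * ρ) * alC x (-1) (1 / 2 - y) (1 / 2 + y)) * ssC ρ x + (2 * (r * ρ * LC ρ x (-1) (1 / 2 - y) (1 / 2 + y)) + (1 + (r * ρ) * alC x (-1) (1 / 2 - y) (1 / 2 + y))⁻¹ * (r ^ (2 : ℕ) * QC ρ x (-1) (1 / 2 - y) (1 / 2 + y))))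
    (b1 : t1 ≤ 6 * (1 + (r * ρ) * alC x (-1) (1 / 2 + y) (1 / 2 - y))) (e1 : 0 < (1 + (r * ρ) * alC x (-1) (1 / 2 + y) (1 / 2 - y)) → t1 = (1 + (r * ρ) * alC x (-1) (1 / 2 + y) (1 / 2 - y)) * ssC ρ x + (2 * (r * ρ * LC ρ x (-1) (1 / 2 + y) (1 / 2 - y)) + (1 + (r * ρ) * alC x (-1) (1 / 2 + y) (1 / 2 - y))⁻¹ * (r ^ (2 : ℕ) * QC ρ x (-1) (1 / 2 + y) (1 / 2 - y))))
    (b2 : t2 ≤ 6 * (1 + (r * ρ) * alC x (1 / 2 - y) (-1) (1 / 2 + y))) (e2 : 0 < (1 + (r * ρ) * alC x (1 / 2 - y) (-1) (1 / 2 + y)) → t2 = (1 + (r * ρ) * alC x (1 / 2 - y) (-1) (1 / 2 + y)) * ssC ρ x + (2 * (r * ρ * LC ρ x (1 / 2 - y) (-1) (1 / 2 + y)) + (1 + (r * ρ) * alC x (1 / 2 - y) (-1) (1 / 2 + y))⁻¹ * (r ^ (2 : ℕ) * QC ρ x (1 / 2 - y) (-1) (1 / 2 + y))))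
    (b3 : t3 ≤ 6 * (1 + (r * ρ) * alC x (1 / 2 - y) (1 / 2 + y) (-1))) (e3 : 0 < (1 + (r * ρ) * alC x (1 / 2 - y) (1 / 2 + y) (-1)) → t3 = (1 + (r * ρ) * alC x (1 / 2 - y) (1 / 2 + y) (-1)) * ssC ρ x + (2 * (r * ρ * LC ρ x (1 / 2 - y) (1 / 2 + y) (-1)) + (1 + (r * ρ) * alC x (1 / 2 - y) (1 / 2 + y) (-1))⁻¹ * (r ^ (2 : ℕ) * QC ρ x (1 / 2 - y) (1 / 2 + y) (-1))))
    (b4 : t4 ≤ 6 * (1 + (r * ρ) * alC x (1 / 2 + y) (-1) (1 / 2 - y))) (e4 : 0 < (1 + (r * ρ) * alC x (1 / 2 + y) (-1) (1 / 2 - y)) → t4 = (1 + (r * ρ) * alC x (1 / 2 + y) (-1) (1 / 2 - y)) * ssC ρ x + (2 * (r * ρ * LC ρ x (1 / 2 + y) (-1) (1 / 2 - y)) + (1 + (r * ρ) * alC x (1 / 2 + y) (-1) (1 / 2 - y))⁻¹ * (r ^ (2 : ℕ) * QC ρ x (1 / 2 + y) (-1) (1 / 2 - y))))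
    (b5 : t5 ≤ 6 * (1 + (r * ρ) * alC x (1 / 2 + y) (1 / 2 - y) (-1))) (e5 : 0 < (1 + (r * ρ) * alC x (1 / 2 + y) (1 / 2 - y) (-1)) → t5 = (1 + (r * ρ) * alC x (1 / 2 + y) (1 / 2 - y) (-1)) * ssC ρ x + (2 * (r * ρ * LC ρ x (1 / 2 + y) (1 / 2 - y) (-1)) + (1 + (r * ρ) * alC x (1 / 2 + y) (1 / 2 - y) (-1))⁻¹ * (r ^ (2 : ℕ) * QC ρ x (1 / 2 + y) (1 / 2 - y) (-1))))
    : t0 + t1 + t2 + t3 + t4 + t5 ≤ 6 * ((ssC ρ x) + (r ^ (2 : ℕ) * sigC y) - (57 / 256) * (r ^ (2 : ℕ) * sigC y) * (3 * (c3C ρ x) - (11 / 128) * (ssC ρ x) ^ (2 : ℕ) * (1 - (3 / 64) * (ssC ρ x))) -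
        ((7 / 32) * (ssC ρ x) - (9 / 32) * (3 * (c3C ρ x)) + (3 / 256) * (ssC ρ x) ^ (2 : ℕ)) * (3 * (r ^ (2 : ℕ) * (r * (y ^ (2 : ℕ) - 1 / 4))) - (11 / 128) * (r ^ (2 : ℕ) * sigC y) ^ (2 : ℕ) * (1 - (3 / 64) * (r ^ (2 : ℕ) * sigC y))) -
        (1 / 1024) * (r ^ (2 : ℕ) * sigC y) * (ssC ρ x)) := by
  have ee0 : 1 + r * (ρ * alC x (-1) (1 / 2 - y) (1 / 2 + y)) = 1 + (r * ρ) * alC x (-1) (1 / 2 - y) (1 / 2 + y) := by ring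
  have ee1 : 1 + r * (ρ * alC x (-1) (1 / 2 + y) (1 / 2 - y)) = 1 + (r * ρ) * alC x (-1) (1 / 2 + y) (1 / 2 - y) := by ring
  have ee2 : 1 + r * (ρ * alC x (1 / 2 - y) (-1) (1 / 2 + y)) = 1 + (r * ρ) * alC x (1 / 2 - y) (-1) (1 / 2 + y) := by ring
  have ee3 : 1 + r * (ρ * alC x (1 / 2 - y) (1 / 2 + y) (-1)) = 1 + (r * ρ) * alC x (1 / 2 - y) (1 / 2 + y) (-1) := by ring
  have ee4 : 1 + r * (ρ * alC x (1 / 2 + y) (-1) (1 / 2 - y)) = 1 + (r * ρ) * alC x (1 / 2 + y) (-1) (1 / 2 - y) := by ring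
  have ee5 : 1 + r * (ρ * alC x (1 / 2 + y) (1 / 2 - y) (-1)) = 1 + (r * ρ) * alC x (1 / 2 + y) (1 / 2 - y) (-1) := by ring
  unfold PhiGC at h
  rw [baseC_eq] at h
  simp only [rawG_eq, qf_0, qf_1, qf_2, qf_3, qf_4, qf_5, lf_0, lf_1, lf_2, lf_3, lf_4, lf_5, ee0, ee1, ee2, ee3, ee4, ee5] at h
  exact h t0 t1 t2 t3 t4 t5 b0 e0 b1 e1 b2 e2 b3 e3 b4 e4 b5 e5

end Vale.Agent.Lib.P154E
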