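import Vale.Agent.Lib.P154E.ETProg

/-!
Generated kernel checks of the Taylor model box tests for `F`.
-/

namespace Vale.Agent.Lib.P154E

open Vale.Agent.Lib.P154

theorem chkF_0 : chk testFX (CT.a (CT.a (CT.d (CT.d (CT.a CT.l CT.l) (CT.d CT.l (CT.b CT.l CT.l))) (CT.d (CT.b (CT.c CT.l (CT.d CT.l CT.l)) (CT.c CT.l (CT.d CT.l (CT.a CT.l CT.l)))) (CT.c (CT.d CT.l CT.l) (CT.c (CT.d CT.l (CT.a CT.l CT.l)) (CT.b (CT.d CT.l CT.l) (CT.d CT.l CT.l)))))) (CT.c (CT.d (CT.d CT.l CT.l) (CT.b (CT.d CT.l CT.l) (CT.d CT.l CT.l))) (CT.d (CT.d CT.l (CT.d CT.l CT.l)) (CT.c (CT.b (CT.d CT.l CT.l) (CT.d CT.l (CT.a CT.l CT.l))) (CT.d (CT.d CT.l (CT.a CT.l CT.l)) (CT.b (CT.d CT.l CT.l) (CT.d CT.l CT.l))))))) (CT.a (CT.b (CT.d (CT.d CT.l (CT.a CT.l CT.l)) (CT.c (CT.d CT.l CT.l) (CT.d (CT.d CT.l CT.l) (CT.c CT.l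 (CT.a CT.l CT.l))))) (CT.d (CT.d CT.l (CT.d CT.l CT.l)) (CT.c (CT.d CT.l CT.l) (CT.d (CT.d CT.l CT.l) (CT.a (CT.d CT.l CT.l) (CT.d CT.l CT.l)))))) (CT.b (CT.d (CT.d CT.l (CT.a CT.l CT.l)) (CT.d (CT.c CT.l (CT.a CT.l CT.l)) (CT.c CT.l (CT.c CT.l (CT.a CT.l CT.l))))) (CT.c (CT.d (CT.d CT.l CT.l) (CT.d CT.l (CT.a CT.l CT.l))) (CT.d (CT.d CT.l (CT.a CT.l CT.l)) (CT.d (CT.d CT.l (CT.a CT.l CT.l)) (CT.a (CT.d CT.l CT.l) (CT.d CT.l CT.l)))))))) 0 1099511627776 0 412316860416 0 549755813888 0 1649267441664 = true := by decide +kernel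

theorem chkF_1 : chk testFX (CT.c (CT.d (CT.d CT.l (CT.d CT.l (CT.a CT.l CT.l))) (CT.d (CT.d (CT.d CT.l CT.l) (CT.c CT.l (CT.a CT.l CT.l))) (CT.c (CT.a (CT.d CT.l CT.l) (CT.d CT.l CT.l)) (CT.d (CT.a CT.l CT.l) (CT.c CT.l (CT.a CT.l CT.l)))))) (CT.d (CT.d (CT.c CT.l (CT.d CT.l CT.l)) (CT.d (CT.d CT.l CT.l) (CT.a (CT.d CT.l CT.l) (CT.d CT.l CT.l)))) (CT.c (CT.d (CT.d (CT.a CT.l CT.l) (CT.d CT.l CT.l)) (CT.a (CT.c (CT.d CT.l CT.l) (CT.d CT.l CT.l)) (CT.c (CT.d CT.l CT.l) (CT.d CT.l CT.l)))) (CT.a (CT.d (CT.d (CT.b CT.l CT.l) (CT.d CT.l CT.l)) (CT.d (CT.d CT.l CT.l) (CT.a (CT.c CT.l CT.l) (CT.d CT.l CT.l)))) (CT.d (CT.d (CT.b CT.l CT.l) (CT.d CT.l CT.l)) (CT.d (CT.d CT.l CT.l) (CT.a (CT.d CT.l CT.l) (CT.d CT.l CT.l)))))))) 0 274877906944 0 206158430208 549755813888 549755813888 0 1649267441664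 = true := by decide +kernel

theorem chkF_2 : chk testFX (CT.c (CT.d (CT.d CT.l (CT.d CT.l (CT.a CT.l CT.l))) (CT.c (CT.d (CT.d CT.l (CT.a CT.l CT.l)) (CT.a (CT.d CT.l CT.l) (CT.d CT.l CT.l))) (CT.d (CT.a (CT.d CT.l CT.l) (CT.d CT.l CT.l)) (CT.d (CT.d CT.l (CT.a CT.l CT.l)) (CT.a (CT.a CT.l CT.l) (CT.a CT.l CT.l)))))) (CT.d (CT.d (CT.d CT.l (CT.a CT.l CT.l)) (CT.c (CT.d CT.l (CT.a CT.l CT.l)) (CT.d (CT.a CT.l CT.l) (CT.d CT.l (CT.a CT.l CT.l))))) (CT.c (CT.d (CT.d (CT.d CT.l CT.l) (CT.a (CT.a CT.l CT.l) (CT.a CT.l CT.l))) (CT.a (CT.d (CT.b CT.l CT.l) (CT.d CT.l CT.l)) (CT.d (CT.b CT.l CT.l) (CT.d CT.l CT.l)))) (CT.a (CT.d (CT.d (CT.d CT.l CT.l) (CT.d CT.l CT.l)) (CT.d (CT.d CT.l (CT.a CT.l CT.l)) (CT.a (CT.d CT.l CT.l) (CT.d CT.l CT.l)))) (CT.d (CT.d (CT.d CT.l CT.l) (CT.d CT.l CT.l)) (CT.d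 (CT.d CT.l (CT.a CT.l CT.l)) (CT.a (CT.d CT.l CT.l) (CT.d CT.l CT.l)))))))) 0 274877906944 206158430208 206158430208 549755813888 549755813888 0 1649267441664 = true := by decide +kernel

theorem chkF_3 : chk testFX (CT.d (CT.d (CT.d CT.l CT.l) (CT.b (CT.d CT.l CT.l) (CT.d CT.l (CT.a CT.l CT.l)))) (CT.b (CT.c (CT.d (CT.d CT.l CT.l) (CT.a (CT.d CT.l CT.l) (CT.d CT.l CT.l))) (CT.d (CT.d CT.l (CT.a CT.l CT.l)) (CT.a (CT.d CT.l (CT.a CT.l CT.l)) (CT.d CT.l (CT.a CT.l CT.l))))) (CT.c (CT.d (CT.d CT.l (CT.a CT.l CT.l)) (CT.a (CT.d CT.l CT.l) (CT.d CT.l CT.l))) (CT.a (CT.d (CT.d CT.l CT.l) (CT.a (CT.d CT.l CT.l) (CT.d CT.l CT.l))) (CT.d (CT.d CT.l CT.l) (CT.a (CT.d CT.l CT.l) (CT.d CT.l CT.l))))))) 274877906944 274877906944 0 412316860416 549755813888 274877906944 0 1649267441664 = true := by decide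 +kernel

end Vale.Agent.Lib.P154E
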