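import Vale.Agent.Lib.P154E.ETProg

/-!
Generated kernel checks of the Taylor model box tests for `F`.
-/

namespace Vale.Agent.Lib.P154E

open Vale.Agent.Lib.P154

theorem chkF_4 : chk testFX (CT.b (CT.d (CT.d (CT.d CT.l CT.l) (CT.a (CT.d CT.l (CT.c CT.l CT.l)) (CT.d CT.l (CT.c CT.l CT.l)))) (CT.a (CT.c (CT.d (CT.d CT.l (CT.a CT.l CT.l)) (CT.d (CT.a CT.l CT.l) (CT.d CT.l CT.l))) (CT.d (CT.d (CT.b CT.l CT.l) (CT.d CT.l CT.l)) (CT.d (CT.d CT.l (CT.a CT.l CT.l)) (CT.a (CT.d CT.l CT.l) (CT.d CT.l CT.l))))) (CT.c (CT.d (CT.d CT.l (CT.a CT.l CT.l)) (CT.d (CT.a CT.l CT.l) (CT.d CT.l CT.l))) (CT.d (CT.d (CT.a CT.l CT.l) (CT.d CT.l CT.l)) (CT.d (CT.d CT.l (CT.a CT.l CT.l)) (CT.a (CT.d CT.l CT.l) (CT.d CT.l CT.l))))))) (CT.c (CT.d (CT.d (CT.a CT.l CT.l) (CT.d CT.l (CT.a CT.l CT.l))) (CT.a (CT.d (CT.a (CT.d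 CT.l CT.l) (CT.d CT.l CT.l)) (CT.d (CT.d CT.l CT.l) (CT.d CT.l CT.l))) (CT.d (CT.d CT.l (CT.a CT.l CT.l)) (CT.d (CT.d CT.l CT.l) (CT.c CT.l (CT.a CT.l CT.l)))))) (CT.d (CT.d (CT.d CT.l CT.l) (CT.d (CT.a CT.l CT.l) (CT.d CT.l (CT.a CT.l CT.l)))) (CT.a (CT.d (CT.d (CT.d CT.l CT.l) (CT.d CT.l CT.l)) (CT.b (CT.d (CT.c CT.l CT.l) (CT.d CT.l CT.l)) (CT.d (CT.c CT.l CT.l) (CT.d CT.l CT.l)))) (CT.d (CT.d (CT.d CT.l CT.l) (CT.d CT.l CT.l)) (CT.c (CT.b (CT.d CT.l CT.l) (CT.d CT.l CT.l)) (CT.d (CT.d CT.l CT.l) (CT.d CT.l CT.l)))))))) 274877906944 274877906944 0 412316860416 824633720832 274877906944 0 1649267441664 = true := by decide +kernel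

theorem chkF_5 : chk testFX (CT.d (CT.b (CT.c CT.l (CT.d CT.l CT.l)) (CT.c (CT.a CT.l CT.l) (CT.d CT.l (CT.a CT.l CT.l)))) (CT.b (CT.c (CT.d CT.l CT.l) (CT.c (CT.d CT.l CT.l) (CT.d CT.l (CT.a CT.l CT.l)))) (CT.c (CT.d CT.l (CT.a CT.l CT.l)) (CT.a (CT.d (CT.a CT.l CT.l) (CT.d CT.l CT.l)) (CT.d CT.l (CT.c CT.l CT.l)))))) 549755813888 274877906944 0 412316860416 549755813888 549755813888 0 824633720832 = true := by decide +kernel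

theorem chkF_6 : chk testFX (CT.b (CT.c (CT.d (CT.d CT.l CT.l) (CT.a (CT.d CT.l CT.l) (CT.d CT.l CT.l))) (CT.d (CT.d CT.l (CT.a CT.l CT.l)) (CT.a (CT.d CT.l (CT.a CT.l CT.l)) (CT.d CT.l (CT.a CT.l CT.l))))) (CT.a (CT.c (CT.d (CT.d CT.l CT.l) (CT.d CT.l CT.l)) (CT.d (CT.d CT.l CT.l) (CT.a (CT.d CT.l CT.l) (CT.d CT.l CT.l)))) (CT.d (CT.d CT.l (CT.a CT.l CT.l)) (CT.c (CT.d CT.l CT.l) (CT.a (CT.d CT.l CT.l) (CT.d CT.l CT.l)))))) 549755813888 274877906944 0 412316860416 549755813888 274877906944 824633720832 824633720832 = true := by decide +kernel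

theorem chkF_7 : chk testFX (CT.a (CT.b (CT.c (CT.d (CT.d CT.l (CT.a CT.l CT.l)) (CT.d (CT.a CT.l CT.l) (CT.d CT.l CT.l))) (CT.d (CT.d (CT.a CT.l CT.l) (CT.d CT.l CT.l)) (CT.c (CT.a (CT.d CT.l CT.l) (CT.d CT.l CT.l)) (CT.d (CT.d CT.l CT.l) (CT.d CT.l CT.l))))) (CT.c (CT.d (CT.d CT.l (CT.a CT.l CT.l)) (CT.d (CT.d CT.l CT.l) (CT.d CT.l (CT.a CT.l CT.l)))) (CT.d (CT.d (CT.b CT.l CT.l) (CT.d CT.l (CT.a CT.l CT.l))) (CT.c (CT.d (CT.a CT.l CT.l) (CT.d CT.l CT.l)) (CT.d (CT.d CT.l CT.l) (CT.d CT.l (CT.a CT.l CT.l))))))) (CT.b (CT.c (CT.d (CT.d CT.l (CT.a CT.l CT.l)) (CT.c (CT.d CT.l CT.l) (CT.d CT.l (CT.a CT.l CT.l)))) (CT.c (CT.d (CT.d CT.l CT.l) (CT.d (CT.a CT.l CT.l) (CT.d CT.l CT.l))) (CT.d (CT.d CT.l (CT.a CT.l CT.l)) (CT.d (CT.d CT.l CT.l) (CT.a (CT.b CT.l CT.l) (CT.b CT.l CT.l)))))) (CT.c (CT.d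 (CT.d CT.l (CT.a CT.l CT.l)) (CT.d (CT.d CT.l CT.l) (CT.a (CT.b CT.l CT.l) (CT.b CT.l CT.l)))) (CT.d (CT.d (CT.b CT.l CT.l) (CT.d CT.l (CT.a CT.l CT.l))) (CT.d (CT.a (CT.d CT.l CT.l) (CT.d CT.l CT.l)) (CT.c (CT.d CT.l (CT.a CT.l CT.l)) (CT.a (CT.b CT.l CT.l) (CT.d CT.l CT.l)))))))) 549755813888 274877906944 0 412316860416 824633720832 274877906944 824633720832 824633720832 = true := by decide +kernel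

end Vale.Agent.Lib.P154E
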