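import Vale.Agent.Lib.P154E.ETProg

/-!
Generated kernel checks of the Taylor model box tests for `F`.
-/

namespace Vale.Agent.Lib.P154E

open Vale.Agent.Lib.P154

theorem chkF_34 : chk testFX (CT.c (CT.a (CT.a (CT.a (CT.d CT.l (CT.a CT.l CT.l)) (CT.d CT.l (CT.a CT.l CT.l))) (CT.a (CT.d CT.l (CT.a CT.l CT.l)) (CT.a (CT.d CT.l CT.l) (CT.d CT.l CT.l)))) (CT.a (CT.a (CT.b (CT.d CT.l CT.l) (CT.d CT.l CT.l)) (CT.b (CT.d CT.l CT.l) (CT.d CT.l (CT.a CT.l CT.l)))) (CT.a (CT.b (CT.d CT.l CT.l) (CT.a (CT.d CT.l CT.l) (CT.d CT.l CT.l))) (CT.a (CT.b (CT.d CT.l CT.l) (CT.d CT.l CT.l)) (CT.b (CT.d CT.l CT.l) (CT.d CT.l CT.l)))))) (CT.a (CT.a (CT.a (CT.d (CT.a CT.l CT.l) (CT.d CT.l CT.l)) (CT.d (CT.a CT.l CT.l) (CT.d CT.l CT.l))) (CT.a (CT.b (CT.d CT.l CT.l) (CT.d CT.l (CT.a CT.l CT.l))) (CT.b (CT.d CT.l CT.l) (CT.d CT.l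 (CT.a CT.l CT.l))))) (CT.a (CT.a (CT.b (CT.d CT.l (CT.a CT.l CT.l)) (CT.d CT.l (CT.a CT.l CT.l))) (CT.b (CT.d CT.l (CT.a CT.l CT.l)) (CT.a (CT.d CT.l CT.l) (CT.d CT.l CT.l)))) (CT.a (CT.b (CT.a (CT.d CT.l CT.l) (CT.d CT.l CT.l)) (CT.c (CT.d CT.l CT.l) (CT.d CT.l (CT.a CT.l CT.l)))) (CT.b (CT.c (CT.d CT.l CT.l) (CT.d CT.l (CT.a CT.l CT.l))) (CT.a (CT.b (CT.d CT.l CT.l) (CT.d CT.l CT.l)) (CT.b (CT.d CT.l CT.l) (CT.d CT.l (CT.a CT.l CT.l))))))))) 549755813888 549755813888 1030792151040 206158430208 824633720832 274877906944 412316860416 412316860416 = true := by decide +kernel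

theorem chkF_35 : chk testFX (CT.a (CT.a (CT.a CT.l (CT.c CT.l CT.l)) (CT.a (CT.c CT.l (CT.a CT.l CT.l)) (CT.a (CT.c CT.l CT.l) (CT.c CT.l (CT.a CT.l CT.l))))) (CT.a (CT.a (CT.a (CT.c CT.l (CT.a CT.l CT.l)) (CT.b (CT.c CT.l CT.l) (CT.c CT.l CT.l))) (CT.a (CT.c (CT.a CT.l CT.l) (CT.d CT.l CT.l)) (CT.a (CT.c CT.l (CT.b CT.l CT.l)) (CT.c CT.l (CT.b CT.l CT.l))))) (CT.a (CT.a (CT.a (CT.c CT.l (CT.b CT.l CT.l)) (CT.c CT.l (CT.b CT.l CT.l))) (CT.a (CT.c CT.l (CT.b CT.l CT.l)) (CT.c CT.l (CT.b CT.l CT.l)))) (CT.a (CT.b (CT.c CT.l (CT.a CT.l CT.l)) (CT.c CT.l (CT.a CT.l CT.l))) (CT.b (CT.c CT.l (CT.a CT.l CT.l)) (CT.a (CT.a CT.l CT.l) CT.l)))))) 0 1099511627776 1236950581248 206158430208 0 549755813888 0 412316860416 = true := by decide +kernel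

theorem chkF_36 : chk testFX (CT.a (CT.a (CT.d CT.l (CT.a CT.l CT.l)) (CT.a (CT.d CT.l CT.l) (CT.a (CT.b CT.l CT.l) (CT.d CT.l CT.l)))) (CT.a (CT.a (CT.a (CT.d CT.l CT.l) (CT.d CT.l (CT.a CT.l CT.l))) (CT.a (CT.a (CT.d CT.l CT.l) (CT.d CT.l CT.l)) (CT.b (CT.d CT.l CT.l) (CT.c CT.l (CT.a CT.l CT.l))))) (CT.a (CT.a (CT.b (CT.c CT.l (CT.a CT.l CT.l)) (CT.a (CT.b CT.l CT.l) (CT.b CT.l CT.l))) (CT.a (CT.b (CT.b CT.l CT.l) (CT.b CT.l CT.l)) (CT.b (CT.b CT.l CT.l) (CT.b CT.l CT.l)))) (CT.a (CT.a (CT.b (CT.b CT.l CT.l) (CT.b CT.l CT.l)) (CT.b (CT.b CT.l CT.l) (CT.b CT.l CT.l))) (CT.a (CT.b (CT.d CT.l CT.l) (CT.b CT.l CT.l)) (CT.b (CT.d CT.l CT.l) (CT.b CT.l CT.l))))))) 0 1099511627776 1236950581248 206158430208 549755813888 274877906944 0 412316860416 = true := by decide +kernel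

theorem chkF_37 : chk testFX (CT.a (CT.a (CT.d CT.l (CT.a CT.l CT.l)) (CT.d (CT.a CT.l CT.l) (CT.d CT.l CT.l))) (CT.a (CT.c (CT.d CT.l CT.l) (CT.d CT.l (CT.a CT.l CT.l))) (CT.c (CT.d CT.l (CT.a CT.l CT.l)) (CT.a (CT.d CT.l CT.l) (CT.d CT.l (CT.a CT.l CT.l)))))) 0 549755813888 1236950581248 206158430208 824633720832 274877906944 0 412316860416 = true := by decide +kernel

end Vale.Agent.Lib.P154E
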