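import Vale.Agent.Lib.P154E.ETProg

/-!
Generated kernel checks of the Taylor model box tests for `F`.
-/

namespace Vale.Agent.Lib.P154E

open Vale.Agent.Lib.P154

theorem chkF_38 : chk testFX (CT.c (CT.a (CT.a (CT.a (CT.d CT.l CT.l) (CT.d CT.l CT.l)) (CT.a (CT.d CT.l (CT.a CT.l CT.l)) (CT.a (CT.b CT.l CT.l) (CT.b CT.l CT.l)))) (CT.a (CT.a (CT.b (CT.d CT.l CT.l) (CT.d CT.l CT.l)) (CT.b (CT.d CT.l CT.l) (CT.a (CT.a CT.l CT.l) (CT.b CT.l CT.l)))) (CT.a (CT.a (CT.b (CT.b CT.l CT.l) (CT.b CT.l CT.l)) (CT.b (CT.b CT.l CT.l) (CT.b CT.l CT.l))) (CT.a (CT.b (CT.d CT.l CT.l) (CT.a (CT.b CT.l CT.l) (CT.b CT.l CT.l))) (CT.b (CT.d CT.l (CT.a CT.l CT.l)) (CT.a (CT.b CT.l CT.l) (CT.b CT.l CT.l))))))) (CT.a (CT.a (CT.a (CT.d CT.l (CT.a CT.l CT.l)) (CT.a (CT.d CT.l CT.l) (CT.d CT.l CT.l))) (CT.a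 (CT.b (CT.d CT.l CT.l) (CT.d CT.l CT.l)) (CT.b (CT.d CT.l CT.l) (CT.d CT.l (CT.a CT.l CT.l))))) (CT.a (CT.a (CT.b (CT.d CT.l (CT.a CT.l CT.l)) (CT.a (CT.d CT.l CT.l) (CT.d CT.l CT.l))) (CT.a (CT.b (CT.d CT.l CT.l) (CT.d CT.l (CT.a CT.l CT.l))) (CT.b (CT.d CT.l CT.l) (CT.a (CT.d CT.l CT.l) (CT.d CT.l CT.l))))) (CT.a (CT.a (CT.b (CT.d CT.l (CT.a CT.l CT.l)) (CT.b (CT.d CT.l CT.l) (CT.d CT.l CT.l))) (CT.b (CT.a (CT.d CT.l CT.l) (CT.d CT.l CT.l)) (CT.b (CT.d CT.l CT.l) (CT.c CT.l (CT.a CT.l CT.l))))) (CT.a (CT.b (CT.b (CT.d CT.l CT.l) (CT.d CT.l CT.l)) (CT.b (CT.c CT.l (CT.d CT.l CT.l)) (CT.c (CT.a CT.l CT.l) (CT.d CT.l CT.l)))) (CT.b (CT.c (CT.d CT.l CT.l) (CT.a (CT.b CT.l CT.l) (CT.d CT.l CT.l))) (CT.b (CT.c (CT.a CT.l CT.l) (CT.d CT.l CT.l)) (CT.a (CT.c CT.l (CT.b CT.l CT.l)) (CT.c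 CT.l (CT.d CT.l CT.l)))))))))) 549755813888 549755813888 1236950581248 206158430208 824633720832 274877906944 0 412316860416 = true := by decide +kernel

theorem chkF_39 : chk testFX (CT.a (CT.a (CT.c (CT.c CT.l (CT.d CT.l CT.l)) (CT.c (CT.d CT.l (CT.a CT.l CT.l)) (CT.c (CT.d CT.l (CT.a CT.l CT.l)) (CT.d (CT.a CT.l CT.l) (CT.d CT.l CT.l))))) (CT.c (CT.c CT.l (CT.d CT.l CT.l)) (CT.c (CT.d (CT.a CT.l CT.l) (CT.d CT.l CT.l)) (CT.c (CT.d CT.l (CT.a CT.l CT.l)) (CT.d (CT.d CT.l CT.l) (CT.d CT.l (CT.a CT.l CT.l))))))) (CT.a (CT.c (CT.c (CT.a CT.l CT.l) (CT.d CT.l (CT.a CT.l CT.l))) (CT.c (CT.a (CT.d CT.l (CT.b CT.l CT.l)) (CT.d CT.l (CT.b CT.l CT.l))) (CT.c (CT.d (CT.a CT.l CT.l) (CT.d CT.l (CT.a CT.l CT.l))) (CT.d (CT.d CT.l (CT.a CT.l CT.l)) (CT.a (CT.d CT.l CT.l) (CT.d CT.l CT.l))))))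 (CT.c (CT.c (CT.d CT.l CT.l) (CT.a (CT.d CT.l CT.l) (CT.d CT.l CT.l))) (CT.a (CT.c (CT.d CT.l (CT.c CT.l CT.l)) (CT.c (CT.d CT.l (CT.a CT.l CT.l)) (CT.d (CT.a CT.l CT.l) (CT.d CT.l CT.l)))) (CT.c (CT.c (CT.d CT.l CT.l) (CT.d CT.l CT.l)) (CT.c (CT.d CT.l (CT.a CT.l CT.l)) (CT.d (CT.a CT.l CT.l) (CT.d CT.l CT.l)))))))) 0 549755813888 1236950581248 206158430208 0 1099511627776 412316860416 412316860416 = true := by decide +kernel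

theorem chkF_40 : chk testFX (CT.a (CT.a (CT.c (CT.c (CT.a CT.l CT.l) (CT.d CT.l (CT.a CT.l CT.l))) (CT.c (CT.c (CT.d CT.l CT.l) (CT.d CT.l (CT.a CT.l CT.l))) (CT.c (CT.d CT.l (CT.a CT.l CT.l)) (CT.d (CT.b CT.l CT.l) (CT.d CT.l (CT.a CT.l CT.l)))))) (CT.c (CT.c (CT.a CT.l CT.l) (CT.d CT.l (CT.a CT.l CT.l))) (CT.b (CT.c (CT.d CT.l (CT.a CT.l CT.l)) (CT.c (CT.d CT.l CT.l) (CT.d CT.l (CT.a CT.l CT.l)))) (CT.c (CT.d CT.l (CT.a CT.l CT.l)) (CT.c (CT.d CT.l CT.l) (CT.d CT.l (CT.a CT.l CT.l))))))) (CT.a (CT.b (CT.c (CT.c CT.l (CT.d CT.l CT.l)) (CT.c (CT.d CT.l (CT.a CT.l CT.l)) (CT.c (CT.d CT.l CT.l) (CT.d CT.l (CT.a CT.l CT.l))))) (CT.c (CT.c CT.l (CT.d CT.l CT.l)) (CT.c (CT.a (CT.d CT.l CT.l) (CT.d CT.l CT.l)) (CT.c (CT.d CT.l CT.l) (CT.a (CT.d CT.l CT.l) (CT.d CT.l CT.l)))))) (CT.b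 (CT.c (CT.c CT.l (CT.d CT.l CT.l)) (CT.c (CT.a (CT.d CT.l CT.l) (CT.d CT.l CT.l)) (CT.c (CT.d CT.l CT.l) (CT.a (CT.d CT.l CT.l) (CT.d CT.l CT.l))))) (CT.c (CT.c CT.l (CT.d CT.l CT.l)) (CT.c (CT.a (CT.d CT.l CT.l) (CT.d CT.l CT.l)) (CT.c (CT.d CT.l (CT.a CT.l CT.l)) (CT.a (CT.d CT.l CT.l) (CT.d CT.l CT.l)))))))) 549755813888 274877906944 1236950581248 206158430208 0 1099511627776 412316860416 412316860416 = true := by decide +kernel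

end Vale.Agent.Lib.P154E
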