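import Vale.Agent.Lib.P154E.ETProg

/-!
Generated kernel checks of the Taylor model box tests for `F`.
-/

namespace Vale.Agent.Lib.P154E

open Vale.Agent.Lib.P154

theorem chkF_41 : chk testFX (CT.a (CT.a (CT.b (CT.c CT.l (CT.d CT.l CT.l)) (CT.c CT.l (CT.d CT.l CT.l))) (CT.b (CT.c CT.l (CT.d CT.l CT.l)) (CT.c CT.l (CT.d CT.l CT.l)))) (CT.a (CT.b (CT.c CT.l (CT.d CT.l CT.l)) (CT.c CT.l (CT.d CT.l CT.l))) (CT.b (CT.c CT.l (CT.d CT.l CT.l)) (CT.c CT.l (CT.a CT.l CT.l))))) 824633720832 274877906944 1236950581248 206158430208 0 549755813888 412316860416 412316860416 = true := by decide +kernel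

theorem chkF_42 : chk testFX (CT.a (CT.b (CT.c (CT.a (CT.d CT.l CT.l) (CT.d CT.l CT.l)) (CT.c (CT.d CT.l (CT.a CT.l CT.l)) (CT.a (CT.d CT.l CT.l) (CT.d CT.l CT.l)))) (CT.c (CT.a (CT.d CT.l CT.l) (CT.d CT.l CT.l)) (CT.c (CT.d CT.l (CT.a CT.l CT.l)) (CT.a (CT.d CT.l CT.l) (CT.d CT.l (CT.a CT.l CT.l)))))) (CT.a (CT.b (CT.c (CT.d CT.l CT.l) (CT.c (CT.d CT.l CT.l) (CT.d CT.l CT.l))) (CT.c (CT.d CT.l CT.l) (CT.c (CT.d CT.l CT.l) (CT.a (CT.d CT.l CT.l) (CT.d CT.l CT.l))))) (CT.b (CT.c (CT.d CT.l CT.l) (CT.c (CT.d CT.l CT.l) (CT.d CT.l (CT.a CT.l CT.l)))) (CT.c (CT.d CT.l CT.l) (CT.c (CT.d CT.l CT.l) (CT.b (CT.d CT.l CT.l) (CT.d CT.l CT.l))))))) 824633720832 137438953472 1236950581248 206158430208 549755813888 549755813888 412316860416 412316860416 = true := by decide +kernel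

theorem chkF_43 : chk testFX (CT.a (CT.a (CT.b (CT.c (CT.d CT.l CT.l) (CT.c (CT.d CT.l CT.l) (CT.a (CT.d CT.l CT.l) (CT.d CT.l CT.l)))) (CT.c (CT.d CT.l CT.l) (CT.c (CT.d CT.l CT.l) (CT.b (CT.d CT.l CT.l) (CT.d CT.l (CT.a CT.l CT.l)))))) (CT.b (CT.c (CT.d CT.l CT.l) (CT.c (CT.d CT.l CT.l) (CT.b (CT.d CT.l CT.l) (CT.d CT.l CT.l)))) (CT.c (CT.d CT.l CT.l) (CT.c (CT.d CT.l CT.l) (CT.c (CT.d CT.l CT.l) (CT.a (CT.d CT.l CT.l) (CT.d CT.l CT.l))))))) (CT.a (CT.b (CT.c (CT.d CT.l CT.l) (CT.c (CT.d CT.l CT.l) (CT.c (CT.d CT.l CT.l) (CT.a (CT.d CT.l CT.l) (CT.d CT.l CT.l))))) (CT.c (CT.d CT.l CT.l) (CT.c (CT.d CT.l (CT.a CT.l CT.l)) (CT.c (CT.d CT.l (CT.a CT.l CT.l)) (CT.b (CT.d CT.l CT.l) (CT.d CT.l CT.l)))))) (CT.b (CT.c (CT.d CT.l CT.l) (CT.c (CT.d CT.l (CT.a CT.l CT.l)) (CT.c (CT.d CT.l CT.l) (CT.b (CT.d CT.l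 CT.l) (CT.d CT.l CT.l))))) (CT.c (CT.d CT.l CT.l) (CT.b (CT.c (CT.a CT.l CT.l) (CT.c (CT.a CT.l CT.l) (CT.d CT.l (CT.a CT.l CT.l)))) (CT.a (CT.c CT.l (CT.c CT.l (CT.d CT.l CT.l))) (CT.c CT.l (CT.c CT.l (CT.d CT.l CT.l))))))))) 962072674304 137438953472 1236950581248 206158430208 549755813888 549755813888 412316860416 412316860416 = true := by decide +kernel

theorem chkF_44 : chk testFX (CT.a (CT.a (CT.d CT.l (CT.c CT.l (CT.d CT.l CT.l))) (CT.c (CT.d CT.l CT.l) (CT.d CT.l (CT.d CT.l CT.l)))) (CT.a (CT.c (CT.a (CT.d CT.l CT.l) (CT.d CT.l CT.l)) (CT.d (CT.a CT.l CT.l) (CT.d CT.l (CT.a CT.l CT.l)))) (CT.c (CT.d (CT.a CT.l CT.l) (CT.d CT.l (CT.a CT.l CT.l))) (CT.a (CT.d (CT.a CT.l CT.l) (CT.d CT.l (CT.a CT.l CT.l))) (CT.d (CT.a CT.l CT.l) (CT.d CT.l (CT.a CT.l CT.l))))))) 0 549755813888 1443109011456 206158430208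 0 549755813888 0 824633720832 = true := by decide +kernel

theorem chkF_45 : chk testFX (CT.a (CT.a (CT.a (CT.c (CT.a (CT.d CT.l CT.l) (CT.d CT.l CT.l)) (CT.d (CT.d CT.l CT.l) (CT.a (CT.d CT.l CT.l) (CT.d CT.l CT.l)))) (CT.c (CT.b (CT.d CT.l CT.l) (CT.d CT.l CT.l)) (CT.d (CT.d CT.l (CT.a CT.l CT.l)) (CT.a (CT.d CT.l CT.l) (CT.d CT.l CT.l))))) (CT.a (CT.b (CT.c (CT.d CT.l CT.l) (CT.d (CT.a CT.l CT.l) (CT.d CT.l CT.l))) (CT.c (CT.d CT.l CT.l) (CT.d (CT.a CT.l CT.l) (CT.d CT.l CT.l)))) (CT.b (CT.c (CT.d CT.l CT.l) (CT.d (CT.a CT.l CT.l) (CT.d CT.l CT.l))) (CT.c (CT.d CT.l CT.l) (CT.d (CT.a CT.l CT.l) (CT.d CT.l CT.l)))))) (CT.a (CT.a (CT.b (CT.c (CT.d CT.l CT.l) (CT.d (CT.a CT.l CT.l) (CT.d CT.l CT.l))) (CT.c (CT.d CT.l CT.l) (CT.d (CT.a CT.l CT.l) (CT.d CT.l CT.l)))) (CT.b (CT.c (CT.d CT.l CT.l) (CT.d (CT.a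 CT.l CT.l) (CT.d CT.l CT.l))) (CT.c (CT.d CT.l CT.l) (CT.a (CT.d CT.l CT.l) (CT.d CT.l CT.l))))) (CT.a (CT.b (CT.c (CT.d CT.l CT.l) (CT.a (CT.d CT.l CT.l) (CT.d CT.l CT.l))) (CT.d (CT.a CT.l CT.l) (CT.c CT.l (CT.a CT.l CT.l)))) (CT.b (CT.d (CT.a CT.l CT.l) (CT.c CT.l (CT.a CT.l CT.l))) (CT.a (CT.d CT.l CT.l) (CT.d CT.l CT.l)))))) 549755813888 549755813888 1443109011456 206158430208 0 549755813888 0 824633720832 = true := by decide +kernel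

end Vale.Agent.Lib.P154E
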