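import Vale.Agent.Lib.P154E.ETProg

/-!
Generated kernel checks of the Taylor model box tests for `F`.
-/

namespace Vale.Agent.Lib.P154E

open Vale.Agent.Lib.P154

theorem chkF_46 : chk testFX (CT.d (CT.a (CT.a (CT.c (CT.a CT.l CT.l) (CT.d CT.l (CT.a CT.l CT.l))) (CT.c (CT.d CT.l CT.l) (CT.c (CT.d CT.l CT.l) (CT.d CT.l (CT.a CT.l CT.l))))) (CT.a (CT.c (CT.d CT.l (CT.a CT.l CT.l)) (CT.a (CT.d CT.l (CT.b CT.l CT.l)) (CT.d CT.l (CT.b CT.l CT.l)))) (CT.a (CT.c (CT.d CT.l CT.l) (CT.c (CT.d CT.l CT.l) (CT.d CT.l (CT.a CT.l CT.l)))) (CT.c (CT.d CT.l CT.l) (CT.c (CT.d CT.l CT.l) (CT.d CT.l (CT.a CT.l CT.l))))))) (CT.a (CT.a (CT.c (CT.d CT.l (CT.a CT.l CT.l)) (CT.c (CT.d CT.l (CT.a CT.l CT.l)) (CT.d (CT.a CT.l CT.l) (CT.d CT.l CT.l)))) (CT.c (CT.c (CT.d CT.l CT.l) (CT.d CT.l (CT.a CT.l CT.l)))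 (CT.c (CT.d (CT.a CT.l CT.l) (CT.d CT.l CT.l)) (CT.d (CT.d CT.l CT.l) (CT.a (CT.b CT.l CT.l) (CT.d CT.l CT.l)))))) (CT.a (CT.a (CT.c (CT.d CT.l (CT.b CT.l CT.l)) (CT.c (CT.d CT.l (CT.a CT.l CT.l)) (CT.d (CT.a CT.l CT.l) (CT.d CT.l CT.l)))) (CT.c (CT.d CT.l (CT.c CT.l CT.l)) (CT.c (CT.d CT.l (CT.a CT.l CT.l)) (CT.d (CT.a CT.l CT.l) (CT.d CT.l CT.l))))) (CT.a (CT.c (CT.d (CT.a CT.l CT.l) (CT.d CT.l CT.l)) (CT.c (CT.d CT.l (CT.a CT.l CT.l)) (CT.d (CT.a CT.l CT.l) (CT.d CT.l CT.l)))) (CT.c (CT.c (CT.d CT.l CT.l) (CT.d CT.l (CT.a CT.l CT.l))) (CT.c (CT.a (CT.d CT.l CT.l) (CT.d CT.l CT.l)) (CT.d (CT.b CT.l CT.l) (CT.d CT.l (CT.a CT.l CT.l))))))))) 0 549755813888 1443109011456 206158430208 549755813888 549755813888 0 824633720832 = true := by decide +kernel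

theorem chkF_47 : chk testFX (CT.a (CT.a (CT.d (CT.d CT.l (CT.a CT.l CT.l)) (CT.b (CT.d CT.l (CT.a CT.l CT.l)) (CT.d CT.l (CT.a CT.l CT.l)))) (CT.b (CT.d (CT.c CT.l CT.l) (CT.d CT.l (CT.a CT.l CT.l))) (CT.d (CT.d CT.l CT.l) (CT.a (CT.d CT.l CT.l) (CT.d CT.l CT.l))))) (CT.a (CT.b (CT.d (CT.d CT.l CT.l) (CT.a (CT.d CT.l CT.l) (CT.d CT.l CT.l))) (CT.d (CT.d CT.l (CT.a CT.l CT.l)) (CT.a (CT.d CT.l CT.l) (CT.d CT.l CT.l)))) (CT.b (CT.d (CT.d CT.l (CT.a CT.l CT.l)) (CT.a (CT.d CT.l CT.l) (CT.d CT.l CT.l))) (CT.a (CT.d (CT.a CT.l CT.l) (CT.d CT.l CT.l)) (CT.d (CT.b CT.l CT.l) (CT.d CT.l (CT.a CT.l CT.l))))))) 549755813888 274877906944 1443109011456 206158430208 549755813888 274877906944 0 824633720832 = true := by decide +kernel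

theorem chkF_48 : chk testFX (CT.a (CT.a (CT.c (CT.d (CT.d CT.l CT.l) (CT.b (CT.d CT.l CT.l) (CT.d CT.l CT.l))) (CT.b (CT.d (CT.d CT.l CT.l) (CT.d CT.l (CT.a CT.l CT.l))) (CT.d (CT.d CT.l CT.l) (CT.a (CT.d CT.l CT.l) (CT.d CT.l CT.l))))) (CT.c (CT.d (CT.d CT.l (CT.a CT.l CT.l)) (CT.b (CT.d CT.l CT.l) (CT.d CT.l (CT.a CT.l CT.l)))) (CT.b (CT.d (CT.d CT.l CT.l) (CT.a (CT.d CT.l CT.l) (CT.d CT.l CT.l))) (CT.d (CT.d CT.l (CT.a CT.l CT.l)) (CT.a (CT.d CT.l CT.l) (CT.d CT.l CT.l)))))) (CT.a (CT.b (CT.c (CT.d (CT.a CT.l CT.l) (CT.d CT.l (CT.a CT.l CT.l))) (CT.d (CT.d CT.l (CT.a CT.l CT.l)) (CT.a (CT.d CT.l CT.l) (CT.d CT.l CT.l)))) (CT.c (CT.d (CT.a CT.l CT.l) (CT.d CT.l (CT.a CT.l CT.l))) (CT.a (CT.d (CT.d CT.l CT.l) (CT.d CT.l CT.l)) (CT.d (CT.d CT.l CT.l) (CT.d CT.l CT.l))))) (CT.b (CT.c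 (CT.d (CT.d CT.l CT.l) (CT.d CT.l (CT.a CT.l CT.l))) (CT.a (CT.d (CT.d CT.l CT.l) (CT.d CT.l CT.l)) (CT.d (CT.d CT.l CT.l) (CT.d CT.l (CT.a CT.l CT.l))))) (CT.c (CT.d (CT.d CT.l (CT.a CT.l CT.l)) (CT.a (CT.d CT.l CT.l) (CT.d CT.l CT.l))) (CT.a (CT.d (CT.d CT.l CT.l) (CT.d CT.l (CT.a CT.l CT.l))) (CT.d (CT.d CT.l CT.l) (CT.d CT.l (CT.a CT.l CT.l)))))))) 549755813888 274877906944 1443109011456 206158430208 824633720832 274877906944 0 824633720832 = true := by decide +kernel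

end Vale.Agent.Lib.P154E
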