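import Vale.Agent.Lib.P154E.ETProg

/-!
Generated kernel checks of the Taylor model box tests for `F`.
-/

namespace Vale.Agent.Lib.P154E

open Vale.Agent.Lib.P154

theorem chkF_49 : chk testFX (CT.b (CT.c (CT.a (CT.d (CT.b CT.l CT.l) (CT.d CT.l CT.l)) (CT.d (CT.b CT.l CT.l) (CT.d CT.l CT.l))) (CT.c (CT.d (CT.d CT.l (CT.a CT.l CT.l)) (CT.a (CT.d CT.l CT.l) (CT.d CT.l CT.l))) (CT.a (CT.d (CT.d CT.l CT.l) (CT.d CT.l (CT.a CT.l CT.l))) (CT.d (CT.d CT.l (CT.a CT.l CT.l)) (CT.a (CT.d CT.l CT.l) (CT.d CT.l CT.l)))))) (CT.a (CT.c (CT.c (CT.d CT.l CT.l) (CT.d CT.l (CT.b CT.l CT.l))) (CT.c (CT.d (CT.a CT.l CT.l) (CT.d CT.l CT.l)) (CT.d (CT.d CT.l (CT.a CT.l CT.l)) (CT.a (CT.d CT.l CT.l) (CT.d CT.l CT.l))))) (CT.c (CT.d (CT.b CT.l CT.l) (CT.d CT.l CT.l)) (CT.c (CT.d (CT.a CT.l CT.l) (CT.d CT.l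 CT.l)) (CT.b (CT.d (CT.c CT.l CT.l) (CT.d CT.l CT.l)) (CT.d (CT.d CT.l CT.l) (CT.d CT.l CT.l))))))) 824633720832 68719476736 1443109011456 206158430208 549755813888 549755813888 0 824633720832 = true := by decide +kernel

theorem chkF_50 : chk testFX (CT.a (CT.b (CT.c (CT.d (CT.b CT.l CT.l) (CT.d CT.l CT.l)) (CT.c (CT.d (CT.a CT.l CT.l) (CT.d CT.l CT.l)) (CT.b (CT.d (CT.c CT.l CT.l) (CT.d CT.l CT.l)) (CT.d (CT.d CT.l CT.l) (CT.d CT.l CT.l))))) (CT.c (CT.d (CT.b CT.l CT.l) (CT.d CT.l CT.l)) (CT.c (CT.d (CT.b CT.l CT.l) (CT.d CT.l CT.l)) (CT.b (CT.d (CT.d CT.l CT.l) (CT.d CT.l CT.l)) (CT.c (CT.d CT.l (CT.a CT.l CT.l)) (CT.d (CT.a CT.l CT.l) (CT.d CT.l CT.l))))))) (CT.b (CT.c (CT.d (CT.b CT.l CT.l) (CT.d CT.l CT.l)) (CT.c (CT.d (CT.b CT.l CT.l) (CT.d CT.l CT.l)) (CT.b (CT.d (CT.d CT.l CT.l)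 (CT.d CT.l CT.l)) (CT.d (CT.d CT.l CT.l) (CT.d CT.l (CT.a CT.l CT.l)))))) (CT.c (CT.d (CT.b CT.l CT.l) (CT.d CT.l CT.l)) (CT.c (CT.d (CT.b CT.l CT.l) (CT.d CT.l (CT.a CT.l CT.l))) (CT.c (CT.d (CT.b CT.l CT.l) (CT.d CT.l CT.l)) (CT.b (CT.d (CT.a CT.l CT.l) (CT.d CT.l CT.l)) (CT.d (CT.a CT.l CT.l) (CT.d CT.l CT.l)))))))) 893353197568 68719476736 1443109011456 206158430208 549755813888 549755813888 0 824633720832 = true := by decide +kernel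

theorem chkF_51 : chk testFX (CT.a (CT.b (CT.c (CT.d (CT.b CT.l CT.l) (CT.d CT.l CT.l)) (CT.c (CT.d (CT.b CT.l CT.l) (CT.d CT.l (CT.a CT.l CT.l))) (CT.c (CT.d (CT.b CT.l CT.l) (CT.d CT.l CT.l)) (CT.a (CT.d (CT.b CT.l CT.l) (CT.d CT.l CT.l)) (CT.d (CT.d CT.l CT.l) (CT.d CT.l CT.l)))))) (CT.c (CT.d (CT.a CT.l CT.l) (CT.d CT.l CT.l)) (CT.b (CT.c (CT.d CT.l (CT.a CT.l CT.l)) (CT.c (CT.d CT.l (CT.a CT.l CT.l)) (CT.d (CT.d CT.l CT.l) (CT.d CT.l CT.l)))) (CT.c (CT.d CT.l (CT.a CT.l CT.l)) (CT.a (CT.c (CT.d CT.l CT.l) (CT.b (CT.d CT.l CT.l) (CT.d CT.l CT.l))) (CT.c (CT.d CT.l CT.l) (CT.d (CT.b CT.l CT.l) (CT.d CT.l CT.l)))))))) (CT.b (CT.c (CT.d (CT.b CT.l CT.l) (CT.d CT.l CT.l)) (CT.b (CT.c (CT.a (CT.d CT.l CT.l) (CT.d CT.l CT.l)) (CT.c (CT.d CT.l (CT.a CT.l CT.l)) (CT.d (CT.d CT.l CT.l) (CT.d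 CT.l CT.l)))) (CT.a (CT.c (CT.d CT.l CT.l) (CT.d (CT.d CT.l CT.l) (CT.c CT.l (CT.d CT.l CT.l)))) (CT.c (CT.d CT.l CT.l) (CT.c (CT.d CT.l CT.l) (CT.d (CT.b CT.l CT.l) (CT.d CT.l CT.l))))))) (CT.b (CT.c (CT.d CT.l CT.l) (CT.c (CT.a (CT.d CT.l CT.l) (CT.d CT.l CT.l)) (CT.a (CT.c (CT.d CT.l CT.l) (CT.d (CT.b CT.l CT.l) (CT.d CT.l CT.l))) (CT.c (CT.d CT.l CT.l) (CT.d (CT.d CT.l CT.l) (CT.d CT.l CT.l)))))) (CT.c (CT.d CT.l CT.l) (CT.c (CT.a (CT.d CT.l CT.l) (CT.d CT.l CT.l)) (CT.a (CT.c (CT.d CT.l CT.l) (CT.d (CT.d CT.l CT.l) (CT.d CT.l CT.l))) (CT.c (CT.d CT.l CT.l) (CT.c (CT.d CT.l CT.l) (CT.b (CT.d CT.l CT.l) (CT.d CT.l CT.l)))))))))) 962072674304 68719476736 1443109011456 206158430208 549755813888 549755813888 0 824633720832 = true := by decide +kernel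

end Vale.Agent.Lib.P154E
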