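import Vale.Agent.Lib.P154E.ETProg

/-!
Generated kernel checks of the Taylor model box tests for `F`.
-/

namespace Vale.Agent.Lib.P154E

open Vale.Agent.Lib.P154

theorem chkF_52 : chk testFX (CT.c (CT.b (CT.d (CT.a CT.l CT.l) (CT.d CT.l CT.l)) (CT.b (CT.d CT.l CT.l) (CT.d CT.l CT.l))) (CT.a (CT.b (CT.b (CT.c (CT.d CT.l CT.l) (CT.c (CT.d CT.l CT.l) (CT.d (CT.b CT.l CT.l) (CT.d CT.l CT.l)))) (CT.c (CT.d CT.l CT.l) (CT.c (CT.d CT.l CT.l) (CT.d (CT.d CT.l CT.l) (CT.d CT.l CT.l))))) (CT.c (CT.b (CT.d CT.l CT.l) (CT.d CT.l CT.l)) (CT.c (CT.b (CT.d CT.l CT.l) (CT.d CT.l CT.l)) (CT.b (CT.c (CT.d CT.l CT.l) (CT.d (CT.b CT.l CT.l) (CT.d CT.l CT.l))) (CT.d (CT.b (CT.d CT.l CT.l) (CT.c CT.l (CT.a CT.l CT.l))) (CT.b (CT.d CT.l CT.l) (CT.d CT.l CT.l))))))) (CT.c (CT.b (CT.b (CT.d CT.l CT.l)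 (CT.d CT.l CT.l)) (CT.b (CT.d CT.l CT.l) (CT.d CT.l CT.l))) (CT.b (CT.b (CT.c (CT.d CT.l CT.l) (CT.d (CT.b CT.l CT.l) (CT.d CT.l CT.l))) (CT.c (CT.d CT.l CT.l) (CT.d (CT.d CT.l CT.l) (CT.d CT.l CT.l)))) (CT.c (CT.b (CT.d CT.l CT.l) (CT.d CT.l CT.l)) (CT.d (CT.d (CT.d CT.l CT.l) (CT.d CT.l CT.l)) (CT.b (CT.b (CT.d CT.l CT.l) (CT.d CT.l CT.l)) (CT.b (CT.c CT.l (CT.d CT.l CT.l)) (CT.c CT.l (CT.c CT.l (CT.a CT.l CT.l))))))))))) 1030792151040 34359738368 1443109011456 206158430208 549755813888 549755813888 0 824633720832 = true := by decide +kernel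

theorem chkF_53 : chk testFX (CT.c (CT.b (CT.b (CT.d CT.l CT.l) (CT.d CT.l CT.l)) (CT.a (CT.d CT.l CT.l) (CT.d CT.l CT.l))) (CT.c (CT.a (CT.b (CT.b (CT.d CT.l CT.l) (CT.d CT.l CT.l)) (CT.b (CT.d CT.l CT.l) (CT.d CT.l CT.l))) (CT.b (CT.b (CT.d CT.l CT.l) (CT.d CT.l CT.l)) (CT.b (CT.d CT.l CT.l) (CT.d CT.l CT.l)))) (CT.b (CT.d (CT.a (CT.b (CT.c CT.l (CT.d CT.l CT.l)) (CT.c CT.l (CT.c CT.l (CT.d CT.l CT.l)))) (CT.a (CT.c (CT.b CT.l CT.l) (CT.b (CT.b CT.l CT.l) (CT.c CT.l (CT.b CT.l CT.l)))) (CT.b (CT.c CT.l (CT.b CT.l CT.l)) (CT.c CT.l (CT.c CT.l (CT.b CT.l CT.l)))))) (CT.c (CT.a (CT.b CT.l CT.l) (CT.b CT.l CT.l)) (CT.c (CT.b (CT.d CT.l CT.l) (CT.d (CT.a CT.l CT.l) CT.l)) (CT.a (CT.b (CT.d CT.l CT.l) (CT.d CT.l CT.l)) (CT.b (CT.d CT.l CT.l) (CT.a (CT.d CT.l CT.l) (CT.d CT.l CT.l)))))))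 (CT.b (CT.c (CT.a (CT.d CT.l CT.l) (CT.d CT.l CT.l)) (CT.d (CT.d (CT.d CT.l CT.l) (CT.d CT.l CT.l)) (CT.d (CT.d CT.l CT.l) (CT.d CT.l CT.l)))) (CT.c (CT.a (CT.d CT.l CT.l) (CT.d CT.l (CT.a CT.l CT.l))) (CT.d (CT.d (CT.d CT.l CT.l) (CT.d CT.l CT.l)) (CT.d (CT.d CT.l CT.l) (CT.d CT.l CT.l)))))))) 1065151889408 34359738368 1443109011456 206158430208 549755813888 549755813888 0 824633720832 = true := by decide +kernel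

theorem chkF_54 : chk testFX (CT.b (CT.b (CT.c (CT.d (CT.d CT.l CT.l) (CT.c CT.l (CT.a CT.l CT.l))) (CT.a (CT.d (CT.d CT.l (CT.a CT.l CT.l)) (CT.c (CT.b CT.l CT.l) (CT.d CT.l CT.l))) (CT.d (CT.d CT.l (CT.a CT.l CT.l)) (CT.c (CT.d CT.l CT.l) (CT.d CT.l (CT.a CT.l CT.l)))))) (CT.c (CT.c (CT.d CT.l CT.l) (CT.d (CT.a CT.l CT.l) (CT.d CT.l CT.l))) (CT.a (CT.d (CT.d CT.l (CT.a CT.l CT.l)) (CT.c (CT.d CT.l CT.l) (CT.d CT.l CT.l))) (CT.c (CT.d (CT.d CT.l CT.l) (CT.d CT.l CT.l)) (CT.d (CT.d CT.l CT.l) (CT.a (CT.d CT.l CT.l) (CT.d CT.l CT.l))))))) (CT.a (CT.c (CT.d (CT.d CT.l CT.l) (CT.c CT.l (CT.b CT.l CT.l))) (CT.b (CT.d (CT.d CT.l (CT.a CT.l CT.l)) (CT.c (CT.d CT.l CT.l) (CT.d CT.l (CT.a CT.l CT.l)))) (CT.c (CT.d (CT.a CT.l CT.l) (CT.d CT.l CT.l)) (CT.d (CT.d CT.l CT.l) (CT.a (CT.d CT.l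 CT.l) (CT.d CT.l CT.l)))))) (CT.b (CT.c (CT.d (CT.d CT.l CT.l) (CT.c CT.l (CT.a CT.l CT.l))) (CT.c (CT.d (CT.d CT.l CT.l) (CT.d CT.l (CT.a CT.l CT.l))) (CT.d (CT.d CT.l (CT.a CT.l CT.l)) (CT.a (CT.d CT.l CT.l) (CT.d CT.l CT.l))))) (CT.c (CT.d (CT.d CT.l CT.l) (CT.c CT.l (CT.a CT.l CT.l))) (CT.c (CT.d (CT.d CT.l CT.l) (CT.a (CT.d CT.l CT.l) (CT.d CT.l CT.l))) (CT.d (CT.d CT.l (CT.a CT.l CT.l)) (CT.a (CT.d CT.l CT.l) (CT.d CT.l (CT.a CT.l CT.l))))))))) 0 274877906944 824633720832 824633720832 0 549755813888 824633720832 824633720832 = true := by decide +kernel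

end Vale.Agent.Lib.P154E
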