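import Vale.Agent.Lib.P154E.ETProg

/-!
Generated kernel checks of the Taylor model box tests for `F`.
-/

namespace Vale.Agent.Lib.P154E

open Vale.Agent.Lib.P154

theorem chkF_55 : chk testFX (CT.b (CT.b (CT.c (CT.d (CT.a CT.l CT.l) (CT.d CT.l CT.l)) (CT.c (CT.d (CT.d CT.l CT.l) (CT.d CT.l CT.l)) (CT.d (CT.d CT.l CT.l) (CT.a (CT.d CT.l CT.l) (CT.d CT.l CT.l))))) (CT.c (CT.d (CT.d CT.l CT.l) (CT.c CT.l (CT.a CT.l CT.l))) (CT.c (CT.d (CT.d CT.l CT.l) (CT.d CT.l (CT.a CT.l CT.l))) (CT.d (CT.d CT.l (CT.a CT.l CT.l)) (CT.a (CT.d CT.l CT.l) (CT.d CT.l CT.l)))))) (CT.b (CT.c (CT.c (CT.d CT.l CT.l) (CT.d (CT.a CT.l CT.l) (CT.d CT.l CT.l))) (CT.c (CT.d (CT.d CT.l (CT.a CT.l CT.l)) (CT.a (CT.d CT.l CT.l) (CT.d CT.l CT.l))) (CT.a (CT.d (CT.d CT.l CT.l) (CT.d CT.l (CT.a CT.l CT.l))) (CT.d (CT.d CT.l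 CT.l) (CT.a (CT.d CT.l CT.l) (CT.d CT.l CT.l)))))) (CT.a (CT.c (CT.d (CT.c CT.l CT.l) (CT.d CT.l CT.l)) (CT.c (CT.d (CT.d CT.l CT.l) (CT.d CT.l CT.l)) (CT.d (CT.d CT.l CT.l) (CT.a (CT.d CT.l CT.l) (CT.d CT.l CT.l))))) (CT.c (CT.d (CT.d CT.l CT.l) (CT.c CT.l (CT.b CT.l CT.l))) (CT.c (CT.d (CT.d CT.l CT.l) (CT.d CT.l CT.l)) (CT.d (CT.d CT.l CT.l) (CT.a (CT.d CT.l CT.l) (CT.d CT.l CT.l)))))))) 274877906944 137438953472 824633720832 824633720832 0 549755813888 824633720832 824633720832 = true := by decide +kernel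

theorem chkF_56 : chk testFX (CT.b (CT.b (CT.c (CT.d (CT.d CT.l CT.l) (CT.d CT.l CT.l)) (CT.c (CT.d (CT.d CT.l CT.l) (CT.d CT.l CT.l)) (CT.d (CT.d CT.l CT.l) (CT.a (CT.d CT.l CT.l) (CT.d CT.l CT.l))))) (CT.c (CT.c (CT.d CT.l CT.l) (CT.d (CT.a CT.l CT.l) (CT.d CT.l CT.l))) (CT.c (CT.d (CT.d CT.l (CT.a CT.l CT.l)) (CT.a (CT.d CT.l CT.l) (CT.d CT.l CT.l))) (CT.a (CT.d (CT.d CT.l CT.l) (CT.d CT.l (CT.a CT.l CT.l))) (CT.d (CT.d CT.l CT.l) (CT.d CT.l (CT.a CT.l CT.l))))))) (CT.d (CT.a (CT.b (CT.c (CT.d CT.l CT.l) (CT.c (CT.d CT.l CT.l) (CT.d CT.l CT.l))) (CT.c (CT.d CT.l CT.l) (CT.c (CT.d CT.l CT.l) (CT.d CT.l (CT.a CT.l CT.l))))) (CT.b (CT.c (CT.d CT.l CT.l) (CT.c (CT.d CT.l CT.l) (CT.d CT.l (CT.a CT.l CT.l)))) (CT.c (CT.c CT.l (CT.b CT.l CT.l)) (CT.c (CT.d CT.l CT.l) (CT.a (CT.d CT.l CT.l)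 (CT.d CT.l CT.l)))))) (CT.c (CT.a (CT.b (CT.c CT.l (CT.a CT.l CT.l)) (CT.c CT.l (CT.d CT.l CT.l))) (CT.b (CT.c CT.l (CT.b CT.l CT.l)) (CT.c CT.l (CT.d CT.l CT.l)))) (CT.a (CT.b (CT.c (CT.d CT.l CT.l) (CT.a (CT.d CT.l CT.l) (CT.d CT.l CT.l))) (CT.c (CT.d CT.l (CT.a CT.l CT.l)) (CT.b (CT.d CT.l CT.l) (CT.d CT.l CT.l)))) (CT.b (CT.c (CT.d CT.l (CT.a CT.l CT.l)) (CT.a (CT.d CT.l CT.l) (CT.d CT.l CT.l))) (CT.b (CT.c (CT.d CT.l CT.l) (CT.d CT.l CT.l)) (CT.c (CT.d CT.l CT.l) (CT.d CT.l (CT.a CT.l CT.l))))))))) 412316860416 137438953472 824633720832 824633720832 0 549755813888 824633720832 824633720832 = true := by decide +kernel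

theorem chkF_57 : chk testFX (CT.b (CT.b (CT.c (CT.d CT.l CT.l) (CT.c (CT.d CT.l CT.l) (CT.d CT.l (CT.a CT.l CT.l)))) (CT.a (CT.c (CT.d CT.l CT.l) (CT.c (CT.d CT.l CT.l) (CT.d CT.l CT.l))) (CT.c (CT.d CT.l CT.l) (CT.c (CT.d CT.l CT.l) (CT.d CT.l CT.l))))) (CT.a (CT.b (CT.c (CT.d CT.l CT.l) (CT.c (CT.d CT.l CT.l) (CT.d CT.l (CT.a CT.l CT.l)))) (CT.c (CT.d CT.l (CT.a CT.l CT.l)) (CT.c (CT.d CT.l (CT.a CT.l CT.l)) (CT.a (CT.d CT.l CT.l) (CT.d CT.l CT.l))))) (CT.b (CT.c (CT.c CT.l (CT.a CT.l CT.l)) (CT.d (CT.b CT.l CT.l) (CT.c CT.l (CT.a CT.l CT.l)))) (CT.a (CT.c (CT.d CT.l CT.l) (CT.b (CT.d CT.l CT.l) (CT.d CT.l CT.l))) (CT.c (CT.d CT.l CT.l) (CT.b (CT.d CT.l CT.l) (CT.d CT.l CT.l))))))) 549755813888 137438953472 824633720832 824633720832 0 549755813888 824633720832 412316860416 = true :=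 by decide +kernel

end Vale.Agent.Lib.P154E
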