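import Vale.Agent.Lib.P154E.ETProg

/-!
Generated kernel checks of the Taylor model box tests for `F`.
-/

namespace Vale.Agent.Lib.P154E

open Vale.Agent.Lib.P154

theorem chkF_58 : chk testFX (CT.b (CT.b (CT.c (CT.d CT.l (CT.a CT.l CT.l)) (CT.a (CT.d CT.l (CT.a CT.l CT.l)) (CT.a (CT.d CT.l CT.l) (CT.d CT.l CT.l)))) (CT.a (CT.c (CT.d CT.l CT.l) (CT.b (CT.d CT.l CT.l) (CT.d CT.l (CT.a CT.l CT.l)))) (CT.c (CT.d CT.l CT.l) (CT.b (CT.d CT.l CT.l) (CT.d CT.l (CT.a CT.l CT.l)))))) (CT.a (CT.b (CT.c (CT.d CT.l (CT.a CT.l CT.l)) (CT.b (CT.d CT.l (CT.a CT.l CT.l)) (CT.a (CT.d CT.l CT.l) (CT.d CT.l CT.l)))) (CT.a (CT.b (CT.c CT.l (CT.d CT.l CT.l)) (CT.c CT.l (CT.d CT.l CT.l))) (CT.b (CT.c CT.l (CT.d CT.l CT.l)) (CT.c CT.l (CT.d CT.l CT.l))))) (CT.b (CT.b (CT.c (CT.a CT.l CT.l) (CT.d CT.l (CT.a CT.l CT.l))) (CT.a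 (CT.c CT.l (CT.d CT.l CT.l)) (CT.c CT.l (CT.d CT.l CT.l)))) (CT.a (CT.b (CT.c CT.l (CT.d CT.l CT.l)) (CT.c CT.l (CT.d CT.l CT.l))) (CT.b (CT.c CT.l (CT.d CT.l CT.l)) (CT.c CT.l (CT.d CT.l CT.l))))))) 687194767360 137438953472 824633720832 824633720832 0 549755813888 824633720832 412316860416 = true := by decide +kernel

theorem chkF_59 : chk testFX (CT.a (CT.b (CT.b (CT.b (CT.c CT.l (CT.c CT.l CT.l)) (CT.c CT.l (CT.d CT.l CT.l))) (CT.c (CT.d CT.l (CT.a CT.l CT.l)) (CT.b (CT.d CT.l CT.l) (CT.d CT.l (CT.a CT.l CT.l))))) (CT.b (CT.b (CT.c (CT.a CT.l CT.l) (CT.d CT.l (CT.a CT.l CT.l))) (CT.a (CT.c CT.l (CT.d CT.l CT.l)) (CT.c CT.l (CT.d CT.l CT.l)))) (CT.a (CT.b (CT.c CT.l (CT.d CT.l CT.l)) (CT.c CT.l (CT.d CT.l CT.l))) (CT.b (CT.c CT.l (CT.d CT.l CT.l)) (CT.c CT.l (CT.d CT.l CT.l)))))) (CT.b (CT.b (CT.b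 (CT.c CT.l (CT.c CT.l CT.l)) (CT.c CT.l (CT.d CT.l CT.l))) (CT.b (CT.c CT.l (CT.d CT.l CT.l)) (CT.c (CT.a CT.l CT.l) (CT.d CT.l (CT.a CT.l CT.l))))) (CT.b (CT.b (CT.c (CT.a CT.l CT.l) (CT.d CT.l (CT.a CT.l CT.l))) (CT.a (CT.c CT.l (CT.d CT.l CT.l)) (CT.c CT.l (CT.d CT.l CT.l)))) (CT.a (CT.b (CT.c CT.l (CT.d CT.l CT.l)) (CT.c CT.l (CT.b CT.l CT.l))) (CT.b (CT.c CT.l (CT.b CT.l CT.l)) (CT.c CT.l (CT.a CT.l CT.l))))))) 824633720832 137438953472 824633720832 824633720832 0 549755813888 824633720832 412316860416 = true := by decide +kernel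

theorem chkF_60 : chk testFX (CT.a (CT.b (CT.b (CT.b (CT.c CT.l (CT.c CT.l CT.l)) (CT.c CT.l (CT.d CT.l CT.l))) (CT.b (CT.c CT.l (CT.d CT.l CT.l)) (CT.c (CT.a CT.l CT.l) (CT.d CT.l (CT.a CT.l CT.l))))) (CT.b (CT.a (CT.b (CT.c CT.l (CT.b CT.l CT.l)) (CT.c CT.l (CT.b CT.l CT.l))) (CT.b (CT.c CT.l (CT.b CT.l CT.l)) (CT.c CT.l (CT.a CT.l CT.l)))) (CT.b (CT.d (CT.a CT.l CT.l) (CT.c CT.l (CT.a CT.l CT.l))) (CT.c CT.l (CT.c CT.l (CT.a CT.l CT.l)))))) (CT.b (CT.b (CT.b (CT.c CT.l (CT.d CT.l CT.l)) (CT.c CT.l (CT.d CT.l CT.l))) (CT.b (CT.c (CT.a CT.l CT.l) (CT.d CT.l (CT.a CT.l CT.l))) (CT.c (CT.a CT.l CT.l) (CT.d CT.l (CT.a CT.l CT.l))))) (CT.b (CT.d (CT.a (CT.b (CT.a CT.l CT.l) CT.l) (CT.b CT.l CT.l)) (CT.b (CT.c CT.l (CT.a CT.l CT.l)) (CT.c CT.l (CT.a CT.l CT.l)))) (CT.b (CT.c CT.l (CT.a (CT.a CT.l CT.l)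 CT.l)) (CT.c CT.l (CT.a CT.l CT.l)))))) 962072674304 137438953472 824633720832 824633720832 0 549755813888 824633720832 412316860416 = true := by decide +kernel

theorem chkF_61 : chk testFX (CT.a (CT.a (CT.b (CT.c CT.l (CT.a CT.l CT.l)) (CT.d (CT.a CT.l CT.l) (CT.c CT.l (CT.a CT.l CT.l)))) (CT.a (CT.b (CT.c CT.l CT.l) (CT.c CT.l (CT.a CT.l CT.l))) (CT.b (CT.d CT.l CT.l) (CT.c CT.l (CT.b CT.l CT.l))))) (CT.a (CT.a (CT.b (CT.d CT.l CT.l) (CT.a (CT.b CT.l CT.l) (CT.b CT.l CT.l))) (CT.b (CT.d CT.l CT.l) (CT.a (CT.b CT.l CT.l) (CT.b CT.l CT.l)))) (CT.a (CT.b (CT.b CT.l (CT.a CT.l CT.l)) (CT.a (CT.b CT.l CT.l) (CT.b CT.l CT.l))) (CT.b (CT.b CT.l (CT.a CT.l CT.l)) (CT.a (CT.b CT.l CT.l) (CT.b CT.l CT.l)))))) 549755813888 549755813888 824633720832 412316860416 0 274877906944 1236950581248 412316860416 = true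 := by decide +kernel

end Vale.Agent.Lib.P154E
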