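import Vale.Agent.Lib.P154E.ETProg

/-!
Generated kernel checks of the Taylor model box tests for `F`.
-/

namespace Vale.Agent.Lib.P154E

open Vale.Agent.Lib.P154

theorem chkF_62 : chk testFX (CT.a (CT.a (CT.b (CT.c (CT.d CT.l (CT.a CT.l CT.l)) (CT.a (CT.d CT.l CT.l) (CT.d CT.l CT.l))) (CT.a (CT.c (CT.d CT.l CT.l) (CT.a (CT.d CT.l CT.l) (CT.d CT.l CT.l))) (CT.c (CT.d CT.l CT.l) (CT.a (CT.d CT.l CT.l) (CT.d CT.l CT.l))))) (CT.a (CT.b (CT.c (CT.b CT.l CT.l) (CT.d CT.l CT.l)) (CT.c (CT.d CT.l (CT.a CT.l CT.l)) (CT.a (CT.d CT.l CT.l) (CT.d CT.l CT.l)))) (CT.b (CT.b (CT.d CT.l CT.l) (CT.c CT.l (CT.c CT.l CT.l))) (CT.b (CT.a (CT.d CT.l CT.l) (CT.d CT.l CT.l)) (CT.c (CT.a CT.l CT.l) (CT.d CT.l CT.l)))))) (CT.a (CT.d (CT.a (CT.b (CT.b CT.l CT.l) (CT.a (CT.b CT.l CT.l) (CT.b CT.l CT.l))) (CT.b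 (CT.b CT.l CT.l) (CT.a (CT.b CT.l CT.l) (CT.b CT.l CT.l)))) (CT.b (CT.b (CT.a CT.l CT.l) (CT.c CT.l (CT.a CT.l CT.l))) (CT.a (CT.b (CT.a CT.l CT.l) (CT.c CT.l CT.l)) (CT.a (CT.b CT.l CT.l) (CT.b CT.l CT.l))))) (CT.a (CT.b (CT.b (CT.d CT.l CT.l) (CT.c CT.l (CT.a CT.l CT.l))) (CT.a (CT.b (CT.d CT.l CT.l) (CT.d CT.l CT.l)) (CT.b (CT.d CT.l CT.l) (CT.d CT.l CT.l)))) (CT.b (CT.b (CT.d CT.l CT.l) (CT.c CT.l (CT.a CT.l CT.l))) (CT.a (CT.b (CT.d CT.l CT.l) (CT.d CT.l CT.l)) (CT.b (CT.d CT.l CT.l) (CT.d CT.l CT.l))))))) 549755813888 549755813888 824633720832 412316860416 274877906944 274877906944 1236950581248 412316860416 = true := by decide +kernel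

theorem chkF_63 : chk testFX (CT.a (CT.a (CT.a (CT.b (CT.a (CT.c CT.l (CT.c CT.l CT.l)) (CT.c CT.l (CT.c CT.l CT.l))) (CT.b (CT.c CT.l (CT.c CT.l CT.l)) (CT.c CT.l (CT.c CT.l CT.l)))) (CT.b (CT.a (CT.c CT.l (CT.c CT.l CT.l)) (CT.c CT.l (CT.c CT.l CT.l))) (CT.b (CT.c CT.l (CT.c CT.l CT.l)) (CT.c CT.l (CT.c CT.l (CT.a CT.l CT.l)))))) (CT.a (CT.b (CT.b (CT.c CT.l (CT.c CT.l CT.l)) (CT.c CT.l (CT.c CT.l CT.l))) (CT.b (CT.c CT.l (CT.c CT.l CT.l)) (CT.c CT.l (CT.c CT.l (CT.a CT.l CT.l))))) (CT.b (CT.b (CT.c CT.l (CT.a CT.l CT.l)) (CT.c CT.l (CT.c CT.l CT.l))) (CT.b (CT.c CT.l (CT.c CT.l (CT.a CT.l CT.l))) (CT.c CT.l (CT.c CT.l (CT.a CT.l CT.l))))))) (CT.a (CT.a (CT.b (CT.a (CT.c CT.l (CT.b CT.l CT.l)) (CT.c CT.l (CT.b CT.l CT.l))) (CT.b (CT.c CT.l (CT.a CT.l CT.l)) (CT.c CT.l (CT.a CT.l CT.l))))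 (CT.b (CT.a (CT.c CT.l (CT.b CT.l CT.l)) (CT.c CT.l (CT.b CT.l CT.l))) (CT.b (CT.c CT.l (CT.a CT.l CT.l)) (CT.c CT.l (CT.a CT.l CT.l))))) (CT.a (CT.b (CT.b (CT.c CT.l (CT.a CT.l CT.l)) (CT.c CT.l (CT.a CT.l CT.l))) (CT.b (CT.c CT.l (CT.a CT.l CT.l)) (CT.c CT.l (CT.a CT.l CT.l)))) (CT.b (CT.b (CT.c CT.l (CT.a CT.l CT.l)) (CT.c CT.l (CT.a CT.l CT.l))) (CT.a (CT.c CT.l (CT.b CT.l CT.l)) (CT.b (CT.a CT.l CT.l) CT.l)))))) 549755813888 549755813888 1236950581248 412316860416 0 549755813888 1236950581248 206158430208 = true := by decide +kernel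

end Vale.Agent.Lib.P154E
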