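import Vale.Agent.Lib.P154E.ETProg

/-!
Generated kernel checks of the Taylor model box tests for `F`.
-/

namespace Vale.Agent.Lib.P154E

open Vale.Agent.Lib.P154

theorem chkF_64 : chk testFX (CT.a (CT.a (CT.a (CT.b (CT.b (CT.c CT.l (CT.c CT.l CT.l)) (CT.c CT.l (CT.c CT.l CT.l))) (CT.c (CT.c CT.l CT.l) (CT.a (CT.c CT.l (CT.a CT.l CT.l)) (CT.c CT.l (CT.a CT.l CT.l))))) (CT.b (CT.b (CT.c CT.l (CT.c CT.l CT.l)) (CT.c CT.l (CT.c CT.l CT.l))) (CT.b (CT.c CT.l (CT.c CT.l (CT.a CT.l CT.l))) (CT.c (CT.a CT.l CT.l) (CT.c CT.l (CT.a CT.l CT.l)))))) (CT.a (CT.b (CT.b (CT.c CT.l (CT.c CT.l CT.l)) (CT.c CT.l (CT.c CT.l (CT.a CT.l CT.l)))) (CT.b (CT.c CT.l (CT.c CT.l (CT.a CT.l CT.l))) (CT.c (CT.a CT.l CT.l) (CT.c CT.l (CT.a CT.l CT.l))))) (CT.b (CT.b (CT.c CT.l (CT.c CT.l CT.l)) (CT.c CT.l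 (CT.c CT.l (CT.a CT.l CT.l)))) (CT.b (CT.c CT.l (CT.c CT.l (CT.a CT.l CT.l))) (CT.c CT.l (CT.c CT.l (CT.a CT.l CT.l))))))) (CT.a (CT.a (CT.b (CT.b (CT.c CT.l (CT.c CT.l CT.l)) (CT.c CT.l (CT.c CT.l (CT.a CT.l CT.l)))) (CT.b (CT.c CT.l (CT.c CT.l (CT.a CT.l CT.l))) (CT.c CT.l (CT.c CT.l (CT.a CT.l CT.l))))) (CT.b (CT.b (CT.c CT.l (CT.c CT.l (CT.a CT.l CT.l))) (CT.c CT.l (CT.c CT.l (CT.a CT.l CT.l)))) (CT.b (CT.c CT.l (CT.c CT.l (CT.a CT.l CT.l))) (CT.c CT.l (CT.c CT.l (CT.a CT.l CT.l)))))) (CT.a (CT.c (CT.b (CT.b CT.l CT.l) (CT.b CT.l CT.l)) (CT.a (CT.b (CT.b CT.l (CT.a CT.l CT.l)) (CT.b (CT.a CT.l CT.l) CT.l)) (CT.b (CT.b CT.l CT.l) (CT.b CT.l CT.l)))) (CT.b (CT.b (CT.c CT.l (CT.a CT.l CT.l)) (CT.c CT.l (CT.a CT.l CT.l))) (CT.b (CT.c CT.l (CT.a CT.l CT.l)) (CT.c CT.l (CT.a CT.l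 CT.l))))))) 549755813888 549755813888 1236950581248 412316860416 0 549755813888 1443109011456 206158430208 = true := by decide +kernel

theorem chkF_65 : chk testFX (CT.a (CT.a (CT.b (CT.c (CT.d CT.l CT.l) (CT.c (CT.b CT.l CT.l) (CT.d CT.l CT.l))) (CT.c (CT.c CT.l (CT.a CT.l CT.l)) (CT.c (CT.d CT.l CT.l) (CT.d CT.l (CT.a CT.l CT.l))))) (CT.b (CT.c (CT.c CT.l (CT.a CT.l CT.l)) (CT.c (CT.d CT.l CT.l) (CT.a (CT.d CT.l CT.l) (CT.d CT.l CT.l)))) (CT.c (CT.c CT.l (CT.a CT.l CT.l)) (CT.c (CT.d CT.l CT.l) (CT.a (CT.d CT.l CT.l) (CT.d CT.l CT.l)))))) (CT.a (CT.b (CT.c (CT.c CT.l (CT.a CT.l CT.l)) (CT.c (CT.d CT.l CT.l) (CT.a (CT.d CT.l CT.l) (CT.d CT.l CT.l)))) (CT.a (CT.c (CT.c CT.l CT.l) (CT.c (CT.b CT.l CT.l) (CT.d CT.l CT.l))) (CT.c (CT.d CT.l CT.l) (CT.c (CT.b CT.l CT.l) (CT.d CT.l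 CT.l))))) (CT.b (CT.c (CT.a (CT.c CT.l CT.l) (CT.c CT.l CT.l)) (CT.c (CT.d CT.l (CT.a CT.l CT.l)) (CT.a (CT.d CT.l CT.l) (CT.d CT.l CT.l)))) (CT.c (CT.c (CT.a CT.l CT.l) (CT.d CT.l (CT.a CT.l CT.l))) (CT.a (CT.c (CT.b CT.l CT.l) (CT.d CT.l CT.l)) (CT.c (CT.b CT.l CT.l) (CT.d CT.l (CT.a CT.l CT.l)))))))) 0 549755813888 824633720832 412316860416 549755813888 549755813888 824633720832 206158430208 = true := by decide +kernel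

theorem chkF_66 : chk testFX (CT.a (CT.a (CT.b (CT.c (CT.c CT.l (CT.a CT.l CT.l)) (CT.c (CT.d CT.l CT.l) (CT.a (CT.d CT.l CT.l) (CT.d CT.l CT.l)))) (CT.c (CT.a (CT.c CT.l CT.l) (CT.c CT.l CT.l)) (CT.c (CT.d CT.l CT.l) (CT.a (CT.d CT.l CT.l) (CT.d CT.l CT.l))))) (CT.b (CT.c (CT.b (CT.c CT.l CT.l) (CT.c CT.l CT.l)) (CT.c (CT.d CT.l CT.l) (CT.a (CT.d CT.l CT.l) (CT.d CT.l CT.l)))) (CT.c (CT.c (CT.a CT.l CT.l) (CT.d CT.l CT.l)) (CT.a (CT.c (CT.b CT.l CT.l) (CT.d CT.l CT.l)) (CT.c (CT.b CT.l CT.l) (CT.d CT.l CT.l)))))) (CT.a (CT.b (CT.c (CT.c (CT.a CT.l CT.l) (CT.d CT.l CT.l)) (CT.a (CT.c (CT.b CT.l CT.l) (CT.d CT.l CT.l)) (CT.c (CT.b CT.l CT.l) (CT.d CT.l CT.l)))) (CT.c (CT.c (CT.a CT.l CT.l) (CT.d CT.l (CT.a CT.l CT.l))) (CT.a (CT.c (CT.b CT.l CT.l) (CT.d CT.l CT.l)) (CT.c (CT.d CT.l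 CT.l) (CT.d CT.l (CT.a CT.l CT.l)))))) (CT.b (CT.b (CT.c (CT.c CT.l CT.l) (CT.c (CT.a CT.l CT.l) (CT.d CT.l CT.l))) (CT.c (CT.c CT.l (CT.a CT.l CT.l)) (CT.c (CT.a CT.l CT.l) (CT.d CT.l (CT.a CT.l CT.l))))) (CT.c (CT.c (CT.d CT.l (CT.a CT.l CT.l)) (CT.a (CT.a CT.l CT.l) (CT.b CT.l CT.l))) (CT.a (CT.c (CT.d CT.l CT.l) (CT.a (CT.d CT.l CT.l) (CT.d CT.l CT.l))) (CT.c (CT.d CT.l CT.l) (CT.a (CT.d CT.l CT.l) (CT.d CT.l CT.l)))))))) 0 549755813888 824633720832 412316860416 549755813888 549755813888 1030792151040 206158430208 = true := by decide +kernel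

end Vale.Agent.Lib.P154E
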