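import Vale.Agent.Lib.P154E.ETProg

/-!
Generated kernel checks of the Taylor model box tests for `F`.
-/

namespace Vale.Agent.Lib.P154E

open Vale.Agent.Lib.P154

theorem chkF_67 : chk testFX (CT.a (CT.a (CT.a (CT.b (CT.c CT.l CT.l) (CT.c CT.l (CT.a CT.l CT.l))) (CT.b (CT.c CT.l CT.l) (CT.c CT.l (CT.a CT.l CT.l)))) (CT.a (CT.b (CT.c CT.l CT.l) (CT.a (CT.c CT.l CT.l) (CT.c CT.l CT.l))) (CT.b (CT.b CT.l (CT.a CT.l CT.l)) (CT.b (CT.a CT.l CT.l) (CT.c CT.l CT.l))))) (CT.a (CT.a (CT.b (CT.b CT.l (CT.a CT.l CT.l)) (CT.b (CT.a CT.l CT.l) (CT.c CT.l CT.l))) (CT.b (CT.b CT.l (CT.a CT.l CT.l)) (CT.b (CT.a CT.l CT.l) (CT.c CT.l CT.l)))) (CT.a (CT.b (CT.a (CT.b CT.l CT.l) (CT.b CT.l CT.l)) (CT.b (CT.a CT.l CT.l) (CT.c CT.l (CT.a CT.l CT.l)))) (CT.a (CT.b (CT.b CT.l CT.l) (CT.b CT.l (CT.a CT.l CT.l))) (CT.b (CT.b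 CT.l CT.l) (CT.b CT.l (CT.a CT.l CT.l))))))) 549755813888 549755813888 824633720832 412316860416 549755813888 274877906944 824633720832 206158430208 = true := by decide +kernel

theorem chkF_68 : chk testFX (CT.a (CT.a (CT.a (CT.b (CT.c CT.l (CT.a CT.l CT.l)) (CT.b (CT.c CT.l CT.l) (CT.c CT.l CT.l))) (CT.b (CT.c CT.l (CT.a CT.l CT.l)) (CT.b (CT.c CT.l CT.l) (CT.c CT.l CT.l)))) (CT.a (CT.b (CT.c CT.l (CT.a CT.l CT.l)) (CT.b (CT.c CT.l CT.l) (CT.c CT.l CT.l))) (CT.b (CT.a (CT.c CT.l CT.l) (CT.c CT.l CT.l)) (CT.b (CT.c CT.l CT.l) (CT.c CT.l (CT.a CT.l CT.l)))))) (CT.a (CT.b (CT.b (CT.c CT.l (CT.a CT.l CT.l)) (CT.a (CT.c CT.l CT.l) (CT.a CT.l CT.l))) (CT.a (CT.b (CT.c CT.l CT.l) (CT.c CT.l (CT.a CT.l CT.l))) (CT.b (CT.c CT.l CT.l) (CT.c CT.l (CT.a CT.l CT.l))))) (CT.a (CT.b (CT.a (CT.b CT.l CT.l) (CT.b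 CT.l CT.l)) (CT.b (CT.c CT.l (CT.a CT.l CT.l)) (CT.c CT.l (CT.a CT.l CT.l)))) (CT.b (CT.a (CT.b CT.l CT.l) (CT.b CT.l CT.l)) (CT.b (CT.c CT.l (CT.a CT.l CT.l)) (CT.a (CT.a CT.l CT.l) (CT.a CT.l CT.l))))))) 549755813888 549755813888 824633720832 412316860416 549755813888 274877906944 1030792151040 206158430208 = true := by decide +kernel

theorem chkF_69 : chk testFX (CT.a (CT.a (CT.b (CT.c (CT.b (CT.d CT.l CT.l) (CT.d CT.l CT.l)) (CT.d (CT.d CT.l CT.l) (CT.d CT.l (CT.a CT.l CT.l)))) (CT.c (CT.d (CT.b CT.l CT.l) (CT.d CT.l (CT.a CT.l CT.l))) (CT.a (CT.d (CT.b CT.l CT.l) (CT.d CT.l CT.l)) (CT.d (CT.b CT.l CT.l) (CT.d CT.l CT.l))))) (CT.b (CT.c (CT.b (CT.d CT.l CT.l) (CT.d CT.l CT.l)) (CT.d (CT.d CT.l CT.l) (CT.a (CT.b CT.l CT.l) (CT.b CT.l CT.l)))) (CT.b (CT.c (CT.d CT.l (CT.a CT.l CT.l)) (CT.a (CT.d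 CT.l CT.l) (CT.d CT.l CT.l))) (CT.c (CT.d CT.l (CT.a CT.l CT.l)) (CT.c (CT.d CT.l CT.l) (CT.d CT.l CT.l)))))) (CT.a (CT.b (CT.b (CT.c (CT.d CT.l CT.l) (CT.d CT.l (CT.a CT.l CT.l))) (CT.c (CT.d CT.l CT.l) (CT.a (CT.d CT.l CT.l) (CT.d CT.l CT.l)))) (CT.b (CT.c (CT.d CT.l (CT.a CT.l CT.l)) (CT.a (CT.d CT.l CT.l) (CT.d CT.l CT.l))) (CT.c (CT.d CT.l (CT.a CT.l CT.l)) (CT.d (CT.a CT.l CT.l) (CT.d CT.l CT.l))))) (CT.b (CT.b (CT.c (CT.d CT.l CT.l) (CT.d CT.l (CT.a CT.l CT.l))) (CT.c (CT.d CT.l CT.l) (CT.a (CT.d CT.l CT.l) (CT.d CT.l CT.l)))) (CT.b (CT.c (CT.d CT.l (CT.a CT.l CT.l)) (CT.c (CT.d CT.l CT.l) (CT.d CT.l CT.l))) (CT.c (CT.a (CT.d CT.l CT.l) (CT.d CT.l CT.l)) (CT.d (CT.a CT.l CT.l) (CT.d CT.l CT.l))))))) 549755813888 274877906944 824633720832 412316860416 824633720832 274877906944 824633720832 412316860416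 = true := by decide +kernel

theorem chkF_70 : chk testFX (CT.a (CT.b (CT.b (CT.c (CT.d CT.l CT.l) (CT.a (CT.d CT.l CT.l) (CT.d CT.l CT.l))) (CT.c (CT.d CT.l CT.l) (CT.a (CT.d CT.l CT.l) (CT.d CT.l CT.l)))) (CT.b (CT.c (CT.d CT.l (CT.a CT.l CT.l)) (CT.d (CT.a CT.l CT.l) (CT.d CT.l CT.l))) (CT.c (CT.a (CT.d CT.l CT.l) (CT.d CT.l CT.l)) (CT.d (CT.a CT.l CT.l) (CT.d CT.l (CT.a CT.l CT.l)))))) (CT.b (CT.b (CT.c (CT.d CT.l CT.l) (CT.a (CT.d CT.l CT.l) (CT.d CT.l CT.l))) (CT.c (CT.d CT.l (CT.a CT.l CT.l)) (CT.d (CT.a CT.l CT.l) (CT.d CT.l CT.l)))) (CT.b (CT.a (CT.c (CT.d CT.l CT.l) (CT.d CT.l (CT.a CT.l CT.l))) (CT.c (CT.d CT.l CT.l) (CT.d CT.l (CT.a CT.l CT.l)))) (CT.c (CT.a (CT.d CT.l CT.l) (CT.d CT.l CT.l)) (CT.d (CT.d CT.l (CT.a CT.l CT.l)) (CT.a (CT.a CT.l CT.l) (CT.b CT.l CT.l))))))) 824633720832 137438953472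 824633720832 412316860416 824633720832 274877906944 824633720832 412316860416 = true := by decide +kernel

end Vale.Agent.Lib.P154E
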