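import Vale.Agent.Lib.P154E.ETProg

/-!
Generated kernel checks of the Taylor model box tests for `F`.
-/

namespace Vale.Agent.Lib.P154E

open Vale.Agent.Lib.P154

theorem chkF_71 : chk testFX (CT.c (CT.a (CT.b (CT.b (CT.d CT.l CT.l) (CT.d CT.l (CT.a CT.l CT.l))) (CT.a (CT.b (CT.d CT.l CT.l) (CT.d CT.l CT.l)) (CT.b (CT.d CT.l CT.l) (CT.d CT.l (CT.a CT.l CT.l))))) (CT.b (CT.b (CT.d CT.l (CT.a CT.l CT.l)) (CT.a (CT.d CT.l CT.l) (CT.d CT.l CT.l))) (CT.a (CT.b (CT.d CT.l CT.l) (CT.d CT.l (CT.a CT.l CT.l))) (CT.b (CT.d CT.l CT.l) (CT.a (CT.d CT.l CT.l) (CT.d CT.l CT.l)))))) (CT.a (CT.b (CT.b (CT.d (CT.a CT.l CT.l) (CT.d CT.l CT.l)) (CT.c (CT.d CT.l CT.l) (CT.d CT.l (CT.a CT.l CT.l)))) (CT.b (CT.c (CT.d CT.l (CT.a CT.l CT.l)) (CT.a (CT.d CT.l CT.l) (CT.d CT.l CT.l))) (CT.a (CT.c (CT.d CT.l CT.l)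 (CT.d CT.l CT.l)) (CT.c (CT.d CT.l CT.l) (CT.d CT.l (CT.a CT.l CT.l)))))) (CT.b (CT.b (CT.c (CT.d CT.l CT.l) (CT.d CT.l (CT.a CT.l CT.l))) (CT.c (CT.d CT.l (CT.a CT.l CT.l)) (CT.a (CT.d CT.l CT.l) (CT.d CT.l (CT.a CT.l CT.l))))) (CT.a (CT.b (CT.c (CT.d CT.l CT.l) (CT.d CT.l (CT.a CT.l CT.l))) (CT.c (CT.d CT.l CT.l) (CT.a (CT.d CT.l CT.l) (CT.d CT.l CT.l)))) (CT.b (CT.c (CT.d CT.l CT.l) (CT.d CT.l (CT.a CT.l CT.l))) (CT.c (CT.d CT.l (CT.a CT.l CT.l)) (CT.d (CT.a CT.l CT.l) (CT.d CT.l (CT.a CT.l CT.l))))))))) 962072674304 137438953472 824633720832 412316860416 824633720832 274877906944 824633720832 412316860416 = true := by decide +kernel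

theorem chkF_72 : chk testFX (CT.d (CT.a (CT.a (CT.a (CT.b (CT.c CT.l CT.l) (CT.c CT.l CT.l)) (CT.c (CT.a CT.l CT.l) (CT.d CT.l CT.l))) (CT.a (CT.c (CT.a CT.l CT.l) (CT.d CT.l (CT.a CT.l CT.l))) (CT.a (CT.c CT.l (CT.a CT.l CT.l)) (CT.c CT.l (CT.a CT.l CT.l))))) (CT.a (CT.a (CT.a (CT.c CT.l (CT.a CT.l CT.l)) (CT.b (CT.c CT.l CT.l) (CT.c CT.l CT.l))) (CT.b (CT.c CT.l (CT.a CT.l CT.l)) (CT.a (CT.c CT.l CT.l) (CT.c CT.l CT.l)))) (CT.a (CT.a (CT.b (CT.c CT.l CT.l) (CT.c CT.l CT.l)) (CT.b (CT.c CT.l CT.l) (CT.c CT.l CT.l))) (CT.a (CT.b (CT.c CT.l CT.l) (CT.c CT.l (CT.a CT.l CT.l))) (CT.b (CT.c CT.l CT.l) (CT.c CT.l (CT.a CT.l CT.l))))))) (CT.a (CT.a (CT.a (CT.c (CT.a CT.l CT.l) (CT.d CT.l CT.l)) (CT.a (CT.c CT.l (CT.b CT.l CT.l)) (CT.c CT.l (CT.b CT.l CT.l)))) (CT.a (CT.c (CT.d CT.l CT.l) (CT.a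 (CT.b CT.l CT.l) (CT.b CT.l CT.l))) (CT.b (CT.c CT.l (CT.a CT.l CT.l)) (CT.c (CT.a CT.l CT.l) (CT.d CT.l CT.l))))) (CT.a (CT.a (CT.a (CT.c (CT.a CT.l CT.l) (CT.d CT.l CT.l)) (CT.c (CT.a CT.l CT.l) (CT.d CT.l CT.l))) (CT.a (CT.b (CT.c CT.l CT.l) (CT.c CT.l (CT.a CT.l CT.l))) (CT.b (CT.c CT.l CT.l) (CT.c CT.l (CT.a CT.l CT.l))))) (CT.a (CT.a (CT.b (CT.c CT.l CT.l) (CT.c CT.l (CT.a CT.l CT.l))) (CT.b (CT.c CT.l CT.l) (CT.c CT.l (CT.a CT.l CT.l)))) (CT.a (CT.b (CT.c CT.l (CT.a CT.l CT.l)) (CT.c CT.l (CT.a CT.l CT.l))) (CT.b (CT.c CT.l (CT.a CT.l CT.l)) (CT.c CT.l (CT.a CT.l CT.l)))))))) 0 1099511627776 824633720832 206158430208 549755813888 274877906944 1236950581248 412316860416 = true := by decide +kernel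

theorem chkF_73 : chk testFX (CT.a (CT.a (CT.c (CT.a (CT.d CT.l CT.l) (CT.d CT.l CT.l)) (CT.d (CT.d CT.l CT.l) (CT.d CT.l (CT.a CT.l CT.l)))) (CT.c (CT.d (CT.a CT.l CT.l) (CT.d CT.l CT.l)) (CT.d (CT.d CT.l (CT.a CT.l CT.l)) (CT.a (CT.b CT.l CT.l) (CT.c CT.l CT.l))))) (CT.a (CT.c (CT.d (CT.d CT.l (CT.a CT.l CT.l)) (CT.a (CT.a CT.l CT.l) (CT.b CT.l CT.l))) (CT.a (CT.c (CT.d CT.l CT.l) (CT.d CT.l CT.l)) (CT.d (CT.b CT.l CT.l) (CT.d CT.l CT.l)))) (CT.a (CT.c (CT.b (CT.d CT.l CT.l) (CT.d CT.l CT.l)) (CT.d (CT.d CT.l CT.l) (CT.d CT.l (CT.a CT.l CT.l)))) (CT.c (CT.b (CT.d CT.l CT.l) (CT.d CT.l CT.l)) (CT.d (CT.d CT.l CT.l) (CT.a (CT.b CT.l CT.l) (CT.b CT.l CT.l))))))) 0 549755813888 1030792151040 206158430208 549755813888 274877906944 1236950581248 412316860416 = true := by decide +kernel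

end Vale.Agent.Lib.P154E
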