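import Vale.Agent.Lib.P154E.ETProg

/-!
Generated kernel checks of the Taylor model box tests for `F`.
-/

namespace Vale.Agent.Lib.P154E

open Vale.Agent.Lib.P154

theorem chkF_74 : chk testFX (CT.a (CT.a (CT.a (CT.c (CT.d (CT.a CT.l CT.l) (CT.d CT.l CT.l)) (CT.b (CT.d CT.l (CT.a CT.l CT.l)) (CT.a (CT.d CT.l CT.l) (CT.d CT.l CT.l)))) (CT.b (CT.c (CT.d CT.l CT.l) (CT.d CT.l (CT.a CT.l CT.l))) (CT.c (CT.d CT.l (CT.a CT.l CT.l)) (CT.a (CT.d CT.l CT.l) (CT.d CT.l CT.l))))) (CT.a (CT.b (CT.c (CT.d CT.l CT.l) (CT.a (CT.d CT.l CT.l) (CT.d CT.l CT.l))) (CT.c (CT.d CT.l (CT.a CT.l CT.l)) (CT.a (CT.d CT.l CT.l) (CT.d CT.l CT.l)))) (CT.b (CT.c (CT.d CT.l CT.l) (CT.a (CT.d CT.l CT.l) (CT.d CT.l CT.l))) (CT.c (CT.d CT.l (CT.a CT.l CT.l)) (CT.a (CT.d CT.l CT.l) (CT.d CT.l CT.l)))))) (CT.a (CT.a (CT.b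 (CT.c (CT.d CT.l CT.l) (CT.a (CT.d CT.l CT.l) (CT.d CT.l CT.l))) (CT.c (CT.d CT.l (CT.a CT.l CT.l)) (CT.a (CT.d CT.l CT.l) (CT.d CT.l (CT.a CT.l CT.l))))) (CT.b (CT.c (CT.d CT.l (CT.a CT.l CT.l)) (CT.a (CT.d CT.l CT.l) (CT.d CT.l CT.l))) (CT.a (CT.c (CT.d CT.l CT.l) (CT.d CT.l (CT.a CT.l CT.l))) (CT.c (CT.d CT.l CT.l) (CT.d CT.l (CT.a CT.l CT.l)))))) (CT.a (CT.b (CT.c (CT.d CT.l (CT.a CT.l CT.l)) (CT.a (CT.d CT.l CT.l) (CT.d CT.l CT.l))) (CT.a (CT.c (CT.d CT.l CT.l) (CT.d CT.l (CT.a CT.l CT.l))) (CT.c (CT.d CT.l CT.l) (CT.d CT.l (CT.a CT.l CT.l))))) (CT.a (CT.b (CT.c (CT.b CT.l CT.l) (CT.d CT.l CT.l)) (CT.c (CT.d CT.l CT.l) (CT.d CT.l (CT.a CT.l CT.l)))) (CT.b (CT.c (CT.b CT.l CT.l) (CT.d CT.l CT.l)) (CT.c (CT.b CT.l CT.l) (CT.d CT.l (CT.a CT.l CT.l)))))))) 549755813888 549755813888 1030792151040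 206158430208 549755813888 274877906944 1236950581248 412316860416 = true := by decide +kernel

theorem chkF_75 : chk testFX (CT.a (CT.a (CT.b (CT.d (CT.d CT.l (CT.a CT.l CT.l)) (CT.a (CT.c CT.l CT.l) (CT.d CT.l CT.l))) (CT.a (CT.c (CT.d CT.l CT.l) (CT.d CT.l CT.l)) (CT.d (CT.c CT.l CT.l) (CT.d CT.l CT.l)))) (CT.a (CT.b (CT.d (CT.c CT.l CT.l) (CT.d CT.l CT.l)) (CT.d (CT.d CT.l CT.l) (CT.d CT.l CT.l))) (CT.b (CT.d (CT.c CT.l CT.l) (CT.d CT.l CT.l)) (CT.d (CT.d CT.l CT.l) (CT.d CT.l (CT.a CT.l CT.l)))))) (CT.a (CT.b (CT.b (CT.d (CT.c CT.l CT.l) (CT.d CT.l CT.l)) (CT.d (CT.d CT.l CT.l) (CT.d CT.l (CT.a CT.l CT.l)))) (CT.a (CT.d (CT.d CT.l CT.l) (CT.a (CT.c CT.l CT.l) (CT.c CT.l CT.l))) (CT.d (CT.d CT.l CT.l) (CT.a (CT.c CT.l CT.l) (CT.d CT.l CT.l))))) (CT.a (CT.b (CT.d (CT.d CT.l CT.l) (CT.d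 CT.l (CT.a CT.l CT.l))) (CT.d (CT.d CT.l (CT.a CT.l CT.l)) (CT.a (CT.d CT.l CT.l) (CT.d CT.l CT.l)))) (CT.b (CT.d (CT.d CT.l CT.l) (CT.a (CT.c CT.l CT.l) (CT.c CT.l CT.l))) (CT.a (CT.d (CT.b CT.l CT.l) (CT.d CT.l CT.l)) (CT.d (CT.b CT.l CT.l) (CT.d CT.l CT.l))))))) 0 549755813888 824633720832 412316860416 824633720832 137438953472 1236950581248 412316860416 = true := by decide +kernel

theorem chkF_76 : chk testFX (CT.a (CT.a (CT.b (CT.d (CT.d CT.l CT.l) (CT.a (CT.d CT.l CT.l) (CT.d CT.l CT.l))) (CT.b (CT.c (CT.d CT.l CT.l) (CT.d CT.l CT.l)) (CT.c (CT.d CT.l CT.l) (CT.d CT.l CT.l)))) (CT.b (CT.d (CT.d CT.l (CT.a CT.l CT.l)) (CT.a (CT.d CT.l CT.l) (CT.d CT.l CT.l))) (CT.b (CT.c (CT.d CT.l CT.l) (CT.d CT.l CT.l)) (CT.d (CT.a CT.l CT.l) (CT.d CT.l CT.l))))) (CT.a (CT.b (CT.d (CT.d CT.l (CT.a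 CT.l CT.l)) (CT.b (CT.a CT.l CT.l) (CT.c CT.l CT.l))) (CT.b (CT.d (CT.a CT.l CT.l) (CT.d CT.l CT.l)) (CT.d (CT.c CT.l CT.l) (CT.d CT.l (CT.a CT.l CT.l))))) (CT.b (CT.b (CT.a (CT.d CT.l CT.l) (CT.d CT.l CT.l)) (CT.c (CT.d CT.l CT.l) (CT.d CT.l CT.l))) (CT.b (CT.d (CT.a CT.l CT.l) (CT.d CT.l CT.l)) (CT.d (CT.d CT.l CT.l) (CT.a (CT.b CT.l CT.l) (CT.b CT.l CT.l))))))) 549755813888 274877906944 824633720832 412316860416 824633720832 137438953472 1236950581248 412316860416 = true := by decide +kernel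

end Vale.Agent.Lib.P154E
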