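import Vale.Agent.Lib.P154E.ETProg

/-!
Generated kernel checks of the Taylor model box tests for `F`.
-/

namespace Vale.Agent.Lib.P154E

open Vale.Agent.Lib.P154

theorem chkF_77 : chk testFX (CT.a (CT.a (CT.b (CT.b (CT.c (CT.d CT.l CT.l) (CT.d CT.l CT.l)) (CT.d (CT.a CT.l CT.l) (CT.d CT.l CT.l))) (CT.b (CT.d (CT.a CT.l CT.l) (CT.d CT.l (CT.a CT.l CT.l))) (CT.d (CT.d CT.l (CT.a CT.l CT.l)) (CT.a (CT.b CT.l CT.l) (CT.b CT.l CT.l))))) (CT.b (CT.b (CT.d (CT.a CT.l CT.l) (CT.d CT.l CT.l)) (CT.c (CT.d CT.l CT.l) (CT.d CT.l (CT.a CT.l CT.l)))) (CT.b (CT.d (CT.d CT.l CT.l) (CT.a (CT.b CT.l CT.l) (CT.b CT.l CT.l))) (CT.a (CT.b (CT.d CT.l CT.l) (CT.d CT.l CT.l)) (CT.c (CT.d CT.l CT.l) (CT.d CT.l CT.l)))))) (CT.a (CT.b (CT.b (CT.c (CT.d CT.l CT.l) (CT.d CT.l (CT.a CT.l CT.l))) (CT.a (CT.d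 CT.l (CT.a CT.l CT.l)) (CT.d CT.l (CT.a CT.l CT.l)))) (CT.a (CT.b (CT.b (CT.d CT.l CT.l) (CT.d CT.l CT.l)) (CT.d (CT.a CT.l CT.l) (CT.d CT.l CT.l))) (CT.b (CT.b (CT.d CT.l CT.l) (CT.d CT.l CT.l)) (CT.b (CT.d CT.l CT.l) (CT.d CT.l (CT.a CT.l CT.l)))))) (CT.a (CT.b (CT.b (CT.d CT.l (CT.a CT.l CT.l)) (CT.d CT.l (CT.a CT.l CT.l))) (CT.b (CT.b (CT.d CT.l CT.l) (CT.d CT.l CT.l)) (CT.c (CT.d CT.l CT.l) (CT.d CT.l (CT.a CT.l CT.l))))) (CT.b (CT.b (CT.d CT.l (CT.a CT.l CT.l)) (CT.d CT.l (CT.a CT.l CT.l))) (CT.b (CT.b (CT.d CT.l CT.l) (CT.d CT.l CT.l)) (CT.a (CT.d CT.l (CT.b CT.l CT.l)) (CT.d CT.l (CT.b CT.l CT.l)))))))) 824633720832 274877906944 824633720832 412316860416 824633720832 137438953472 1236950581248 412316860416 = true := by decide +kernel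

theorem chkF_78 : chk testFX (CT.a (CT.a (CT.b (CT.c (CT.d (CT.d CT.l CT.l) (CT.d CT.l CT.l)) (CT.d (CT.d CT.l CT.l) (CT.d CT.l (CT.a CT.l CT.l)))) (CT.c (CT.d (CT.d CT.l CT.l) (CT.d CT.l (CT.a CT.l CT.l))) (CT.d (CT.d CT.l (CT.a CT.l CT.l)) (CT.a (CT.b CT.l CT.l) (CT.b CT.l CT.l))))) (CT.b (CT.c (CT.d (CT.d CT.l CT.l) (CT.d CT.l (CT.a CT.l CT.l))) (CT.d (CT.d CT.l (CT.a CT.l CT.l)) (CT.a (CT.b CT.l CT.l) (CT.b CT.l CT.l)))) (CT.a (CT.d (CT.d CT.l (CT.a CT.l CT.l)) (CT.b (CT.c CT.l CT.l) (CT.d CT.l CT.l))) (CT.b (CT.d (CT.c CT.l CT.l) (CT.d CT.l CT.l)) (CT.d (CT.c CT.l CT.l) (CT.d CT.l CT.l)))))) (CT.a (CT.a (CT.b (CT.d (CT.d CT.l (CT.a CT.l CT.l)) (CT.b (CT.c CT.l CT.l) (CT.c CT.l CT.l))) (CT.b (CT.d (CT.c CT.l CT.l) (CT.d CT.l CT.l)) (CT.d (CT.c CT.l CT.l) (CT.d CT.l CT.l))))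 (CT.b (CT.b (CT.c (CT.d CT.l CT.l) (CT.d CT.l CT.l)) (CT.d (CT.c CT.l CT.l) (CT.d CT.l CT.l))) (CT.b (CT.d (CT.c CT.l CT.l) (CT.d CT.l CT.l)) (CT.d (CT.d CT.l CT.l) (CT.d CT.l CT.l))))) (CT.a (CT.b (CT.b (CT.d (CT.c CT.l CT.l) (CT.d CT.l CT.l)) (CT.d (CT.c CT.l CT.l) (CT.d CT.l CT.l))) (CT.b (CT.d (CT.d CT.l CT.l) (CT.d CT.l CT.l)) (CT.d (CT.d CT.l CT.l) (CT.d CT.l CT.l)))) (CT.b (CT.b (CT.d (CT.c CT.l CT.l) (CT.d CT.l CT.l)) (CT.d (CT.c CT.l CT.l) (CT.d CT.l CT.l))) (CT.b (CT.d (CT.d CT.l CT.l) (CT.d CT.l CT.l)) (CT.d (CT.d CT.l CT.l) (CT.d CT.l (CT.a CT.l CT.l)))))))) 0 549755813888 824633720832 412316860416 962072674304 137438953472 1236950581248 412316860416 = true := by decide +kernel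

end Vale.Agent.Lib.P154E
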