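import Vale.Agent.Lib.P154E.ETProg

/-!
Generated kernel checks of the Taylor model box tests for `F`.
-/

namespace Vale.Agent.Lib.P154E

open Vale.Agent.Lib.P154

theorem chkF_79 : chk testFX (CT.a (CT.a (CT.b (CT.b (CT.d (CT.c CT.l CT.l) (CT.d CT.l CT.l)) (CT.d (CT.c CT.l CT.l) (CT.d CT.l CT.l))) (CT.b (CT.d (CT.d CT.l CT.l) (CT.d CT.l (CT.a CT.l CT.l))) (CT.d (CT.d CT.l CT.l) (CT.d CT.l (CT.a CT.l CT.l))))) (CT.b (CT.b (CT.d (CT.c CT.l CT.l) (CT.d CT.l CT.l)) (CT.d (CT.d CT.l CT.l) (CT.d CT.l (CT.a CT.l CT.l)))) (CT.b (CT.d (CT.d CT.l CT.l) (CT.d CT.l (CT.a CT.l CT.l))) (CT.d (CT.d CT.l CT.l) (CT.a (CT.c CT.l CT.l) (CT.c CT.l CT.l)))))) (CT.a (CT.b (CT.b (CT.c (CT.d CT.l CT.l) (CT.d CT.l (CT.a CT.l CT.l))) (CT.d (CT.d CT.l CT.l) (CT.d CT.l (CT.a CT.l CT.l)))) (CT.b (CT.d (CT.d CT.l CT.l) (CT.a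 (CT.c CT.l CT.l) (CT.c CT.l CT.l))) (CT.d (CT.d CT.l (CT.a CT.l CT.l)) (CT.a (CT.c CT.l CT.l) (CT.d CT.l CT.l))))) (CT.b (CT.b (CT.d (CT.c CT.l CT.l) (CT.d CT.l (CT.a CT.l CT.l))) (CT.d (CT.d CT.l CT.l) (CT.a (CT.c CT.l CT.l) (CT.c CT.l CT.l)))) (CT.b (CT.d (CT.d CT.l (CT.a CT.l CT.l)) (CT.a (CT.d CT.l CT.l) (CT.d CT.l CT.l))) (CT.a (CT.d (CT.b CT.l CT.l) (CT.d CT.l CT.l)) (CT.d (CT.b CT.l CT.l) (CT.d CT.l CT.l))))))) 549755813888 274877906944 824633720832 412316860416 962072674304 137438953472 1236950581248 412316860416 = true := by decide +kernel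

theorem chkF_80 : chk testFX (CT.a (CT.b (CT.b (CT.d (CT.d CT.l CT.l) (CT.a (CT.d CT.l CT.l) (CT.d CT.l CT.l))) (CT.c (CT.d CT.l (CT.a CT.l CT.l)) (CT.d (CT.a CT.l CT.l) (CT.d CT.l CT.l)))) (CT.b (CT.c (CT.a (CT.d CT.l CT.l) (CT.d CT.l CT.l)) (CT.d (CT.a CT.l CT.l) (CT.d CT.l CT.l))) (CT.c (CT.d (CT.a CT.l CT.l) (CT.d CT.l CT.l)) (CT.d (CT.a CT.l CT.l) (CT.d CT.l (CT.a CT.l CT.l)))))) (CT.b (CT.b (CT.c (CT.d CT.l (CT.a CT.l CT.l)) (CT.d (CT.a CT.l CT.l) (CT.d CT.l (CT.a CT.l CT.l)))) (CT.c (CT.a (CT.d CT.l CT.l) (CT.d CT.l CT.l)) (CT.d (CT.a CT.l CT.l) (CT.d CT.l (CT.a CT.l CT.l))))) (CT.b (CT.c (CT.d (CT.a CT.l CT.l) (CT.d CT.l CT.l)) (CT.a (CT.d CT.l (CT.b CT.l CT.l)) (CT.d CT.l (CT.d CT.l CT.l)))) (CT.a (CT.c (CT.d CT.l (CT.a CT.l CT.l)) (CT.d CT.l (CT.b CT.l CT.l))) (CT.c (CT.d CT.l (CT.a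 CT.l CT.l)) (CT.d (CT.a CT.l CT.l) (CT.d CT.l CT.l))))))) 824633720832 137438953472 824633720832 412316860416 962072674304 137438953472 1236950581248 412316860416 = true := by decide +kernel

theorem chkF_81 : chk testFX (CT.c (CT.b (CT.b (CT.d (CT.a CT.l CT.l) (CT.d CT.l CT.l)) (CT.d (CT.a CT.l CT.l) (CT.d CT.l (CT.a CT.l CT.l)))) (CT.a (CT.b (CT.d CT.l (CT.a CT.l CT.l)) (CT.d CT.l (CT.a CT.l CT.l))) (CT.b (CT.d CT.l (CT.a CT.l CT.l)) (CT.b (CT.d CT.l CT.l) (CT.d CT.l CT.l))))) (CT.d (CT.b (CT.b (CT.d CT.l CT.l) (CT.a CT.l (CT.a CT.l CT.l))) (CT.a (CT.a (CT.b CT.l CT.l) (CT.b CT.l CT.l)) (CT.b (CT.a CT.l CT.l) (CT.b CT.l CT.l)))) (CT.d (CT.a (CT.b (CT.b CT.l CT.l) (CT.b CT.l CT.l)) (CT.b (CT.b CT.l CT.l) (CT.b CT.l CT.l))) (CT.a (CT.b (CT.b CT.l CT.l) (CT.b CT.l (CT.a CT.l CT.l))) (CT.a (CT.b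 (CT.b CT.l CT.l) (CT.b CT.l CT.l)) (CT.b (CT.b CT.l CT.l) (CT.b CT.l CT.l))))))) 962072674304 68719476736 824633720832 412316860416 962072674304 137438953472 1236950581248 412316860416 = true := by decide +kernel

theorem chkF_82 : chk testFX (CT.c (CT.a (CT.b (CT.b (CT.d CT.l (CT.a CT.l CT.l)) (CT.d CT.l (CT.d CT.l CT.l))) (CT.b (CT.d CT.l (CT.d CT.l CT.l)) (CT.d (CT.a CT.l CT.l) (CT.d CT.l CT.l)))) (CT.b (CT.b (CT.d CT.l (CT.d CT.l CT.l)) (CT.d CT.l (CT.d CT.l CT.l))) (CT.b (CT.d (CT.a CT.l CT.l) (CT.d CT.l (CT.a CT.l CT.l))) (CT.d (CT.a CT.l CT.l) (CT.d CT.l (CT.a CT.l CT.l)))))) (CT.d (CT.a (CT.b (CT.b (CT.a CT.l CT.l) (CT.d CT.l CT.l)) (CT.b (CT.d CT.l CT.l) (CT.d CT.l (CT.a CT.l CT.l)))) (CT.b (CT.b (CT.d CT.l CT.l) (CT.c CT.l (CT.d CT.l CT.l))) (CT.a (CT.b (CT.b CT.l CT.l) (CT.d CT.l CT.l))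 (CT.b (CT.d CT.l CT.l) (CT.c CT.l (CT.d CT.l CT.l)))))) (CT.b (CT.a (CT.b (CT.d CT.l CT.l) (CT.d (CT.a CT.l CT.l) CT.l)) (CT.b (CT.b CT.l CT.l) (CT.d CT.l CT.l))) (CT.d (CT.a (CT.a (CT.b CT.l CT.l) (CT.b CT.l CT.l)) (CT.b (CT.c CT.l CT.l) (CT.c CT.l (CT.a CT.l CT.l)))) (CT.a (CT.c (CT.b CT.l CT.l) (CT.a (CT.b CT.l CT.l) (CT.a (CT.b CT.l CT.l) (CT.b CT.l CT.l)))) (CT.b (CT.b CT.l CT.l) (CT.b CT.l CT.l))))))) 1030792151040 68719476736 824633720832 412316860416 962072674304 137438953472 1236950581248 412316860416 = true := by decide +kernel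

end Vale.Agent.Lib.P154E
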