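import Vale.Agent.Lib.P154E.ETProg

/-!
Generated kernel checks of the Taylor model box tests for `F`.
-/

namespace Vale.Agent.Lib.P154E

open Vale.Agent.Lib.P154

theorem chkF_83 : chk testFX (CT.b (CT.c (CT.c (CT.d (CT.d CT.l (CT.a CT.l CT.l)) (CT.a (CT.d CT.l CT.l) (CT.d CT.l CT.l))) (CT.d (CT.d (CT.a CT.l CT.l) (CT.d CT.l CT.l)) (CT.d (CT.d CT.l CT.l) (CT.a (CT.a CT.l CT.l) (CT.b CT.l CT.l))))) (CT.c (CT.d (CT.d (CT.d CT.l CT.l) (CT.d CT.l (CT.a CT.l CT.l))) (CT.a (CT.d (CT.b CT.l CT.l) (CT.d CT.l CT.l)) (CT.d (CT.c CT.l CT.l) (CT.d CT.l CT.l)))) (CT.a (CT.d (CT.d (CT.c CT.l CT.l) (CT.d CT.l CT.l)) (CT.d (CT.d CT.l CT.l) (CT.a (CT.d CT.l CT.l) (CT.d CT.l CT.l)))) (CT.d (CT.d (CT.d CT.l CT.l) (CT.d CT.l CT.l)) (CT.d (CT.d CT.l (CT.a CT.l CT.l)) (CT.a (CT.d CT.l CT.l) (CT.d CT.l CT.l)))))))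 (CT.c (CT.c (CT.d (CT.d CT.l (CT.a CT.l CT.l)) (CT.d (CT.a CT.l CT.l) (CT.d CT.l CT.l))) (CT.d (CT.d (CT.a CT.l CT.l) (CT.d CT.l CT.l)) (CT.d (CT.d CT.l (CT.a CT.l CT.l)) (CT.a (CT.a CT.l CT.l) (CT.b CT.l CT.l))))) (CT.c (CT.d (CT.d (CT.d CT.l CT.l) (CT.d CT.l (CT.a CT.l CT.l))) (CT.a (CT.d (CT.b CT.l CT.l) (CT.d CT.l CT.l)) (CT.d (CT.c CT.l CT.l) (CT.d CT.l CT.l)))) (CT.a (CT.d (CT.d (CT.c CT.l CT.l) (CT.d CT.l CT.l)) (CT.d (CT.d CT.l CT.l) (CT.a (CT.d CT.l CT.l) (CT.d CT.l CT.l)))) (CT.d (CT.d (CT.d CT.l CT.l) (CT.d CT.l CT.l)) (CT.d (CT.d CT.l (CT.a CT.l CT.l)) (CT.a (CT.d CT.l CT.l) (CT.d CT.l CT.l)))))))) 0 137438953472 1236950581248 412316860416 549755813888 549755813888 824633720832 824633720832 = true := by decide +kernel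

theorem chkF_84 : chk testFX (CT.c (CT.c (CT.d (CT.a (CT.d CT.l CT.l) (CT.d CT.l CT.l)) (CT.d (CT.d CT.l CT.l) (CT.a (CT.a CT.l CT.l) (CT.a CT.l CT.l)))) (CT.d (CT.d (CT.a CT.l CT.l) (CT.d CT.l (CT.a CT.l CT.l))) (CT.a (CT.c (CT.d CT.l CT.l) (CT.d CT.l CT.l)) (CT.c (CT.d CT.l CT.l) (CT.d CT.l CT.l))))) (CT.c (CT.d (CT.d (CT.d CT.l (CT.a CT.l CT.l)) (CT.a (CT.b CT.l CT.l) (CT.d CT.l CT.l))) (CT.c (CT.d (CT.d CT.l CT.l) (CT.d CT.l CT.l)) (CT.d (CT.d CT.l CT.l) (CT.a (CT.a CT.l CT.l) (CT.a CT.l CT.l))))) (CT.a (CT.d (CT.d (CT.d CT.l CT.l) (CT.d CT.l CT.l)) (CT.b (CT.d (CT.c CT.l CT.l) (CT.d CT.l CT.l)) (CT.d (CT.c CT.l CT.l) (CT.d CT.l CT.l)))) (CT.d (CT.d (CT.d CT.l CT.l) (CT.d CT.l CT.l)) (CT.b (CT.d (CT.c CT.l CT.l) (CT.d CT.l CT.l)) (CT.d (CT.d CT.l CT.l) (CT.d CT.l CT.l))))))) 137438953472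 137438953472 1236950581248 206158430208 549755813888 549755813888 824633720832 824633720832 = true := by decide +kernel

theorem chkF_85 : chk testFX (CT.c (CT.c (CT.a (CT.d (CT.d CT.l CT.l) (CT.a (CT.d CT.l CT.l) (CT.d CT.l CT.l))) (CT.d (CT.d CT.l CT.l) (CT.b (CT.d CT.l CT.l) (CT.d CT.l CT.l)))) (CT.d (CT.d (CT.d CT.l CT.l) (CT.a (CT.a CT.l CT.l) (CT.a CT.l CT.l))) (CT.a (CT.c (CT.d CT.l CT.l) (CT.d CT.l CT.l)) (CT.d (CT.c CT.l CT.l) (CT.d CT.l CT.l))))) (CT.a (CT.c (CT.d (CT.c (CT.d CT.l CT.l) (CT.d CT.l CT.l)) (CT.d (CT.d CT.l CT.l) (CT.d CT.l (CT.a CT.l CT.l)))) (CT.d (CT.d (CT.d CT.l CT.l) (CT.d CT.l CT.l)) (CT.b (CT.d (CT.c CT.l CT.l) (CT.d CT.l CT.l)) (CT.d (CT.d CT.l CT.l) (CT.d CT.l CT.l))))) (CT.c (CT.d (CT.d (CT.b CT.l CT.l) (CT.d CT.l CT.l)) (CT.d (CT.d CT.l CT.l) (CT.a (CT.c CT.l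 CT.l) (CT.c CT.l CT.l)))) (CT.d (CT.d (CT.d CT.l CT.l) (CT.d CT.l CT.l)) (CT.b (CT.d (CT.d CT.l CT.l) (CT.d CT.l CT.l)) (CT.d (CT.d CT.l CT.l) (CT.d CT.l CT.l))))))) 137438953472 137438953472 1443109011456 206158430208 549755813888 549755813888 824633720832 824633720832 = true := by decide +kernel

end Vale.Agent.Lib.P154E
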