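import Vale.Agent.Lib.P154E.ETProg

/-!
Generated kernel checks of the Taylor model box tests for `F`.
-/

namespace Vale.Agent.Lib.P154E

open Vale.Agent.Lib.P154

theorem chkF_89 : chk testFX (CT.c (CT.c (CT.d (CT.a (CT.d CT.l CT.l) (CT.d CT.l CT.l)) (CT.d (CT.d CT.l CT.l) (CT.a (CT.b CT.l CT.l) (CT.b CT.l CT.l)))) (CT.d (CT.d (CT.a CT.l CT.l) (CT.d CT.l CT.l)) (CT.a (CT.c (CT.d CT.l CT.l) (CT.d CT.l CT.l)) (CT.d (CT.b CT.l CT.l) (CT.d CT.l CT.l))))) (CT.c (CT.d (CT.d (CT.d CT.l CT.l) (CT.a (CT.b CT.l CT.l) (CT.b CT.l CT.l))) (CT.b (CT.d (CT.c CT.l CT.l) (CT.d CT.l CT.l)) (CT.d (CT.c CT.l CT.l) (CT.d CT.l CT.l)))) (CT.b (CT.d (CT.c (CT.d CT.l CT.l) (CT.d CT.l CT.l)) (CT.d (CT.d CT.l CT.l) (CT.d CT.l (CT.a CT.l CT.l)))) (CT.d (CT.d (CT.a CT.l CT.l) (CT.d CT.l CT.l)) (CT.d (CT.d CT.l CT.l) (CT.a (CT.c CT.l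 CT.l) (CT.c CT.l CT.l))))))) 481036337152 68719476736 1236950581248 206158430208 549755813888 549755813888 824633720832 824633720832 = true := by decide +kernel

theorem chkF_90 : chk testFX (CT.c (CT.b (CT.c (CT.d (CT.d CT.l CT.l) (CT.a (CT.d CT.l CT.l) (CT.d CT.l CT.l))) (CT.d (CT.d CT.l (CT.a CT.l CT.l)) (CT.c (CT.d CT.l CT.l) (CT.d CT.l CT.l)))) (CT.c (CT.d (CT.d CT.l CT.l) (CT.a (CT.d CT.l CT.l) (CT.d CT.l CT.l))) (CT.d (CT.d CT.l (CT.a CT.l CT.l)) (CT.d (CT.a CT.l CT.l) (CT.d CT.l CT.l))))) (CT.c (CT.d (CT.d (CT.d CT.l (CT.a CT.l CT.l)) (CT.a (CT.b CT.l CT.l) (CT.b CT.l CT.l))) (CT.b (CT.d (CT.d CT.l CT.l) (CT.d CT.l (CT.a CT.l CT.l))) (CT.d (CT.d CT.l CT.l) (CT.a (CT.c CT.l CT.l) (CT.c CT.l CT.l))))) (CT.b (CT.d (CT.d (CT.a CT.l CT.l) (CT.d CT.l CT.l)) (CT.d (CT.d CT.l (CT.a CT.l CT.l)) (CT.a (CT.c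 CT.l CT.l) (CT.c CT.l CT.l)))) (CT.d (CT.d (CT.a CT.l CT.l) (CT.d CT.l CT.l)) (CT.d (CT.d CT.l (CT.a CT.l CT.l)) (CT.a (CT.c CT.l CT.l) (CT.c CT.l CT.l))))))) 481036337152 68719476736 1443109011456 206158430208 549755813888 549755813888 824633720832 824633720832 = true := by decide +kernel

theorem chkF_91 : chk testFX (CT.c (CT.c (CT.b (CT.d (CT.d CT.l CT.l) (CT.d CT.l (CT.a CT.l CT.l))) (CT.d (CT.d CT.l CT.l) (CT.a (CT.d CT.l CT.l) (CT.d CT.l CT.l)))) (CT.d (CT.d (CT.b CT.l CT.l) (CT.d CT.l (CT.a CT.l CT.l))) (CT.b (CT.c (CT.d CT.l CT.l) (CT.d CT.l CT.l)) (CT.c (CT.d CT.l CT.l) (CT.d CT.l CT.l))))) (CT.b (CT.c (CT.d (CT.d CT.l (CT.a CT.l CT.l)) (CT.d (CT.c CT.l CT.l) (CT.d CT.l CT.l))) (CT.d (CT.d (CT.a CT.l CT.l) (CT.d CT.l CT.l)) (CT.d (CT.d CT.l CT.l) (CT.a (CT.c CT.l CT.l) (CT.c CT.l CT.l))))) (CT.c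 (CT.d (CT.a (CT.d CT.l CT.l) (CT.d CT.l CT.l)) (CT.d (CT.d CT.l CT.l) (CT.d CT.l (CT.a CT.l CT.l)))) (CT.d (CT.d (CT.a CT.l CT.l) (CT.d CT.l CT.l)) (CT.d (CT.d CT.l (CT.a CT.l CT.l)) (CT.a (CT.c CT.l CT.l) (CT.c CT.l CT.l))))))) 549755813888 68719476736 1236950581248 206158430208 549755813888 549755813888 824633720832 824633720832 = true := by decide +kernel

theorem chkF_92 : chk testFX (CT.b (CT.c (CT.c (CT.d (CT.d CT.l CT.l) (CT.a (CT.d CT.l CT.l) (CT.d CT.l CT.l))) (CT.d (CT.d CT.l (CT.a CT.l CT.l)) (CT.c (CT.d CT.l CT.l) (CT.d CT.l (CT.a CT.l CT.l))))) (CT.c (CT.d (CT.a (CT.d CT.l CT.l) (CT.d CT.l CT.l)) (CT.d (CT.d CT.l CT.l) (CT.a (CT.c CT.l CT.l) (CT.c CT.l CT.l)))) (CT.d (CT.d (CT.a CT.l CT.l) (CT.d CT.l CT.l)) (CT.a (CT.c (CT.d CT.l CT.l) (CT.d CT.l CT.l)) (CT.c (CT.d CT.l CT.l) (CT.d CT.l CT.l))))))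 (CT.c (CT.c (CT.d (CT.d CT.l (CT.a CT.l CT.l)) (CT.a (CT.d CT.l CT.l) (CT.d CT.l CT.l))) (CT.a (CT.d (CT.d CT.l CT.l) (CT.d CT.l (CT.a CT.l CT.l))) (CT.d (CT.d CT.l CT.l) (CT.d CT.l (CT.a CT.l CT.l))))) (CT.c (CT.d (CT.a (CT.d CT.l CT.l) (CT.d CT.l CT.l)) (CT.d (CT.d CT.l (CT.a CT.l CT.l)) (CT.a (CT.c CT.l CT.l) (CT.c CT.l CT.l)))) (CT.d (CT.d (CT.a CT.l CT.l) (CT.d CT.l (CT.a CT.l CT.l))) (CT.a (CT.c (CT.d CT.l CT.l) (CT.d CT.l CT.l)) (CT.d (CT.c CT.l CT.l) (CT.d CT.l CT.l))))))) 549755813888 68719476736 1443109011456 206158430208 549755813888 549755813888 824633720832 824633720832 = true := by decide +kernel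

end Vale.Agent.Lib.P154E
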