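import Vale.Agent.Lib.P154E.ETProg

/-!
Generated kernel checks of the Taylor model box tests for `F`.
-/

namespace Vale.Agent.Lib.P154E

open Vale.Agent.Lib.P154

theorem chkF_93 : chk testFX (CT.b (CT.c (CT.c (CT.d (CT.d CT.l CT.l) (CT.a (CT.d CT.l CT.l) (CT.d CT.l CT.l))) (CT.d (CT.d CT.l (CT.a CT.l CT.l)) (CT.c (CT.d CT.l CT.l) (CT.d CT.l CT.l)))) (CT.c (CT.d (CT.a (CT.d CT.l CT.l) (CT.d CT.l CT.l)) (CT.d (CT.d CT.l CT.l) (CT.d CT.l (CT.a CT.l CT.l)))) (CT.d (CT.d (CT.a CT.l CT.l) (CT.d CT.l CT.l)) (CT.d (CT.d CT.l (CT.a CT.l CT.l)) (CT.a (CT.c CT.l CT.l) (CT.c CT.l CT.l)))))) (CT.c (CT.c (CT.d (CT.d CT.l CT.l) (CT.a (CT.d CT.l CT.l) (CT.d CT.l CT.l))) (CT.d (CT.d CT.l (CT.a CT.l CT.l)) (CT.c (CT.d CT.l CT.l) (CT.d CT.l (CT.a CT.l CT.l))))) (CT.c (CT.d (CT.a (CT.d CT.l CT.l) (CT.d CT.l CT.l))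 (CT.d (CT.d CT.l (CT.a CT.l CT.l)) (CT.a (CT.c CT.l CT.l) (CT.c CT.l CT.l)))) (CT.d (CT.d (CT.a CT.l CT.l) (CT.d CT.l CT.l)) (CT.a (CT.c (CT.d CT.l CT.l) (CT.d CT.l CT.l)) (CT.d (CT.c CT.l CT.l) (CT.d CT.l CT.l))))))) 618475290624 68719476736 1236950581248 206158430208 549755813888 549755813888 824633720832 824633720832 = true := by decide +kernel

theorem chkF_94 : chk testFX (CT.b (CT.c (CT.c (CT.d (CT.d CT.l (CT.a CT.l CT.l)) (CT.a (CT.d CT.l CT.l) (CT.d CT.l CT.l))) (CT.a (CT.d (CT.d CT.l CT.l) (CT.d CT.l (CT.a CT.l CT.l))) (CT.d (CT.d CT.l CT.l) (CT.d CT.l (CT.a CT.l CT.l))))) (CT.c (CT.a (CT.d (CT.d CT.l CT.l) (CT.c (CT.d CT.l CT.l) (CT.d CT.l CT.l))) (CT.d (CT.d CT.l CT.l) (CT.c (CT.d CT.l CT.l) (CT.d CT.l CT.l)))) (CT.d (CT.d (CT.d CT.l CT.l) (CT.d CT.l (CT.a CT.l CT.l))) (CT.a (CT.d (CT.c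 CT.l CT.l) (CT.d CT.l CT.l)) (CT.d (CT.c CT.l CT.l) (CT.d CT.l CT.l)))))) (CT.c (CT.c (CT.d (CT.d CT.l (CT.a CT.l CT.l)) (CT.a (CT.d CT.l CT.l) (CT.d CT.l CT.l))) (CT.a (CT.d (CT.d CT.l CT.l) (CT.d CT.l (CT.a CT.l CT.l))) (CT.d (CT.d CT.l CT.l) (CT.a (CT.d CT.l CT.l) (CT.d CT.l CT.l))))) (CT.c (CT.a (CT.d (CT.d CT.l CT.l) (CT.c (CT.d CT.l CT.l) (CT.d CT.l CT.l))) (CT.d (CT.d CT.l (CT.a CT.l CT.l)) (CT.c (CT.d CT.l CT.l) (CT.d CT.l CT.l)))) (CT.d (CT.d (CT.d CT.l CT.l) (CT.a (CT.a CT.l CT.l) (CT.a CT.l CT.l))) (CT.a (CT.d (CT.c CT.l CT.l) (CT.d CT.l CT.l)) (CT.d (CT.c CT.l CT.l) (CT.d CT.l (CT.a CT.l CT.l)))))))) 618475290624 68719476736 1443109011456 206158430208 549755813888 549755813888 824633720832 824633720832 = true := by decide +kernel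

theorem chkF_95 : chk testFX (CT.b (CT.c (CT.c (CT.d (CT.d CT.l CT.l) (CT.a (CT.d CT.l CT.l) (CT.d CT.l CT.l))) (CT.d (CT.d CT.l (CT.a CT.l CT.l)) (CT.d (CT.a CT.l CT.l) (CT.d CT.l CT.l)))) (CT.c (CT.d (CT.a (CT.d CT.l CT.l) (CT.d CT.l CT.l)) (CT.d (CT.d CT.l CT.l) (CT.a (CT.b CT.l CT.l) (CT.c CT.l CT.l)))) (CT.d (CT.d (CT.a CT.l CT.l) (CT.d CT.l CT.l)) (CT.a (CT.d (CT.c CT.l CT.l) (CT.d CT.l CT.l)) (CT.d (CT.c CT.l CT.l) (CT.d CT.l CT.l)))))) (CT.c (CT.c (CT.d (CT.d CT.l (CT.a CT.l CT.l)) (CT.a (CT.d CT.l CT.l) (CT.d CT.l CT.l))) (CT.a (CT.d (CT.d CT.l CT.l) (CT.d CT.l (CT.a CT.l CT.l))) (CT.d (CT.d CT.l CT.l) (CT.d CT.l (CT.a CT.l CT.l))))) (CT.c (CT.a (CT.d (CT.d CT.l CT.l) (CT.c (CT.d CT.l CT.l) (CT.d CT.l CT.l))) (CT.d (CT.d CT.l CT.l) (CT.c (CT.d CT.l CT.l) (CT.d CT.l CT.l)))) (CT.d (CT.d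 (CT.d CT.l CT.l) (CT.d CT.l (CT.a CT.l CT.l))) (CT.a (CT.d (CT.c CT.l CT.l) (CT.d CT.l CT.l)) (CT.d (CT.c CT.l CT.l) (CT.d CT.l CT.l))))))) 687194767360 68719476736 1236950581248 206158430208 549755813888 549755813888 824633720832 824633720832 = true := by decide +kernel

end Vale.Agent.Lib.P154E
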