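import Vale.Agent.Lib.P154E.ETProg

/-!
Generated kernel checks of the Taylor model box tests for `F`.
-/

namespace Vale.Agent.Lib.P154E

open Vale.Agent.Lib.P154

theorem chkF_11 : chk testFX (CT.d (CT.a (CT.a (CT.a CT.l CT.l) (CT.b CT.l (CT.a CT.l CT.l))) (CT.a (CT.b CT.l (CT.a CT.l CT.l)) (CT.a (CT.b CT.l (CT.a CT.l CT.l)) (CT.b CT.l (CT.a CT.l (CT.a CT.l CT.l)))))) (CT.a (CT.a (CT.b CT.l (CT.a CT.l CT.l)) (CT.c CT.l (CT.b CT.l (CT.a CT.l CT.l)))) (CT.a (CT.b (CT.a CT.l CT.l) (CT.c CT.l (CT.a CT.l CT.l))) (CT.a (CT.b CT.l (CT.a CT.l CT.l)) (CT.b (CT.a CT.l CT.l) (CT.b CT.l (CT.a CT.l CT.l))))))) 0 1099511627776 412316860416 412316860416 0 549755813888 412316860416 412316860416 = true := by decide +kernel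

theorem chkF_12 : chk testFX (CT.d (CT.a (CT.b (CT.c CT.l (CT.c CT.l (CT.a CT.l CT.l))) (CT.a (CT.c CT.l (CT.d CT.l CT.l)) (CT.c CT.l (CT.d CT.l CT.l)))) (CT.b (CT.c CT.l (CT.a (CT.c CT.l CT.l) (CT.b CT.l CT.l))) (CT.a (CT.c CT.l (CT.d CT.l CT.l)) (CT.c CT.l (CT.c CT.l (CT.a CT.l CT.l)))))) (CT.a (CT.b (CT.c (CT.a CT.l CT.l) (CT.d (CT.a CT.l CT.l) (CT.c CT.l (CT.a CT.l CT.l)))) (CT.c (CT.c CT.l (CT.a CT.l CT.l)) (CT.c (CT.d CT.l CT.l) (CT.a (CT.d CT.l CT.l) (CT.d CT.l CT.l))))) (CT.a (CT.b (CT.c CT.l (CT.c CT.l (CT.b CT.l CT.l))) (CT.b (CT.c CT.l (CT.d CT.l CT.l)) (CT.c CT.l (CT.d CT.l CT.l)))) (CT.b (CT.c CT.l (CT.c CT.l (CT.b CT.l CT.l))) (CT.b (CT.c CT.l (CT.c CT.l CT.l)) (CT.c CT.l (CT.d CT.l CT.l))))))) 0 549755813888 412316860416 412316860416 549755813888 549755813888 412316860416 412316860416 = true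 := by decide +kernel

theorem chkF_13 : chk testFX (CT.a (CT.a (CT.b (CT.c (CT.d CT.l CT.l) (CT.c (CT.d CT.l CT.l) (CT.d CT.l (CT.a CT.l CT.l)))) (CT.c (CT.d CT.l (CT.a CT.l CT.l)) (CT.c (CT.d CT.l (CT.a CT.l CT.l)) (CT.d (CT.a CT.l CT.l) (CT.d CT.l CT.l))))) (CT.b (CT.c (CT.d CT.l CT.l) (CT.c (CT.d CT.l CT.l) (CT.d CT.l (CT.a CT.l CT.l)))) (CT.c (CT.d CT.l (CT.a CT.l CT.l)) (CT.c (CT.d CT.l (CT.a CT.l CT.l)) (CT.b (CT.d CT.l CT.l) (CT.d CT.l (CT.a CT.l CT.l))))))) (CT.a (CT.b (CT.c (CT.d CT.l (CT.a CT.l CT.l)) (CT.c (CT.d CT.l CT.l) (CT.d CT.l (CT.a CT.l CT.l)))) (CT.b (CT.c (CT.d CT.l CT.l) (CT.c (CT.d CT.l CT.l) (CT.d CT.l CT.l))) (CT.c (CT.d CT.l CT.l) (CT.c (CT.d CT.l CT.l) (CT.d CT.l (CT.a CT.l CT.l)))))) (CT.b (CT.c (CT.d CT.l (CT.a CT.l CT.l)) (CT.b (CT.d CT.l (CT.a CT.l CT.l)) (CT.d CT.l (CT.a CT.l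 CT.l)))) (CT.b (CT.c (CT.d CT.l CT.l) (CT.a (CT.d CT.l CT.l) (CT.d CT.l (CT.a CT.l CT.l)))) (CT.c (CT.a (CT.d CT.l CT.l) (CT.d CT.l CT.l)) (CT.c (CT.d CT.l (CT.a CT.l CT.l)) (CT.d CT.l (CT.a CT.l CT.l)))))))) 549755813888 549755813888 412316860416 412316860416 549755813888 549755813888 412316860416 412316860416 = true := by decide +kernel

theorem chkF_14 : chk testFX (CT.b (CT.c (CT.c CT.l (CT.d CT.l (CT.a CT.l CT.l))) (CT.c (CT.c (CT.d CT.l (CT.a CT.l CT.l)) (CT.d (CT.a CT.l CT.l) (CT.d CT.l CT.l))) (CT.c (CT.d (CT.d CT.l (CT.a CT.l CT.l)) (CT.a (CT.b CT.l CT.l) (CT.b CT.l CT.l))) (CT.a (CT.d (CT.d CT.l CT.l) (CT.d CT.l CT.l)) (CT.d (CT.d CT.l CT.l) (CT.d CT.l (CT.a CT.l CT.l))))))) (CT.c (CT.c (CT.a CT.l CT.l) (CT.c (CT.d CT.l CT.l) (CT.d CT.l CT.l))) (CT.a (CT.c (CT.c (CT.d CT.l CT.l) (CT.d CT.l (CT.a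 CT.l CT.l))) (CT.c (CT.d (CT.a CT.l CT.l) (CT.d CT.l CT.l)) (CT.d (CT.d CT.l CT.l) (CT.d CT.l (CT.a CT.l CT.l))))) (CT.c (CT.c (CT.d CT.l CT.l) (CT.d CT.l (CT.a CT.l CT.l))) (CT.c (CT.d (CT.b CT.l CT.l) (CT.d CT.l CT.l)) (CT.d (CT.d CT.l CT.l) (CT.a (CT.d CT.l CT.l) (CT.d CT.l CT.l)))))))) 0 274877906944 412316860416 412316860416 0 1099511627776 824633720832 412316860416 = true := by decide +kernel

end Vale.Agent.Lib.P154E
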