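import Vale.Agent.Lib.P154E.ETProg

/-!
Generated kernel checks of the Taylor model box tests for `F`.
-/

namespace Vale.Agent.Lib.P154E

open Vale.Agent.Lib.P154

theorem chkF_101 : chk testFX (CT.a (CT.b (CT.b (CT.d (CT.d CT.l CT.l) (CT.c (CT.d CT.l CT.l) (CT.d CT.l CT.l))) (CT.d (CT.d CT.l (CT.a CT.l CT.l)) (CT.d (CT.a CT.l CT.l) (CT.d CT.l CT.l)))) (CT.b (CT.d (CT.d CT.l (CT.a CT.l CT.l)) (CT.b (CT.d CT.l (CT.a CT.l CT.l)) (CT.d CT.l (CT.a CT.l CT.l)))) (CT.b (CT.d (CT.d CT.l CT.l) (CT.d CT.l (CT.a CT.l CT.l))) (CT.d (CT.d CT.l CT.l) (CT.d CT.l (CT.a CT.l CT.l)))))) (CT.b (CT.b (CT.d (CT.d CT.l CT.l) (CT.d (CT.a CT.l CT.l) (CT.d CT.l CT.l))) (CT.d (CT.d CT.l (CT.a CT.l CT.l)) (CT.c (CT.d CT.l CT.l) (CT.d CT.l (CT.a CT.l CT.l))))) (CT.b (CT.d (CT.d CT.l (CT.a CT.l CT.l)) (CT.b (CT.d CT.l (CT.a CT.l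 CT.l)) (CT.d CT.l (CT.a CT.l CT.l)))) (CT.b (CT.d (CT.d CT.l CT.l) (CT.d CT.l (CT.a CT.l CT.l))) (CT.d (CT.d CT.l CT.l) (CT.d CT.l (CT.a CT.l CT.l))))))) 824633720832 68719476736 1236950581248 412316860416 824633720832 137438953472 824633720832 824633720832 = true := by decide +kernel

theorem chkF_102 : chk testFX (CT.a (CT.b (CT.b (CT.d (CT.d CT.l (CT.a CT.l CT.l)) (CT.c (CT.d CT.l CT.l) (CT.d CT.l (CT.a CT.l CT.l)))) (CT.d (CT.d CT.l (CT.a CT.l CT.l)) (CT.b (CT.d CT.l (CT.a CT.l CT.l)) (CT.d CT.l (CT.a CT.l CT.l))))) (CT.b (CT.b (CT.d (CT.d CT.l CT.l) (CT.d CT.l (CT.a CT.l CT.l))) (CT.d (CT.d CT.l CT.l) (CT.d CT.l (CT.a CT.l CT.l)))) (CT.b (CT.d (CT.d CT.l CT.l) (CT.d CT.l (CT.a CT.l CT.l))) (CT.d (CT.d CT.l CT.l) (CT.d CT.l (CT.a CT.l CT.l)))))) (CT.b (CT.b (CT.d (CT.d CT.l (CT.a CT.l CT.l)) (CT.c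 (CT.d CT.l CT.l) (CT.d CT.l (CT.a CT.l CT.l)))) (CT.b (CT.d (CT.d CT.l CT.l) (CT.d CT.l (CT.a CT.l CT.l))) (CT.d (CT.d CT.l CT.l) (CT.d CT.l (CT.a CT.l CT.l))))) (CT.b (CT.b (CT.d (CT.d CT.l CT.l) (CT.d CT.l (CT.a CT.l CT.l))) (CT.d (CT.d CT.l CT.l) (CT.d CT.l (CT.a CT.l CT.l)))) (CT.b (CT.d (CT.d CT.l CT.l) (CT.d CT.l (CT.a CT.l CT.l))) (CT.d (CT.d CT.l CT.l) (CT.d CT.l (CT.a CT.l CT.l))))))) 893353197568 68719476736 1236950581248 412316860416 824633720832 137438953472 824633720832 824633720832 = true := by decide +kernel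

theorem chkF_103 : chk testFX (CT.d (CT.a (CT.b (CT.b (CT.d CT.l (CT.a CT.l CT.l)) (CT.a (CT.a CT.l CT.l) (CT.a CT.l CT.l))) (CT.a (CT.b (CT.a CT.l CT.l) (CT.b CT.l CT.l)) (CT.b (CT.b CT.l CT.l) (CT.b CT.l (CT.a CT.l CT.l))))) (CT.a (CT.b (CT.b (CT.a CT.l CT.l) (CT.b CT.l CT.l)) (CT.b (CT.b CT.l (CT.a CT.l CT.l)) (CT.a (CT.b CT.l CT.l) (CT.b CT.l CT.l)))) (CT.b (CT.b (CT.a CT.l CT.l) (CT.b CT.l CT.l)) (CT.b (CT.c CT.l (CT.a CT.l CT.l)) (CT.a (CT.b CT.l CT.l) (CT.b CT.l CT.l)))))) (CT.a (CT.a (CT.b (CT.b (CT.a CT.l CT.l) (CT.b CT.l CT.l)) (CT.b (CT.b CT.l CT.l) (CT.a (CT.b CT.l CT.l) (CT.b CT.l CT.l)))) (CT.b (CT.b (CT.b CT.l CT.l) (CT.b CT.l CT.l)) (CT.b (CT.c CT.l (CT.a CT.l CT.l)) (CT.a (CT.b CT.l CT.l) (CT.b CT.l CT.l))))) (CT.a (CT.b (CT.b (CT.b CT.l CT.l) (CT.b CT.l (CT.a CT.l CT.l))) (CT.a (CT.b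 (CT.b CT.l CT.l) (CT.b CT.l CT.l)) (CT.b (CT.b CT.l CT.l) (CT.b CT.l CT.l)))) (CT.b (CT.b (CT.d CT.l CT.l) (CT.c CT.l (CT.a CT.l CT.l))) (CT.b (CT.a (CT.b CT.l CT.l) (CT.b CT.l CT.l)) (CT.b (CT.a CT.l CT.l) (CT.c CT.l CT.l))))))) 824633720832 137438953472 1236950581248 412316860416 962072674304 137438953472 824633720832 412316860416 = true := by decide +kernel

theorem chkF_104 : chk testFX (CT.a (CT.b (CT.b (CT.d (CT.c CT.l CT.l) (CT.d CT.l (CT.a CT.l CT.l))) (CT.d (CT.d CT.l CT.l) (CT.a (CT.d CT.l CT.l) (CT.d CT.l CT.l)))) (CT.b (CT.b (CT.c (CT.d CT.l CT.l) (CT.d CT.l CT.l)) (CT.d (CT.a CT.l CT.l) (CT.d CT.l CT.l))) (CT.b (CT.d (CT.a CT.l CT.l) (CT.d CT.l CT.l)) (CT.c (CT.d CT.l CT.l) (CT.d CT.l (CT.a CT.l CT.l)))))) (CT.b (CT.b (CT.d (CT.d CT.l CT.l) (CT.a (CT.d CT.l CT.l) (CT.d CT.l CT.l))) (CT.d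 (CT.d CT.l (CT.a CT.l CT.l)) (CT.b (CT.c CT.l CT.l) (CT.d CT.l CT.l)))) (CT.b (CT.c (CT.b (CT.d CT.l CT.l) (CT.d CT.l CT.l)) (CT.d (CT.a CT.l CT.l) (CT.d CT.l CT.l))) (CT.b (CT.c (CT.d CT.l CT.l) (CT.d CT.l (CT.a CT.l CT.l))) (CT.d (CT.a CT.l CT.l) (CT.d CT.l (CT.a CT.l CT.l))))))) 824633720832 68719476736 1236950581248 412316860416 962072674304 137438953472 1236950581248 412316860416 = true := by decide +kernel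

end Vale.Agent.Lib.P154E
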