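import Vale.Agent.Lib.P154E.ETProg

/-!
Generated kernel checks of the Taylor model box tests for `F`.
-/

namespace Vale.Agent.Lib.P154E

open Vale.Agent.Lib.P154

theorem chkF_112 : chk testFX (CT.b (CT.c (CT.c (CT.d CT.l CT.l) (CT.d CT.l (CT.d CT.l CT.l))) (CT.c (CT.d (CT.d CT.l CT.l) (CT.d CT.l (CT.a CT.l CT.l))) (CT.c (CT.d (CT.d CT.l CT.l) (CT.d CT.l (CT.d CT.l CT.l))) (CT.a (CT.d (CT.d CT.l CT.l) (CT.d (CT.a CT.l CT.l) (CT.d CT.l CT.l))) (CT.d (CT.a (CT.d CT.l CT.l) (CT.d CT.l CT.l)) (CT.d (CT.a CT.l CT.l) (CT.d CT.l (CT.b CT.l CT.l)))))))) (CT.c (CT.c (CT.d CT.l CT.l) (CT.d CT.l (CT.d CT.l CT.l))) (CT.c (CT.d (CT.d CT.l CT.l) (CT.d CT.l (CT.a CT.l CT.l))) (CT.c (CT.d (CT.d CT.l CT.l) (CT.d (CT.a CT.l CT.l) (CT.d CT.l CT.l))) (CT.c (CT.d (CT.a (CT.b CT.l CT.l) (CT.b CT.l CT.l)) (CT.d (CT.a CT.l CT.l) (CT.d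 CT.l CT.l))) (CT.d (CT.a (CT.d CT.l CT.l) (CT.b (CT.d CT.l CT.l) (CT.d CT.l CT.l))) (CT.d (CT.a CT.l (CT.a CT.l CT.l)) (CT.d (CT.a CT.l CT.l) CT.l)))))))) 1030792151040 34359738368 1546188226560 103079215104 549755813888 549755813888 824633720832 824633720832 = true := by decide +kernel

theorem chkF_113 : chk testFX (CT.b (CT.c (CT.d (CT.d CT.l CT.l) (CT.c CT.l (CT.d CT.l CT.l))) (CT.c (CT.d (CT.d CT.l CT.l) (CT.d CT.l (CT.a CT.l CT.l))) (CT.c (CT.d (CT.d CT.l CT.l) (CT.d CT.l (CT.d CT.l CT.l))) (CT.d (CT.d CT.l (CT.a CT.l CT.l)) (CT.d (CT.a (CT.a CT.l CT.l) (CT.d CT.l CT.l)) (CT.d CT.l (CT.a CT.l CT.l))))))) (CT.c (CT.d (CT.d CT.l CT.l) (CT.c CT.l (CT.d CT.l CT.l))) (CT.c (CT.d (CT.d CT.l CT.l) (CT.d CT.l (CT.a CT.l CT.l))) (CT.c (CT.d (CT.d CT.l CT.l) (CT.d CT.l (CT.d CT.l CT.l))) (CT.c (CT.d (CT.d CT.l CT.l)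 (CT.d CT.l (CT.a (CT.d CT.l CT.l) (CT.d CT.l CT.l)))) (CT.d (CT.d CT.l (CT.a CT.l CT.l)) (CT.d (CT.a CT.l (CT.a CT.l CT.l)) (CT.d CT.l (CT.a CT.l CT.l))))))))) 1065151889408 34359738368 1236950581248 103079215104 549755813888 549755813888 824633720832 824633720832 = true := by decide +kernel

theorem chkF_114 : chk testFX (CT.b (CT.c (CT.d (CT.d CT.l CT.l) (CT.c CT.l (CT.d CT.l CT.l))) (CT.c (CT.d (CT.d CT.l CT.l) (CT.d CT.l (CT.a CT.l CT.l))) (CT.c (CT.d (CT.d CT.l CT.l) (CT.d CT.l (CT.d CT.l CT.l))) (CT.c (CT.d (CT.d CT.l CT.l) (CT.d CT.l (CT.d CT.l (CT.a CT.l CT.l)))) (CT.d (CT.d CT.l (CT.a CT.l CT.l)) (CT.d (CT.a CT.l (CT.d CT.l CT.l)) (CT.d CT.l (CT.b CT.l CT.l)))))))) (CT.c (CT.c (CT.d CT.l CT.l) (CT.d CT.l (CT.d CT.l CT.l))) (CT.c (CT.d (CT.d CT.l CT.l) (CT.d CT.l (CT.a CT.l CT.l))) (CT.c (CT.d (CT.d CT.l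 CT.l) (CT.d CT.l (CT.d CT.l CT.l))) (CT.c (CT.d (CT.d CT.l CT.l) (CT.d (CT.a CT.l CT.l) (CT.d CT.l (CT.a CT.l CT.l)))) (CT.a (CT.d (CT.d CT.l CT.l) (CT.d CT.l (CT.d CT.l (CT.d CT.l CT.l)))) (CT.d (CT.d CT.l (CT.a CT.l CT.l)) (CT.d (CT.a CT.l (CT.a CT.l CT.l)) (CT.d CT.l (CT.b CT.l CT.l)))))))))) 1065151889408 34359738368 1340029796352 103079215104 549755813888 549755813888 824633720832 824633720832 = true := by decide +kernel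

theorem chkF_115 : chk testFX (CT.b (CT.b (CT.c (CT.d CT.l CT.l) (CT.d CT.l (CT.d CT.l CT.l))) (CT.c (CT.d CT.l CT.l) (CT.d CT.l (CT.d CT.l CT.l)))) (CT.b (CT.c (CT.d CT.l CT.l) (CT.d CT.l (CT.d CT.l CT.l))) (CT.c (CT.d CT.l CT.l) (CT.d CT.l (CT.d CT.l CT.l))))) 1065151889408 34359738368 1443109011456 206158430208 549755813888 274877906944 824633720832 824633720832 = true := by decide +kernel

theorem chkF_116 : chk testFX (CT.c (CT.b (CT.d (CT.d CT.l CT.l) (CT.d CT.l (CT.a CT.l CT.l))) (CT.d (CT.d CT.l CT.l) (CT.d CT.l (CT.a CT.l CT.l)))) (CT.c (CT.b (CT.d (CT.d CT.l CT.l) (CT.d CT.l (CT.d CT.l CT.l))) (CT.d (CT.d CT.l CT.l) (CT.d CT.l (CT.d CT.l CT.l)))) (CT.c (CT.b (CT.d (CT.d CT.l CT.l) (CT.d (CT.a CT.l CT.l) (CT.d CT.l (CT.a CT.l CT.l)))) (CT.d (CT.a (CT.b CT.l CT.l) (CT.b CT.l CT.l)) (CT.d (CT.a CT.l CT.l)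 (CT.d CT.l (CT.a CT.l CT.l))))) (CT.d (CT.a (CT.b (CT.d CT.l CT.l) (CT.d CT.l CT.l)) (CT.b (CT.d CT.l (CT.a CT.l CT.l)) (CT.a (CT.d CT.l CT.l) (CT.d CT.l (CT.a CT.l CT.l))))) (CT.a (CT.d (CT.a (CT.b CT.l CT.l) (CT.b CT.l CT.l)) (CT.d (CT.b CT.l CT.l) (CT.d CT.l (CT.b CT.l CT.l)))) (CT.c (CT.d (CT.b CT.l CT.l) (CT.d (CT.a CT.l CT.l) (CT.d CT.l CT.l))) (CT.a (CT.d (CT.b CT.l CT.l) (CT.d (CT.a CT.l CT.l) (CT.d CT.l (CT.d CT.l CT.l)))) (CT.b (CT.d (CT.a CT.l CT.l) (CT.d CT.l (CT.d CT.l CT.l))) (CT.d (CT.a CT.l (CT.b CT.l CT.l)) (CT.d CT.l CT.l)))))))))) 1065151889408 34359738368 1443109011456 103079215104 824633720832 274877906944 824633720832 824633720832 = true := by decide +kernel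

end Vale.Agent.Lib.P154E
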