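import Vale.Agent.Lib.P154E.ETProg

/-!
Generated kernel checks of the Taylor model box tests for `F`.
-/

namespace Vale.Agent.Lib.P154E

open Vale.Agent.Lib.P154

theorem chkF_18 : chk testFX (CT.b (CT.c (CT.c (CT.a CT.l CT.l) (CT.c (CT.a CT.l CT.l) (CT.d CT.l (CT.a CT.l CT.l)))) (CT.a (CT.c (CT.c (CT.d CT.l CT.l) (CT.a (CT.d CT.l CT.l) (CT.d CT.l CT.l))) (CT.c (CT.d (CT.d CT.l CT.l) (CT.c CT.l (CT.a CT.l CT.l))) (CT.a (CT.d (CT.d CT.l CT.l) (CT.d CT.l CT.l)) (CT.d (CT.d CT.l CT.l) (CT.d CT.l CT.l))))) (CT.c (CT.c (CT.d CT.l CT.l) (CT.a (CT.d CT.l CT.l) (CT.d CT.l CT.l))) (CT.c (CT.d (CT.d CT.l CT.l) (CT.d CT.l (CT.a CT.l CT.l))) (CT.b (CT.d (CT.d CT.l CT.l) (CT.d CT.l CT.l)) (CT.d (CT.d CT.l CT.l) (CT.d CT.l CT.l))))))) (CT.c (CT.c (CT.c CT.l CT.l) (CT.c (CT.d CT.l CT.l) (CT.a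 (CT.d CT.l CT.l) (CT.d CT.l CT.l)))) (CT.a (CT.c (CT.c (CT.d CT.l (CT.a CT.l CT.l)) (CT.b (CT.d CT.l CT.l) (CT.d CT.l CT.l))) (CT.c (CT.d (CT.d CT.l CT.l) (CT.a (CT.c CT.l CT.l) (CT.c CT.l CT.l))) (CT.c (CT.d (CT.b CT.l CT.l) (CT.d CT.l CT.l)) (CT.d (CT.d CT.l CT.l) (CT.d CT.l CT.l))))) (CT.c (CT.c (CT.a (CT.d CT.l CT.l) (CT.d CT.l CT.l)) (CT.d (CT.b CT.l CT.l) (CT.d CT.l CT.l))) (CT.c (CT.d (CT.d CT.l (CT.a CT.l CT.l)) (CT.a (CT.c CT.l CT.l) (CT.d CT.l CT.l))) (CT.c (CT.d (CT.d CT.l CT.l) (CT.d CT.l CT.l)) (CT.d (CT.d CT.l CT.l) (CT.d CT.l (CT.a CT.l CT.l))))))))) 0 274877906944 412316860416 412316860416 0 1099511627776 1236950581248 412316860416 = true := by decide +kernel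

theorem chkF_19 : chk testFX (CT.b (CT.c (CT.c (CT.a CT.l CT.l) (CT.c (CT.a CT.l CT.l) (CT.d CT.l (CT.a CT.l CT.l)))) (CT.a (CT.c (CT.c (CT.d CT.l CT.l) (CT.a (CT.d CT.l CT.l) (CT.d CT.l CT.l))) (CT.c (CT.d (CT.d CT.l CT.l) (CT.d CT.l (CT.a CT.l CT.l))) (CT.c (CT.d (CT.a CT.l CT.l) (CT.d CT.l CT.l)) (CT.d (CT.d CT.l CT.l) (CT.d CT.l CT.l))))) (CT.c (CT.c (CT.d CT.l CT.l) (CT.a (CT.d CT.l CT.l) (CT.d CT.l CT.l))) (CT.c (CT.d (CT.d CT.l CT.l) (CT.a (CT.b CT.l CT.l) (CT.b CT.l CT.l))) (CT.c (CT.d (CT.a CT.l CT.l) (CT.d CT.l CT.l)) (CT.d (CT.d CT.l CT.l) (CT.d CT.l (CT.a CT.l CT.l)))))))) (CT.c (CT.c (CT.c CT.l (CT.a CT.l CT.l)) (CT.c (CT.d CT.l (CT.a CT.l CT.l)) (CT.a (CT.d CT.l CT.l) (CT.d CT.l CT.l)))) (CT.a (CT.c (CT.c (CT.a (CT.d CT.l CT.l) (CT.d CT.l CT.l)) (CT.d (CT.b CT.l CT.l)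 (CT.d CT.l CT.l))) (CT.c (CT.d (CT.d CT.l (CT.a CT.l CT.l)) (CT.a (CT.d CT.l CT.l) (CT.d CT.l CT.l))) (CT.b (CT.d (CT.d CT.l CT.l) (CT.d CT.l (CT.a CT.l CT.l))) (CT.d (CT.d CT.l CT.l) (CT.a (CT.c CT.l CT.l) (CT.c CT.l CT.l)))))) (CT.c (CT.c (CT.a (CT.d CT.l CT.l) (CT.d CT.l CT.l)) (CT.d (CT.d CT.l CT.l) (CT.c CT.l (CT.a CT.l CT.l)))) (CT.b (CT.c (CT.c (CT.d CT.l CT.l) (CT.d CT.l CT.l)) (CT.d (CT.d CT.l CT.l) (CT.a (CT.c CT.l CT.l) (CT.c CT.l CT.l)))) (CT.c (CT.d (CT.a CT.l CT.l) (CT.d CT.l CT.l)) (CT.d (CT.d CT.l (CT.a CT.l CT.l)) (CT.a (CT.c CT.l CT.l) (CT.c CT.l CT.l))))))))) 274877906944 274877906944 412316860416 412316860416 0 1099511627776 1236950581248 412316860416 = true := by decide +kernel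

theorem chkF_20 : chk testFX (CT.b (CT.c (CT.c CT.l (CT.a CT.l CT.l)) (CT.a (CT.c (CT.c CT.l (CT.a CT.l CT.l)) (CT.c (CT.c CT.l (CT.a CT.l CT.l)) (CT.a (CT.d CT.l CT.l) (CT.d CT.l CT.l)))) (CT.c (CT.c CT.l (CT.a CT.l CT.l)) (CT.b (CT.c (CT.a CT.l CT.l) (CT.d CT.l CT.l)) (CT.c (CT.a CT.l CT.l) (CT.c CT.l (CT.a CT.l CT.l))))))) (CT.a (CT.c (CT.c CT.l (CT.c CT.l CT.l)) (CT.c (CT.c (CT.a CT.l CT.l) (CT.d CT.l CT.l)) (CT.a (CT.c (CT.b CT.l CT.l) (CT.d CT.l (CT.a CT.l CT.l))) (CT.b (CT.c CT.l (CT.c CT.l CT.l)) (CT.c CT.l (CT.c CT.l CT.l)))))) (CT.c (CT.c CT.l (CT.c CT.l CT.l)) (CT.b (CT.c (CT.c CT.l CT.l) (CT.a (CT.c CT.l (CT.c CT.l CT.l)) (CT.c CT.l (CT.c CT.l CT.l)))) (CT.c (CT.c CT.l (CT.a CT.l CT.l)) (CT.a (CT.c CT.l (CT.c CT.l CT.l)) (CT.c CT.l (CT.c CT.l CT.l)))))))) 549755813888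 274877906944 412316860416 412316860416 0 1099511627776 1236950581248 206158430208 = true := by decide +kernel

end Vale.Agent.Lib.P154E
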