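import Vale.Agent.Lib.P154E.ETProg

/-!
Generated kernel checks of the Taylor model box tests for `F`.
-/

namespace Vale.Agent.Lib.P154E

open Vale.Agent.Lib.P154

theorem chkF_21 : chk testFX (CT.b (CT.c (CT.c CT.l (CT.c CT.l (CT.a CT.l CT.l))) (CT.a (CT.c (CT.c CT.l (CT.a CT.l CT.l)) (CT.c (CT.a (CT.b CT.l CT.l) (CT.b CT.l CT.l)) (CT.c (CT.d CT.l (CT.a CT.l CT.l)) (CT.a (CT.b CT.l CT.l) (CT.b CT.l CT.l))))) (CT.b (CT.c (CT.c CT.l CT.l) (CT.a (CT.c CT.l (CT.c CT.l CT.l)) (CT.c CT.l (CT.d CT.l CT.l)))) (CT.c (CT.c CT.l CT.l) (CT.c (CT.d CT.l CT.l) (CT.a (CT.c CT.l CT.l) (CT.d CT.l CT.l))))))) (CT.a (CT.c (CT.c CT.l (CT.c CT.l CT.l)) (CT.a (CT.c (CT.c CT.l (CT.a CT.l CT.l)) (CT.c (CT.d CT.l CT.l) (CT.b (CT.c CT.l CT.l) (CT.d CT.l CT.l)))) (CT.c (CT.c CT.l (CT.a CT.l CT.l)) (CT.c (CT.c CT.l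 (CT.a CT.l CT.l)) (CT.b (CT.d CT.l CT.l) (CT.d CT.l CT.l)))))) (CT.c (CT.c CT.l (CT.c CT.l (CT.a CT.l CT.l))) (CT.a (CT.c (CT.c CT.l (CT.a CT.l CT.l)) (CT.c (CT.d CT.l (CT.a CT.l CT.l)) (CT.b (CT.d CT.l CT.l) (CT.d CT.l CT.l)))) (CT.c (CT.c CT.l (CT.b CT.l CT.l)) (CT.b (CT.c (CT.a CT.l CT.l) (CT.d CT.l CT.l)) (CT.c (CT.a CT.l CT.l) (CT.c CT.l (CT.a CT.l CT.l))))))))) 549755813888 274877906944 412316860416 412316860416 0 1099511627776 1443109011456 206158430208 = true := by decide +kernel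

theorem chkF_22 : chk testFX (CT.b (CT.c (CT.c CT.l (CT.c CT.l (CT.d CT.l CT.l))) (CT.c (CT.c (CT.d CT.l (CT.a CT.l CT.l)) (CT.b (CT.d CT.l CT.l) (CT.d CT.l (CT.a CT.l CT.l)))) (CT.a (CT.c (CT.c (CT.d CT.l CT.l) (CT.d CT.l (CT.a CT.l CT.l))) (CT.c (CT.b (CT.d CT.l CT.l) (CT.d CT.l CT.l)) (CT.d (CT.b CT.l CT.l) (CT.d CT.l (CT.a CT.l CT.l))))) (CT.c (CT.c (CT.d CT.l CT.l) (CT.d CT.l (CT.a CT.l CT.l))) (CT.c (CT.d (CT.a CT.l CT.l) (CT.d CT.l CT.l)) (CT.b (CT.d CT.l (CT.d CT.l CT.l)) (CT.d CT.l (CT.d CT.l CT.l)))))))) (CT.c (CT.c (CT.d CT.l CT.l) (CT.c (CT.d CT.l CT.l) (CT.a (CT.b CT.l CT.l) (CT.b CT.l CT.l)))) (CT.b (CT.c (CT.c (CT.d CT.l CT.l) (CT.d CT.l (CT.a CT.l CT.l))) (CT.a (CT.c (CT.d CT.l (CT.a CT.l CT.l)) (CT.c (CT.d CT.l CT.l) (CT.d CT.l (CT.a CT.l CT.l)))) (CT.c (CT.d CT.l (CT.a CT.l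 CT.l)) (CT.c (CT.d CT.l (CT.a CT.l CT.l)) (CT.d CT.l (CT.d CT.l CT.l)))))) (CT.c (CT.c (CT.d CT.l (CT.a CT.l CT.l)) (CT.a (CT.d CT.l CT.l) (CT.d CT.l CT.l))) (CT.a (CT.c (CT.d CT.l (CT.a CT.l CT.l)) (CT.d (CT.c CT.l CT.l) (CT.d CT.l (CT.a CT.l CT.l)))) (CT.c (CT.c (CT.d CT.l CT.l) (CT.d CT.l CT.l)) (CT.d (CT.d CT.l CT.l) (CT.c (CT.a CT.l CT.l) (CT.d CT.l CT.l))))))))) 824633720832 137438953472 412316860416 412316860416 0 1099511627776 1236950581248 412316860416 = true := by decide +kernel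

theorem chkF_23 : chk testFX (CT.a (CT.c (CT.c CT.l (CT.d CT.l CT.l)) (CT.c (CT.c (CT.b CT.l CT.l) (CT.d CT.l (CT.a CT.l CT.l))) (CT.c (CT.b (CT.d CT.l (CT.a CT.l CT.l)) (CT.d CT.l (CT.a CT.l CT.l))) (CT.c (CT.d (CT.b CT.l CT.l) (CT.d CT.l (CT.a CT.l CT.l))) (CT.d (CT.d CT.l (CT.a CT.l CT.l)) (CT.a (CT.d CT.l (CT.a CT.l CT.l)) (CT.d CT.l (CT.c CT.l CT.l)))))))) (CT.c (CT.c CT.l (CT.b CT.l CT.l)) (CT.d (CT.b (CT.c CT.l (CT.c CT.l (CT.c CT.l (CT.d CT.l CT.l)))) (CT.c CT.l (CT.c CT.l (CT.c CT.l (CT.a CT.l (CT.a CT.l CT.l)))))) (CT.c (CT.c CT.l (CT.a CT.l CT.l)) (CT.b (CT.c (CT.a CT.l CT.l) (CT.c (CT.a (CT.a CT.l CT.l) (CT.a CT.l CT.l)) CT.l)) (CT.c (CT.a CT.l CT.l) (CT.d (CT.c CT.l CT.l) CT.l))))))) 962072674304 137438953472 412316860416 206158430208 0 1099511627776 1236950581248 412316860416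 = true := by decide +kernel

end Vale.Agent.Lib.P154E
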