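import Vale.Agent.Lib.P154E.ETProg

/-!
Generated kernel checks of the Taylor model box tests for `F`.
-/

namespace Vale.Agent.Lib.P154E

open Vale.Agent.Lib.P154

theorem chkF_24 : chk testFX (CT.b (CT.c (CT.c CT.l (CT.c CT.l (CT.a CT.l CT.l))) (CT.c (CT.c (CT.d CT.l CT.l) (CT.a (CT.d CT.l CT.l) (CT.d CT.l CT.l))) (CT.a (CT.c (CT.d CT.l (CT.c CT.l CT.l)) (CT.c (CT.d CT.l (CT.a CT.l CT.l)) (CT.d (CT.a CT.l CT.l) (CT.d CT.l CT.l)))) (CT.c (CT.c (CT.d CT.l CT.l) (CT.d CT.l (CT.a CT.l CT.l))) (CT.c (CT.c (CT.d CT.l (CT.a CT.l CT.l)) (CT.d CT.l (CT.d CT.l CT.l))) (CT.d (CT.d CT.l (CT.a CT.l CT.l)) (CT.a CT.l CT.l))))))) (CT.a (CT.c (CT.c CT.l (CT.c CT.l CT.l)) (CT.c (CT.c (CT.a CT.l CT.l) (CT.d CT.l CT.l)) (CT.c (CT.d (CT.a CT.l CT.l) (CT.d CT.l CT.l)) (CT.c (CT.d CT.l (CT.d CT.l CT.l)) (CT.d (CT.a CT.l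 CT.l) (CT.d (CT.a CT.l CT.l) CT.l)))))) (CT.c (CT.c CT.l (CT.c CT.l CT.l)) (CT.c (CT.c (CT.a CT.l CT.l) (CT.d CT.l CT.l)) (CT.c (CT.c (CT.d CT.l CT.l) (CT.d CT.l (CT.a CT.l CT.l))) (CT.c (CT.a (CT.d CT.l (CT.a CT.l CT.l)) (CT.d CT.l (CT.d CT.l CT.l))) (CT.d (CT.d CT.l (CT.a CT.l CT.l)) (CT.d (CT.a CT.l CT.l) CT.l)))))))) 962072674304 137438953472 618475290624 206158430208 0 1099511627776 1236950581248 412316860416 = true := by decide +kernel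

theorem chkF_25 : chk testFX (CT.d (CT.a (CT.a (CT.b CT.l CT.l) (CT.c CT.l (CT.b CT.l CT.l))) (CT.a (CT.b (CT.a CT.l CT.l) (CT.d CT.l CT.l)) (CT.b (CT.c CT.l CT.l) (CT.c CT.l (CT.a CT.l CT.l))))) (CT.a (CT.d (CT.b CT.l (CT.a CT.l CT.l)) (CT.a (CT.b CT.l CT.l) (CT.c CT.l (CT.b CT.l CT.l)))) (CT.a (CT.c (CT.d CT.l CT.l) (CT.b (CT.d CT.l CT.l) (CT.d CT.l CT.l))) (CT.b (CT.c CT.l (CT.d CT.l CT.l)) (CT.c (CT.a CT.l CT.l) (CT.d CT.l (CT.a CT.l CT.l))))))) 0 549755813888 824633720832 412316860416 0 549755813888 0 824633720832 = true := by decide +kernel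

theorem chkF_26 : chk testFX (CT.a (CT.a (CT.c (CT.d CT.l (CT.a CT.l CT.l)) (CT.d (CT.a CT.l CT.l) (CT.d CT.l (CT.a CT.l CT.l)))) (CT.c (CT.a (CT.d CT.l CT.l) (CT.d CT.l CT.l)) (CT.d (CT.d CT.l CT.l) (CT.a (CT.d CT.l CT.l) (CT.d CT.l CT.l))))) (CT.d (CT.b (CT.a (CT.c CT.l (CT.a CT.l CT.l)) (CT.c CT.l (CT.a CT.l CT.l))) (CT.a (CT.c CT.l (CT.a CT.l CT.l)) (CT.a (CT.c CT.l CT.l) (CT.d CT.l CT.l)))) (CT.b (CT.a (CT.c CT.l (CT.d CT.l CT.l)) (CT.a (CT.d CT.l CT.l) (CT.d CT.l CT.l))) (CT.a (CT.a (CT.d CT.l CT.l) (CT.c CT.l (CT.a CT.l CT.l))) (CT.a (CT.c CT.l (CT.a CT.l CT.l)) (CT.c CT.l (CT.a CT.l CT.l))))))) 549755813888 549755813888 824633720832 206158430208 0 549755813888 0 824633720832 = true := by decide +kernel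

theorem chkF_27 : chk testFX (CT.a (CT.a (CT.c (CT.d (CT.a CT.l CT.l) (CT.d CT.l CT.l)) (CT.d (CT.d CT.l (CT.a CT.l CT.l)) (CT.a (CT.d CT.l CT.l) (CT.d CT.l CT.l)))) (CT.a (CT.c (CT.d CT.l (CT.a CT.l CT.l)) (CT.d (CT.b CT.l CT.l) (CT.d CT.l (CT.a CT.l CT.l)))) (CT.c (CT.a (CT.d CT.l CT.l) (CT.d CT.l CT.l)) (CT.d (CT.b CT.l CT.l) (CT.d CT.l (CT.a CT.l CT.l)))))) (CT.a (CT.d (CT.a (CT.b (CT.c CT.l CT.l) (CT.c CT.l (CT.a CT.l CT.l))) (CT.b (CT.d CT.l CT.l) (CT.c CT.l (CT.a CT.l CT.l)))) (CT.a (CT.b (CT.c CT.l (CT.d CT.l CT.l)) (CT.c CT.l (CT.d CT.l CT.l))) (CT.b (CT.c CT.l (CT.d CT.l CT.l)) (CT.c CT.l (CT.d CT.l CT.l))))) (CT.a (CT.b (CT.c (CT.d CT.l CT.l) (CT.d (CT.a CT.l CT.l) (CT.d CT.l CT.l))) (CT.c (CT.d CT.l CT.l) (CT.d (CT.a CT.l CT.l) (CT.d CT.l CT.l)))) (CT.b (CT.c (CT.d CT.l CT.l) (CT.d (CT.a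 CT.l CT.l) (CT.d CT.l CT.l))) (CT.c (CT.d CT.l CT.l) (CT.d (CT.a CT.l CT.l) (CT.d CT.l CT.l))))))) 549755813888 549755813888 1030792151040 206158430208 0 549755813888 0 824633720832 = true := by decide +kernel

end Vale.Agent.Lib.P154E
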