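import Vale.Agent.Lib.P154E.ETProg

/-!
Generated kernel checks of the Taylor model box tests for `G`.
-/

namespace Vale.Agent.Lib.P154E

open Vale.Agent.Lib.P154

theorem chkG_3 : chk testGX (CT.a (CT.b (CT.b (CT.c CT.l (CT.a (CT.b (CT.d CT.l CT.l) (CT.d CT.l CT.l)) (CT.b (CT.d CT.l CT.l) (CT.d CT.l CT.l)))) (CT.c CT.l (CT.a (CT.b (CT.d CT.l CT.l) (CT.d CT.l CT.l)) (CT.d (CT.b CT.l CT.l) (CT.d CT.l CT.l))))) (CT.a (CT.c CT.l (CT.b (CT.b (CT.d CT.l CT.l) (CT.d CT.l CT.l)) (CT.d (CT.a CT.l CT.l) (CT.d CT.l CT.l)))) (CT.c CT.l (CT.c (CT.d CT.l CT.l) (CT.a (CT.b (CT.d CT.l CT.l) (CT.d CT.l CT.l)) (CT.b (CT.d CT.l CT.l) (CT.d CT.l CT.l))))))) (CT.b (CT.b (CT.c CT.l (CT.c (CT.d CT.l CT.l) (CT.a (CT.a (CT.d CT.l CT.l) (CT.d CT.l CT.l)) (CT.b (CT.d CT.l CT.l) (CT.d CT.l CT.l))))) (CT.c CT.l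 (CT.c (CT.d CT.l (CT.a CT.l CT.l)) (CT.a (CT.a (CT.d CT.l CT.l) (CT.d CT.l CT.l)) (CT.c (CT.d CT.l CT.l) (CT.b (CT.d CT.l CT.l) (CT.d CT.l CT.l))))))) (CT.b (CT.a (CT.c CT.l (CT.c (CT.a CT.l CT.l) (CT.d (CT.b CT.l CT.l) (CT.d CT.l CT.l)))) (CT.c CT.l (CT.a (CT.b (CT.d CT.l CT.l) (CT.d CT.l CT.l)) (CT.b (CT.d CT.l CT.l) (CT.d CT.l CT.l))))) (CT.c CT.l (CT.a (CT.a (CT.c CT.l (CT.d CT.l CT.l)) (CT.b (CT.d CT.l CT.l) (CT.d CT.l CT.l))) (CT.a (CT.b (CT.d CT.l CT.l) (CT.d CT.l CT.l)) (CT.b (CT.d CT.l CT.l) (CT.c CT.l (CT.d CT.l CT.l))))))))) 0 549755813888 824633720832 824633720832 0 1099511627776 412316860416 412316860416 = true := by decide +kernel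

theorem chkG_4 : chk testGX (CT.b (CT.b (CT.a (CT.c CT.l (CT.b (CT.c CT.l (CT.d CT.l CT.l)) (CT.b (CT.d CT.l CT.l) (CT.d CT.l CT.l)))) (CT.c CT.l (CT.b (CT.c CT.l (CT.d CT.l CT.l)) (CT.d (CT.a CT.l CT.l) (CT.d CT.l CT.l))))) (CT.b (CT.c CT.l (CT.c (CT.d CT.l CT.l) (CT.a (CT.d CT.l (CT.a CT.l CT.l)) (CT.b (CT.d CT.l CT.l) (CT.d CT.l CT.l))))) (CT.c CT.l (CT.d (CT.a (CT.b CT.l CT.l) (CT.d CT.l CT.l)) (CT.c CT.l (CT.a (CT.b CT.l CT.l) (CT.b CT.l (CT.a CT.l CT.l)))))))) (CT.b (CT.c (CT.c CT.l (CT.b CT.l CT.l)) (CT.b (CT.a (CT.d (CT.d CT.l CT.l) (CT.a (CT.b CT.l CT.l) (CT.b CT.l CT.l))) (CT.c (CT.b CT.l CT.l) (CT.d (CT.a CT.l CT.l) (CT.c CT.l (CT.b CT.l CT.l))))) (CT.c (CT.d CT.l (CT.a CT.l CT.l)) (CT.a (CT.d (CT.a CT.l CT.l) (CT.c CT.l (CT.a CT.l CT.l))) (CT.a (CT.d CT.l (CT.b CT.l CT.l))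 (CT.d CT.l (CT.b CT.l CT.l))))))) (CT.d (CT.a (CT.c CT.l (CT.a (CT.c CT.l (CT.b CT.l CT.l)) (CT.c CT.l (CT.b CT.l CT.l)))) (CT.c CT.l (CT.a (CT.c CT.l (CT.b CT.l CT.l)) (CT.c CT.l (CT.b CT.l CT.l))))) (CT.a (CT.c CT.l (CT.b (CT.c CT.l (CT.c CT.l (CT.a CT.l CT.l))) (CT.c CT.l (CT.c CT.l (CT.a CT.l CT.l))))) (CT.c CT.l (CT.a (CT.c CT.l (CT.b (CT.b CT.l CT.l) (CT.a CT.l CT.l))) (CT.c CT.l (CT.b (CT.b CT.l CT.l) (CT.b CT.l CT.l))))))))) 0 274877906944 0 1649267441664 0 1099511627776 824633720832 412316860416 = true := by decide +kernel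

theorem chkG_5 : chk testGX (CT.b (CT.b (CT.c CT.l (CT.d (CT.c CT.l (CT.a CT.l CT.l)) (CT.a (CT.a CT.l CT.l) (CT.d CT.l CT.l)))) (CT.c CT.l (CT.c (CT.d CT.l CT.l) (CT.a (CT.d CT.l (CT.a CT.l CT.l)) (CT.a (CT.d CT.l CT.l) (CT.d CT.l CT.l)))))) (CT.c (CT.c CT.l (CT.b CT.l CT.l)) (CT.d (CT.b (CT.a (CT.b CT.l CT.l) (CT.b CT.l (CT.a CT.l CT.l))) (CT.c CT.l (CT.a (CT.a CT.l CT.l) (CT.b CT.l CT.l)))) (CT.c (CT.b CT.l (CT.a CT.l CT.l)) (CT.a (CT.b (CT.b CT.l CT.l) (CT.c CT.l (CT.a CT.l CT.l))) (CT.b (CT.b CT.l CT.l) (CT.c CT.l (CT.b CT.l CT.l)))))))) 274877906944 274877906944 0 824633720832 0 1099511627776 824633720832 412316860416 = true := by decide +kernel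

end Vale.Agent.Lib.P154E
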