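import Vale.Agent.Lib.P154E.ETProg

/-!
Generated kernel checks of the Taylor model box tests for `G`.
-/

namespace Vale.Agent.Lib.P154E

open Vale.Agent.Lib.P154

theorem chkG_36 : chk testGX (CT.b (CT.b (CT.c CT.l (CT.a (CT.a (CT.b (CT.d CT.l CT.l) (CT.d CT.l CT.l)) (CT.c CT.l (CT.b (CT.d CT.l CT.l) (CT.d CT.l CT.l)))) (CT.a (CT.c CT.l (CT.b (CT.d CT.l CT.l) (CT.d CT.l CT.l))) (CT.b (CT.b (CT.d CT.l CT.l) (CT.d CT.l CT.l)) (CT.b (CT.d CT.l CT.l) (CT.d CT.l CT.l)))))) (CT.c CT.l (CT.a (CT.c CT.l (CT.a (CT.b (CT.d CT.l CT.l) (CT.d CT.l CT.l)) (CT.b (CT.d CT.l CT.l) (CT.d CT.l CT.l)))) (CT.b (CT.c CT.l (CT.a (CT.c CT.l (CT.d CT.l CT.l)) (CT.a (CT.d CT.l CT.l) (CT.d CT.l CT.l)))) (CT.c CT.l (CT.a (CT.c CT.l (CT.d CT.l CT.l)) (CT.a (CT.d CT.l CT.l) (CT.d CT.l CT.l)))))))) (CT.b (CT.c CT.l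 (CT.a (CT.c CT.l (CT.a (CT.b (CT.d CT.l CT.l) (CT.d CT.l CT.l)) (CT.b (CT.d CT.l CT.l) (CT.d CT.l CT.l)))) (CT.b (CT.c CT.l (CT.a (CT.c CT.l (CT.d CT.l CT.l)) (CT.a (CT.d CT.l CT.l) (CT.d CT.l CT.l)))) (CT.c CT.l (CT.a (CT.c CT.l (CT.d CT.l CT.l)) (CT.a (CT.d CT.l CT.l) (CT.d CT.l CT.l))))))) (CT.a (CT.c CT.l (CT.b (CT.c CT.l (CT.a (CT.d CT.l CT.l) (CT.c CT.l (CT.d CT.l CT.l)))) (CT.c CT.l (CT.a (CT.d CT.l CT.l) (CT.c CT.l (CT.d CT.l CT.l)))))) (CT.a (CT.c CT.l (CT.a (CT.b (CT.d CT.l CT.l) (CT.d CT.l CT.l)) (CT.b (CT.d CT.l CT.l) (CT.d CT.l CT.l)))) (CT.c CT.l (CT.c CT.l (CT.a (CT.b (CT.d CT.l CT.l) (CT.d CT.l CT.l)) (CT.b (CT.d CT.l CT.l) (CT.c CT.l (CT.d CT.l CT.l)))))))))) 549755813888 274877906944 824633720832 824633720832 0 1099511627776 0 412316860416 = true := by decide +kernel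

theorem chkG_37 : chk testGX (CT.b (CT.a (CT.b (CT.c CT.l (CT.a (CT.b (CT.d CT.l CT.l) (CT.d CT.l CT.l)) (CT.b (CT.d CT.l CT.l) (CT.d CT.l CT.l)))) (CT.c CT.l (CT.a (CT.b (CT.d CT.l CT.l) (CT.d CT.l CT.l)) (CT.c CT.l (CT.b (CT.d CT.l CT.l) (CT.d CT.l CT.l)))))) (CT.b (CT.c CT.l (CT.b (CT.c CT.l (CT.a (CT.d CT.l CT.l) (CT.d CT.l CT.l))) (CT.c CT.l (CT.d (CT.d CT.l CT.l) (CT.a CT.l CT.l))))) (CT.c CT.l (CT.d (CT.c CT.l (CT.a (CT.b CT.l CT.l) (CT.c CT.l (CT.b CT.l CT.l)))) (CT.c CT.l (CT.a (CT.b CT.l CT.l) (CT.b CT.l CT.l))))))) (CT.b (CT.a (CT.c CT.l (CT.a (CT.b (CT.d CT.l CT.l) (CT.c CT.l (CT.d CT.l CT.l))) (CT.c CT.l (CT.b (CT.d CT.l CT.l) (CT.d CT.l CT.l))))) (CT.c CT.l (CT.a (CT.c CT.l (CT.b (CT.d CT.l CT.l) (CT.d CT.l CT.l))) (CT.a (CT.b (CT.d CT.l CT.l) (CT.d CT.l CT.l)) (CT.b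 (CT.d CT.l CT.l) (CT.d CT.l CT.l)))))) (CT.a (CT.c CT.l (CT.a (CT.c CT.l (CT.b (CT.d CT.l CT.l) (CT.d CT.l CT.l))) (CT.c CT.l (CT.b (CT.d CT.l CT.l) (CT.d CT.l CT.l))))) (CT.c CT.l (CT.c (CT.a CT.l CT.l) (CT.a (CT.b (CT.c CT.l (CT.d CT.l CT.l)) (CT.c CT.l (CT.d CT.l CT.l))) (CT.a (CT.b (CT.d CT.l CT.l) (CT.d CT.l CT.l)) (CT.b (CT.d CT.l CT.l) (CT.d CT.l CT.l))))))))) 549755813888 274877906944 824633720832 824633720832 0 1099511627776 412316860416 412316860416 = true := by decide +kernel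

theorem chkG_38 : chk testGX (CT.b (CT.c CT.l (CT.b (CT.c CT.l (CT.a (CT.b (CT.d CT.l CT.l) (CT.d CT.l CT.l)) (CT.b (CT.a (CT.d CT.l CT.l) (CT.d CT.l CT.l)) (CT.b (CT.d CT.l CT.l) (CT.d CT.l CT.l))))) (CT.c CT.l (CT.a (CT.b (CT.d CT.l CT.l) (CT.d CT.l CT.l)) (CT.b (CT.d (CT.d CT.l CT.l) (CT.d CT.l CT.l)) (CT.d (CT.d CT.l CT.l) (CT.d CT.l CT.l))))))) (CT.c CT.l (CT.b (CT.c CT.l (CT.a (CT.c CT.l (CT.b (CT.d CT.l CT.l) (CT.d CT.l CT.l))) (CT.b (CT.d (CT.d CT.l CT.l) (CT.d CT.l CT.l)) (CT.d (CT.d CT.l CT.l) (CT.d CT.l CT.l))))) (CT.c CT.l (CT.c (CT.d CT.l CT.l) (CT.a (CT.b (CT.d CT.l CT.l) (CT.d CT.l CT.l)) (CT.a (CT.b (CT.d CT.l CT.l) (CT.d CT.l CT.l)) (CT.b (CT.d CT.l CT.l) (CT.d CT.l CT.l))))))))) 824633720832 137438953472 824633720832 412316860416 0 1099511627776 0 412316860416 = true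 := by decide +kernel

end Vale.Agent.Lib.P154E
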