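import Vale.Agent.Lib.P154E.ETProg

/-!
Generated kernel checks of the Taylor model box tests for `G`.
-/

namespace Vale.Agent.Lib.P154E

open Vale.Agent.Lib.P154

theorem chkG_42 : chk testGX (CT.b (CT.c CT.l (CT.c CT.l (CT.c (CT.b CT.l CT.l) (CT.c (CT.b (CT.b CT.l CT.l) (CT.b CT.l CT.l)) (CT.a (CT.b (CT.b (CT.c CT.l (CT.d CT.l CT.l)) (CT.c CT.l (CT.d CT.l CT.l))) (CT.a (CT.c CT.l (CT.b CT.l CT.l)) (CT.b (CT.b CT.l CT.l) (CT.b CT.l CT.l)))) (CT.b (CT.b (CT.a (CT.c CT.l (CT.d CT.l CT.l)) (CT.b (CT.d CT.l CT.l) (CT.d CT.l CT.l))) (CT.c CT.l (CT.b (CT.d CT.l CT.l) (CT.d CT.l CT.l)))) (CT.b (CT.c CT.l (CT.b (CT.d CT.l CT.l) (CT.d CT.l CT.l))) (CT.a (CT.c CT.l (CT.b CT.l CT.l)) (CT.b (CT.d CT.l CT.l) (CT.d CT.l CT.l)))))))))) (CT.c CT.l (CT.c (CT.b CT.l CT.l) (CT.c (CT.b CT.l (CT.a CT.l CT.l))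 (CT.b (CT.c (CT.b CT.l CT.l) (CT.a (CT.a (CT.c CT.l (CT.b CT.l CT.l)) (CT.b (CT.b CT.l CT.l) (CT.b CT.l CT.l))) (CT.a (CT.b (CT.b CT.l CT.l) (CT.b CT.l CT.l)) (CT.b (CT.b (CT.b CT.l CT.l) (CT.b CT.l CT.l)) (CT.b (CT.b CT.l CT.l) (CT.b CT.l CT.l)))))) (CT.a (CT.a (CT.b (CT.b CT.l CT.l) (CT.b CT.l CT.l)) (CT.b (CT.b CT.l CT.l) (CT.b CT.l (CT.a CT.l CT.l)))) (CT.c (CT.a CT.l CT.l) (CT.a (CT.b (CT.b CT.l (CT.a CT.l CT.l)) (CT.a (CT.b CT.l CT.l) (CT.b CT.l CT.l))) (CT.b (CT.b (CT.b CT.l CT.l) (CT.a CT.l (CT.b CT.l CT.l))) (CT.c CT.l (CT.c (CT.b CT.l CT.l) (CT.d CT.l CT.l)))))))))))) 1030792151040 68719476736 1236950581248 412316860416 0 1099511627776 0 206158430208 = true := by decide +kernel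

theorem chkG_43 : chk testGX (CT.b (CT.b (CT.c CT.l (CT.c CT.l (CT.d (CT.c CT.l (CT.b (CT.b CT.l CT.l) (CT.c CT.l (CT.b CT.l CT.l)))) (CT.c CT.l (CT.b (CT.b CT.l CT.l) (CT.b CT.l CT.l)))))) (CT.c CT.l (CT.c CT.l (CT.c (CT.b CT.l CT.l) (CT.a (CT.b (CT.c CT.l (CT.b CT.l CT.l)) (CT.c CT.l (CT.b CT.l CT.l))) (CT.b (CT.b (CT.d CT.l CT.l) (CT.d CT.l CT.l)) (CT.b (CT.d CT.l CT.l) (CT.d CT.l CT.l)))))))) (CT.b (CT.c CT.l (CT.c CT.l (CT.b (CT.c CT.l (CT.a (CT.c CT.l (CT.b CT.l CT.l)) (CT.b (CT.d CT.l CT.l) (CT.d CT.l CT.l)))) (CT.c CT.l (CT.a (CT.c CT.l (CT.b CT.l CT.l)) (CT.b (CT.b CT.l CT.l) (CT.b CT.l CT.l))))))) (CT.c CT.l (CT.c CT.l (CT.b (CT.c CT.l (CT.a (CT.c CT.l (CT.b CT.l CT.l)) (CT.b (CT.b CT.l CT.l) (CT.b CT.l CT.l)))) (CT.c CT.l (CT.a (CT.a (CT.b CT.l CT.l) (CT.b CT.l CT.l)) (CT.a (CT.b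 CT.l CT.l) (CT.c CT.l (CT.b CT.l CT.l)))))))))) 962072674304 68719476736 824633720832 824633720832 0 1099511627776 206158430208 206158430208 = true := by decide +kernel

theorem chkG_44 : chk testGX (CT.b (CT.c CT.l (CT.c CT.l (CT.c (CT.b CT.l CT.l) (CT.c (CT.b (CT.b CT.l CT.l) (CT.b CT.l CT.l)) (CT.a (CT.b (CT.b (CT.d CT.l CT.l) (CT.d CT.l CT.l)) (CT.b (CT.d CT.l CT.l) (CT.d CT.l CT.l))) (CT.b (CT.b (CT.b (CT.d CT.l CT.l) (CT.d CT.l CT.l)) (CT.b (CT.d CT.l CT.l) (CT.d CT.l CT.l))) (CT.d (CT.a (CT.b CT.l CT.l) (CT.b (CT.b CT.l CT.l) (CT.b CT.l CT.l))) (CT.b (CT.b CT.l CT.l) (CT.b CT.l CT.l))))))))) (CT.c CT.l (CT.c CT.l (CT.b (CT.d (CT.c CT.l (CT.c CT.l (CT.a (CT.b CT.l CT.l) (CT.a (CT.b CT.l CT.l) (CT.b (CT.b CT.l CT.l) (CT.b CT.l CT.l)))))) (CT.c CT.l (CT.a (CT.b CT.l CT.l) (CT.c CT.l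 (CT.b (CT.b CT.l CT.l) (CT.b CT.l CT.l)))))) (CT.c CT.l (CT.b (CT.c CT.l (CT.d (CT.c CT.l (CT.a CT.l (CT.b CT.l CT.l))) (CT.a CT.l (CT.b CT.l CT.l)))) (CT.c CT.l (CT.d (CT.c CT.l (CT.a CT.l (CT.b CT.l CT.l))) (CT.a CT.l (CT.b CT.l CT.l)))))))))) 1030792151040 68719476736 824633720832 412316860416 0 1099511627776 206158430208 206158430208 = true := by decide +kernel

end Vale.Agent.Lib.P154E
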