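import Vale.Agent.Lib.P154E.ETProg

/-!
Generated kernel checks of the Taylor model box tests for `G`.
-/

namespace Vale.Agent.Lib.P154E

open Vale.Agent.Lib.P154

theorem chkG_45 : chk testGX (CT.b (CT.c CT.l (CT.c CT.l (CT.b (CT.c CT.l (CT.b (CT.c CT.l (CT.d (CT.c CT.l (CT.a CT.l (CT.b CT.l CT.l))) (CT.a CT.l (CT.b CT.l CT.l)))) (CT.c CT.l (CT.d (CT.c CT.l (CT.a CT.l (CT.b CT.l CT.l))) (CT.a CT.l (CT.b CT.l CT.l)))))) (CT.c CT.l (CT.b (CT.c CT.l (CT.d (CT.c CT.l (CT.a CT.l (CT.b CT.l CT.l))) (CT.a CT.l (CT.b CT.l CT.l)))) (CT.c CT.l (CT.a (CT.c CT.l (CT.d CT.l CT.l)) (CT.c CT.l (CT.b (CT.d CT.l CT.l) (CT.d CT.l CT.l)))))))))) (CT.c CT.l (CT.c (CT.b CT.l CT.l) (CT.c (CT.b CT.l (CT.a CT.l CT.l)) (CT.a (CT.a (CT.b (CT.b (CT.b CT.l CT.l) (CT.b CT.l CT.l)) (CT.b (CT.b CT.l CT.l) (CT.b CT.l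 CT.l))) (CT.b (CT.b (CT.b CT.l CT.l) (CT.b CT.l CT.l)) (CT.b (CT.b CT.l CT.l) (CT.b CT.l (CT.a CT.l CT.l))))) (CT.c (CT.b (CT.a CT.l CT.l) (CT.b CT.l CT.l)) (CT.a (CT.b (CT.b (CT.b CT.l CT.l) (CT.b CT.l CT.l)) (CT.b (CT.b CT.l (CT.a CT.l CT.l)) (CT.a (CT.b CT.l CT.l) (CT.b CT.l (CT.a CT.l CT.l))))) (CT.b (CT.b (CT.b (CT.b CT.l CT.l) (CT.b CT.l CT.l)) (CT.b (CT.b CT.l CT.l) (CT.b CT.l CT.l))) (CT.b (CT.b (CT.b CT.l CT.l) (CT.a CT.l (CT.b CT.l CT.l))) (CT.c CT.l (CT.c (CT.b CT.l CT.l) (CT.d CT.l CT.l)))))))))))) 1030792151040 68719476736 1236950581248 412316860416 0 1099511627776 206158430208 206158430208 = true := by decide +kernel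

theorem chkG_46 : chk testGX (CT.b (CT.b (CT.c CT.l (CT.d (CT.a (CT.b (CT.d CT.l CT.l) (CT.d CT.l CT.l)) (CT.c CT.l (CT.b (CT.d CT.l CT.l) (CT.c CT.l (CT.b CT.l CT.l))))) (CT.c CT.l (CT.a (CT.c CT.l (CT.b CT.l CT.l)) (CT.b (CT.b CT.l CT.l) (CT.b CT.l CT.l)))))) (CT.c CT.l (CT.d (CT.c CT.l (CT.a (CT.a (CT.b CT.l CT.l) (CT.b CT.l CT.l)) (CT.c CT.l (CT.b (CT.d CT.l CT.l) (CT.c CT.l (CT.b CT.l CT.l)))))) (CT.a (CT.b (CT.d CT.l CT.l) (CT.d CT.l CT.l)) (CT.c CT.l (CT.b (CT.d CT.l CT.l) (CT.d CT.l CT.l))))))) (CT.d (CT.c (CT.a CT.l CT.l) (CT.c (CT.b CT.l (CT.a CT.l CT.l)) (CT.a (CT.b (CT.a (CT.b CT.l CT.l) (CT.c CT.l (CT.b CT.l CT.l))) (CT.c CT.l (CT.a (CT.b CT.l CT.l) (CT.b CT.l (CT.a CT.l CT.l))))) (CT.a (CT.b (CT.b (CT.a CT.l CT.l) (CT.b CT.l CT.l)) (CT.b (CT.b CT.l CT.l) (CT.b CT.l CT.l)))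 (CT.b (CT.b (CT.b CT.l CT.l) (CT.b CT.l CT.l)) (CT.b (CT.b CT.l CT.l) (CT.c CT.l (CT.b CT.l CT.l)))))))) (CT.a (CT.c CT.l (CT.b (CT.c CT.l (CT.a (CT.b CT.l CT.l) (CT.b CT.l CT.l))) (CT.c CT.l (CT.a (CT.b CT.l CT.l) (CT.c CT.l (CT.b CT.l CT.l)))))) (CT.c CT.l (CT.c (CT.b CT.l CT.l) (CT.a (CT.b (CT.c CT.l (CT.b CT.l CT.l)) (CT.b (CT.a CT.l CT.l) (CT.b CT.l CT.l))) (CT.b (CT.b (CT.a CT.l CT.l) (CT.b CT.l CT.l)) (CT.b (CT.b CT.l CT.l) (CT.b CT.l (CT.a CT.l CT.l)))))))))) 824633720832 137438953472 824633720832 824633720832 0 1099511627776 412316860416 412316860416 = true := by decide +kernel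

theorem chkG_47 : chk testGX (CT.b (CT.a (CT.c CT.l (CT.c CT.l (CT.b (CT.b (CT.d CT.l CT.l) (CT.d CT.l CT.l)) (CT.b (CT.d CT.l CT.l) (CT.d CT.l CT.l))))) (CT.c CT.l (CT.c CT.l (CT.b (CT.c CT.l (CT.b (CT.d (CT.d CT.l CT.l) (CT.a CT.l CT.l)) (CT.a (CT.d CT.l CT.l) (CT.d (CT.a CT.l CT.l) CT.l)))) (CT.a (CT.b (CT.d CT.l CT.l) (CT.d CT.l CT.l)) (CT.c CT.l (CT.b (CT.d (CT.b CT.l CT.l) CT.l) (CT.b (CT.d CT.l CT.l) (CT.d CT.l CT.l))))))))) (CT.c CT.l (CT.d (CT.c CT.l (CT.b (CT.c CT.l (CT.a (CT.b CT.l CT.l) (CT.a (CT.b CT.l CT.l) (CT.b (CT.b CT.l CT.l) (CT.b CT.l CT.l))))) (CT.c CT.l (CT.a (CT.b CT.l CT.l) (CT.a (CT.b CT.l CT.l) (CT.b (CT.b CT.l CT.l) (CT.b CT.l CT.l))))))) (CT.c CT.l (CT.c (CT.b CT.l CT.l) (CT.a (CT.a (CT.b CT.l CT.l) (CT.b CT.l CT.l)) (CT.a (CT.b (CT.b CT.l CT.l) (CT.b CT.l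 CT.l)) (CT.b (CT.c CT.l (CT.b CT.l CT.l)) (CT.c CT.l (CT.b CT.l CT.l)))))))))) 962072674304 137438953472 824633720832 412316860416 0 1099511627776 412316860416 206158430208 = true := by decide +kernel

end Vale.Agent.Lib.P154E
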