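import Vale.Agent.Lib.P154E.ETProg

/-!
Generated kernel checks of the Taylor model box tests for `G`.
-/

namespace Vale.Agent.Lib.P154E

open Vale.Agent.Lib.P154

theorem chkG_48 : chk testGX (CT.c (CT.b CT.l (CT.a CT.l CT.l)) (CT.a (CT.b (CT.b (CT.c CT.l (CT.c CT.l (CT.c CT.l (CT.b (CT.d CT.l CT.l) (CT.d CT.l CT.l))))) (CT.c CT.l (CT.a (CT.c CT.l (CT.b CT.l CT.l)) (CT.b (CT.d CT.l CT.l) (CT.d CT.l CT.l))))) (CT.c CT.l (CT.b (CT.c CT.l (CT.a (CT.b CT.l CT.l) (CT.a (CT.b CT.l CT.l) (CT.b CT.l CT.l)))) (CT.c CT.l (CT.a (CT.c CT.l (CT.b CT.l CT.l)) (CT.a (CT.b CT.l CT.l) (CT.b CT.l (CT.a CT.l CT.l)))))))) (CT.c (CT.b CT.l (CT.b CT.l CT.l)) (CT.c (CT.b (CT.b CT.l CT.l) (CT.b CT.l (CT.a CT.l CT.l))) (CT.a (CT.b (CT.b (CT.b (CT.d CT.l CT.l) (CT.d CT.l CT.l)) (CT.b (CT.d CT.l CT.l) (CT.c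 CT.l (CT.b CT.l CT.l)))) (CT.c (CT.b CT.l CT.l) (CT.a (CT.b (CT.b CT.l CT.l) (CT.b CT.l (CT.a CT.l CT.l))) (CT.b (CT.c CT.l (CT.b CT.l CT.l)) (CT.b (CT.b CT.l CT.l) (CT.b CT.l CT.l)))))) (CT.a (CT.b (CT.b (CT.b (CT.d CT.l CT.l) (CT.d CT.l CT.l)) (CT.b (CT.d CT.l CT.l) (CT.d CT.l CT.l))) (CT.b (CT.b (CT.b CT.l CT.l) (CT.c CT.l (CT.b CT.l CT.l))) (CT.b (CT.c CT.l (CT.b CT.l CT.l)) (CT.a (CT.b CT.l CT.l) (CT.b CT.l (CT.a CT.l CT.l)))))) (CT.c (CT.b (CT.b CT.l CT.l) (CT.b CT.l (CT.a CT.l CT.l))) (CT.b (CT.b (CT.b (CT.d CT.l CT.l) (CT.d CT.l CT.l)) (CT.b (CT.d CT.l CT.l) (CT.c CT.l (CT.b CT.l CT.l)))) (CT.b (CT.b (CT.c CT.l (CT.b CT.l CT.l)) (CT.a (CT.b CT.l CT.l) (CT.b CT.l CT.l))) (CT.b (CT.b (CT.b CT.l CT.l) (CT.a CT.l (CT.a CT.l CT.l))) (CT.c CT.l (CT.c (CT.b CT.l CT.l) (CT.d CT.l CT.l)))))))))))))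 962072674304 137438953472 1236950581248 412316860416 0 1099511627776 412316860416 206158430208 = true := by decide +kernel

theorem chkG_49 : chk testGX (CT.b (CT.c CT.l (CT.c (CT.b CT.l CT.l) (CT.c (CT.a (CT.b CT.l CT.l) (CT.b CT.l CT.l)) (CT.a (CT.b (CT.d CT.l CT.l) (CT.c CT.l (CT.d CT.l CT.l))) (CT.a (CT.b (CT.d CT.l CT.l) (CT.c CT.l (CT.d CT.l CT.l))) (CT.b (CT.b (CT.d CT.l CT.l) (CT.d CT.l CT.l)) (CT.b (CT.d CT.l CT.l) (CT.d CT.l CT.l)))))))) (CT.a (CT.c CT.l (CT.c CT.l (CT.b (CT.a (CT.b CT.l CT.l) (CT.d CT.l CT.l)) (CT.b (CT.d CT.l CT.l) (CT.d CT.l CT.l))))) (CT.c CT.l (CT.c CT.l (CT.b (CT.c CT.l (CT.a (CT.c CT.l (CT.d CT.l CT.l)) (CT.b (CT.d CT.l CT.l) (CT.d CT.l CT.l)))) (CT.a (CT.b (CT.d CT.l CT.l) (CT.d CT.l CT.l)) (CT.c CT.l (CT.b (CT.d CT.l CT.l) (CT.d CT.l CT.l)))))))))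 962072674304 137438953472 824633720832 412316860416 0 1099511627776 618475290624 206158430208 = true := by decide +kernel

theorem chkG_50 : chk testGX (CT.b (CT.c CT.l (CT.b (CT.c CT.l (CT.a (CT.a (CT.b CT.l CT.l) (CT.c CT.l (CT.b CT.l CT.l))) (CT.a (CT.b (CT.d CT.l CT.l) (CT.d CT.l CT.l)) (CT.c CT.l (CT.c CT.l (CT.b (CT.d CT.l CT.l) (CT.d CT.l CT.l))))))) (CT.c CT.l (CT.a (CT.a (CT.b CT.l CT.l) (CT.a (CT.b CT.l CT.l) (CT.b CT.l CT.l))) (CT.b (CT.a (CT.d CT.l CT.l) (CT.b (CT.d CT.l CT.l) (CT.d CT.l CT.l))) (CT.c CT.l (CT.a (CT.b CT.l CT.l) (CT.a (CT.b CT.l CT.l) (CT.d CT.l CT.l))))))))) (CT.b (CT.c CT.l (CT.c (CT.a CT.l CT.l) (CT.a (CT.c CT.l (CT.a (CT.b CT.l CT.l) (CT.c CT.l (CT.b CT.l CT.l)))) (CT.b (CT.c CT.l (CT.a (CT.d CT.l CT.l) (CT.a (CT.b CT.l CT.l) (CT.c CT.l (CT.b CT.l CT.l)))))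 (CT.c CT.l (CT.a (CT.a CT.l (CT.a CT.l CT.l)) (CT.a (CT.b CT.l CT.l) (CT.a (CT.b CT.l CT.l) (CT.b CT.l CT.l))))))))) (CT.c (CT.a CT.l CT.l) (CT.c (CT.a CT.l (CT.a CT.l CT.l)) (CT.c (CT.a CT.l (CT.a CT.l CT.l)) (CT.b (CT.a (CT.a CT.l (CT.a CT.l CT.l)) (CT.a (CT.a (CT.a CT.l CT.l) (CT.b CT.l CT.l)) (CT.b (CT.a CT.l (CT.b CT.l CT.l)) (CT.c CT.l (CT.a CT.l (CT.d CT.l CT.l)))))) (CT.b (CT.a (CT.a CT.l CT.l) (CT.a (CT.a CT.l CT.l) (CT.a (CT.a CT.l CT.l) (CT.a (CT.a CT.l CT.l) (CT.b CT.l CT.l))))) (CT.a (CT.a CT.l (CT.a CT.l CT.l)) (CT.a (CT.a CT.l CT.l) (CT.c CT.l (CT.a (CT.a CT.l CT.l) (CT.c CT.l (CT.d CT.l CT.l))))))))))))) 962072674304 137438953472 1236950581248 412316860416 0 1099511627776 618475290624 206158430208 = true := by decide +kernel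

end Vale.Agent.Lib.P154E
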