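import Vale.Agent.Lib.P154E.ETProg

/-!
Generated kernel checks of the Taylor model box tests for `G`.
-/

namespace Vale.Agent.Lib.P154E

open Vale.Agent.Lib.P154

theorem chkG_51 : chk testGX (CT.b (CT.a (CT.c CT.l (CT.a (CT.b (CT.a CT.l CT.l) (CT.d CT.l CT.l)) (CT.c CT.l (CT.a (CT.b CT.l CT.l) (CT.b CT.l CT.l))))) (CT.a (CT.c CT.l (CT.a (CT.b (CT.b CT.l CT.l) (CT.d CT.l CT.l)) (CT.b (CT.d CT.l CT.l) (CT.c CT.l (CT.a CT.l CT.l))))) (CT.c CT.l (CT.b (CT.c CT.l (CT.a (CT.c CT.l (CT.d CT.l CT.l)) (CT.c CT.l (CT.b (CT.d CT.l CT.l) (CT.d CT.l CT.l))))) (CT.c CT.l (CT.a (CT.c CT.l (CT.d CT.l CT.l)) (CT.a (CT.d CT.l CT.l) (CT.b (CT.d CT.l CT.l) (CT.d CT.l CT.l))))))))) (CT.a (CT.c CT.l (CT.a (CT.c CT.l (CT.a (CT.a CT.l CT.l) (CT.b CT.l CT.l))) (CT.c CT.l (CT.a (CT.b CT.l CT.l) (CT.b CT.l CT.l)))))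 (CT.a (CT.c CT.l (CT.a (CT.b (CT.d CT.l CT.l) (CT.d CT.l CT.l)) (CT.c CT.l (CT.b (CT.b CT.l CT.l) (CT.b CT.l CT.l))))) (CT.b (CT.c CT.l (CT.c CT.l (CT.a (CT.c CT.l (CT.d CT.l CT.l)) (CT.a (CT.c CT.l (CT.d CT.l CT.l)) (CT.b (CT.d CT.l CT.l) (CT.d CT.l CT.l)))))) (CT.c CT.l (CT.c CT.l (CT.a (CT.a (CT.b CT.l CT.l) (CT.b CT.l CT.l)) (CT.a (CT.c CT.l (CT.d CT.l CT.l)) (CT.b (CT.d CT.l CT.l) (CT.d CT.l CT.l)))))))))) 549755813888 549755813888 824633720832 412316860416 0 1099511627776 824633720832 206158430208 = true := by decide +kernel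

theorem chkG_52 : chk testGX (CT.a (CT.a (CT.b (CT.c CT.l (CT.c CT.l (CT.a (CT.b CT.l CT.l) (CT.b CT.l CT.l)))) (CT.c CT.l (CT.c CT.l (CT.a (CT.b CT.l CT.l) (CT.b CT.l CT.l))))) (CT.b (CT.c CT.l (CT.c CT.l (CT.a (CT.b CT.l CT.l) (CT.b CT.l (CT.a CT.l CT.l))))) (CT.c CT.l (CT.a (CT.b (CT.d CT.l CT.l) (CT.d CT.l CT.l)) (CT.b (CT.d CT.l CT.l) (CT.d CT.l CT.l)))))) (CT.a (CT.b (CT.c CT.l (CT.c (CT.a CT.l CT.l) (CT.a (CT.c CT.l (CT.b CT.l CT.l)) (CT.b (CT.a CT.l CT.l) (CT.b CT.l CT.l))))) (CT.c CT.l (CT.a (CT.c CT.l (CT.a (CT.b CT.l CT.l) (CT.b CT.l CT.l))) (CT.c CT.l (CT.b (CT.d CT.l CT.l) (CT.d CT.l CT.l)))))) (CT.c (CT.a (CT.b CT.l CT.l) (CT.b CT.l CT.l)) (CT.b (CT.b (CT.a (CT.c CT.l (CT.d CT.l CT.l)) (CT.c CT.l (CT.c CT.l (CT.b (CT.d CT.l CT.l) (CT.d CT.l CT.l))))) (CT.c CT.l (CT.a (CT.c CT.l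 (CT.d CT.l CT.l)) (CT.c CT.l (CT.b (CT.d CT.l CT.l) (CT.d CT.l CT.l)))))) (CT.a (CT.b (CT.c CT.l (CT.c CT.l (CT.d CT.l CT.l))) (CT.c CT.l (CT.c CT.l (CT.d CT.l CT.l)))) (CT.b (CT.c CT.l (CT.a (CT.d CT.l CT.l) (CT.b (CT.d CT.l CT.l) (CT.d CT.l CT.l)))) (CT.c CT.l (CT.a (CT.d CT.l CT.l) (CT.b (CT.d CT.l CT.l) (CT.d CT.l CT.l)))))))))) 549755813888 549755813888 824633720832 412316860416 0 1099511627776 1030792151040 206158430208 = true := by decide +kernel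

theorem chkG_53 : chk testGX (CT.d (CT.a (CT.c CT.l (CT.b (CT.c CT.l (CT.a (CT.a CT.l CT.l) (CT.b CT.l CT.l))) (CT.c CT.l (CT.a (CT.a CT.l CT.l) (CT.b CT.l CT.l))))) (CT.b (CT.c CT.l (CT.c CT.l (CT.a (CT.b CT.l CT.l) (CT.c CT.l (CT.b CT.l CT.l))))) (CT.c CT.l (CT.c CT.l (CT.a (CT.c CT.l (CT.b CT.l CT.l)) (CT.a (CT.b CT.l CT.l) (CT.b CT.l CT.l))))))) (CT.c (CT.a (CT.a CT.l CT.l) (CT.b CT.l CT.l)) (CT.c (CT.a (CT.b CT.l CT.l) (CT.a (CT.b CT.l CT.l) (CT.b CT.l CT.l))) (CT.a (CT.a (CT.b (CT.b CT.l (CT.a CT.l CT.l)) (CT.c CT.l (CT.b CT.l CT.l))) (CT.b (CT.c CT.l (CT.b CT.l CT.l)) (CT.c CT.l (CT.b CT.l CT.l)))) (CT.a (CT.b (CT.c CT.l (CT.b CT.l CT.l)) (CT.a (CT.b CT.l CT.l) (CT.b CT.l CT.l))) (CT.a (CT.b (CT.b CT.l CT.l) (CT.b CT.l CT.l)) (CT.b (CT.b CT.l CT.l) (CT.b CT.l CT.l)))))))) 549755813888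 274877906944 1236950581248 412316860416 0 1099511627776 824633720832 412316860416 = true := by decide +kernel

end Vale.Agent.Lib.P154E
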