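import Vale.Agent.Lib.P154E.ETProg

/-!
Generated kernel checks of the Taylor model box tests for `G`.
-/

namespace Vale.Agent.Lib.P154E

open Vale.Agent.Lib.P154

theorem chkG_54 : chk testGX (CT.d (CT.b (CT.c CT.l (CT.a (CT.c CT.l (CT.a (CT.b CT.l CT.l) (CT.b CT.l CT.l))) (CT.c CT.l (CT.b (CT.d CT.l CT.l) (CT.c CT.l (CT.a CT.l CT.l)))))) (CT.c CT.l (CT.a (CT.c CT.l (CT.a (CT.b CT.l CT.l) (CT.b CT.l (CT.a CT.l CT.l)))) (CT.c CT.l (CT.a (CT.a (CT.b CT.l CT.l) (CT.b CT.l CT.l)) (CT.b (CT.b CT.l CT.l) (CT.b CT.l CT.l))))))) (CT.b (CT.c CT.l (CT.b (CT.c CT.l (CT.a (CT.a CT.l CT.l) (CT.c CT.l (CT.a CT.l CT.l)))) (CT.c CT.l (CT.a (CT.a CT.l CT.l) (CT.c CT.l (CT.a CT.l CT.l)))))) (CT.c (CT.a CT.l CT.l) (CT.c (CT.a CT.l CT.l) (CT.a (CT.a (CT.b CT.l (CT.a CT.l CT.l)) (CT.c CT.l (CT.b CT.l CT.l))) (CT.a (CT.b (CT.a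 CT.l CT.l) (CT.b CT.l CT.l)) (CT.b (CT.b CT.l CT.l) (CT.b CT.l (CT.a CT.l CT.l))))))))) 824633720832 137438953472 1236950581248 412316860416 0 1099511627776 824633720832 412316860416 = true := by decide +kernel

theorem chkG_55 : chk testGX (CT.a (CT.d (CT.c CT.l (CT.c CT.l (CT.a (CT.b (CT.b CT.l CT.l) (CT.b CT.l CT.l)) (CT.b (CT.b CT.l CT.l) (CT.c CT.l (CT.b CT.l CT.l)))))) (CT.c CT.l (CT.a (CT.c CT.l (CT.b (CT.b CT.l CT.l) (CT.b CT.l CT.l))) (CT.c CT.l (CT.b (CT.b CT.l CT.l) (CT.d CT.l CT.l)))))) (CT.c (CT.d CT.l CT.l) (CT.c (CT.b (CT.d CT.l CT.l) (CT.d CT.l CT.l)) (CT.c (CT.b (CT.d CT.l CT.l) (CT.d CT.l (CT.a CT.l CT.l))) (CT.a (CT.b (CT.d (CT.c CT.l (CT.b CT.l CT.l)) (CT.b CT.l CT.l)) (CT.c (CT.d CT.l CT.l) (CT.b (CT.d CT.l CT.l) (CT.d (CT.a CT.l CT.l) CT.l)))) (CT.b (CT.b (CT.d (CT.d CT.l CT.l) (CT.d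 CT.l CT.l)) (CT.d (CT.d CT.l CT.l) (CT.d CT.l CT.l))) (CT.b (CT.d (CT.d CT.l CT.l) (CT.d CT.l CT.l)) (CT.d (CT.c CT.l (CT.d CT.l CT.l)) (CT.d CT.l CT.l))))))))) 962072674304 137438953472 1236950581248 206158430208 0 1099511627776 824633720832 412316860416 = true := by decide +kernel

theorem chkG_56 : chk testGX (CT.b (CT.c CT.l (CT.b (CT.c CT.l (CT.a (CT.a CT.l (CT.a CT.l CT.l)) (CT.a (CT.d CT.l CT.l) (CT.a (CT.b CT.l CT.l) (CT.d CT.l CT.l))))) (CT.a (CT.a (CT.a CT.l CT.l) (CT.d CT.l CT.l)) (CT.c CT.l (CT.c CT.l (CT.a (CT.a CT.l CT.l) (CT.a (CT.b CT.l CT.l) (CT.c CT.l (CT.b CT.l CT.l))))))))) (CT.c (CT.a CT.l CT.l) (CT.c (CT.a CT.l (CT.a CT.l CT.l)) (CT.c (CT.a CT.l (CT.a CT.l (CT.a CT.l CT.l))) (CT.a (CT.a (CT.b CT.l (CT.a CT.l CT.l)) (CT.a (CT.b CT.l CT.l) (CT.b CT.l CT.l))) (CT.a (CT.a (CT.b CT.l (CT.a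 CT.l CT.l)) (CT.b (CT.a CT.l CT.l) (CT.b CT.l CT.l))) (CT.a (CT.b (CT.b CT.l CT.l) (CT.b (CT.a CT.l CT.l) (CT.b CT.l CT.l))) (CT.a (CT.b (CT.b CT.l CT.l) (CT.b CT.l (CT.b CT.l CT.l))) (CT.c (CT.b CT.l CT.l) (CT.b (CT.b CT.l CT.l) (CT.c CT.l (CT.d CT.l CT.l)))))))))))) 962072674304 137438953472 1443109011456 206158430208 0 1099511627776 824633720832 206158430208 = true := by decide +kernel

theorem chkG_57 : chk testGX (CT.a (CT.c CT.l (CT.b (CT.a (CT.c CT.l (CT.d CT.l CT.l)) (CT.b (CT.d CT.l CT.l) (CT.d CT.l CT.l))) (CT.a (CT.b (CT.d CT.l CT.l) (CT.d CT.l CT.l)) (CT.c CT.l (CT.a (CT.b CT.l CT.l) (CT.b CT.l (CT.a CT.l CT.l))))))) (CT.b (CT.c CT.l (CT.c CT.l (CT.a (CT.b (CT.d CT.l CT.l) (CT.d CT.l CT.l)) (CT.a (CT.b (CT.b CT.l CT.l) (CT.b CT.l CT.l)) (CT.b (CT.d CT.l CT.l) (CT.c CT.l (CT.d CT.l CT.l)))))))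 (CT.c (CT.a CT.l CT.l) (CT.c (CT.a CT.l CT.l) (CT.a (CT.c CT.l (CT.b (CT.d CT.l CT.l) (CT.a (CT.a CT.l CT.l) (CT.d CT.l CT.l)))) (CT.a (CT.b (CT.d CT.l CT.l) (CT.b (CT.a CT.l CT.l) (CT.d CT.l CT.l))) (CT.b (CT.b (CT.d CT.l CT.l) (CT.d CT.l CT.l)) (CT.a (CT.c CT.l (CT.b CT.l (CT.b CT.l CT.l))) (CT.b (CT.d CT.l CT.l) (CT.c CT.l (CT.c CT.l (CT.d CT.l CT.l)))))))))))) 962072674304 137438953472 1443109011456 206158430208 0 1099511627776 1030792151040 206158430208 = true := by decide +kernel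

end Vale.Agent.Lib.P154E
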