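import Vale.Agent.Lib.P154E.ETProg

/-!
Generated kernel checks of the Taylor model box tests for `G`.
-/

namespace Vale.Agent.Lib.P154E

open Vale.Agent.Lib.P154

theorem chkG_58 : chk testGX (CT.a (CT.b (CT.b (CT.c CT.l (CT.c CT.l (CT.d (CT.c CT.l (CT.a CT.l CT.l)) (CT.a (CT.b CT.l CT.l) (CT.b CT.l CT.l))))) (CT.c CT.l (CT.a (CT.c CT.l (CT.b (CT.d CT.l CT.l) (CT.d CT.l CT.l))) (CT.c CT.l (CT.b (CT.d CT.l CT.l) (CT.d CT.l CT.l)))))) (CT.a (CT.c CT.l (CT.b (CT.c CT.l (CT.b (CT.d CT.l CT.l) (CT.d CT.l CT.l))) (CT.c CT.l (CT.b (CT.d CT.l CT.l) (CT.c CT.l (CT.a CT.l CT.l)))))) (CT.c CT.l (CT.b (CT.c CT.l (CT.b (CT.d CT.l CT.l) (CT.d CT.l CT.l))) (CT.c CT.l (CT.d (CT.a CT.l CT.l) (CT.c CT.l (CT.b CT.l CT.l)))))))) (CT.b (CT.b (CT.c CT.l (CT.a (CT.c CT.l (CT.b (CT.d CT.l CT.l) (CT.d CT.l CT.l))) (CT.c CT.l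 (CT.b (CT.d CT.l CT.l) (CT.d CT.l CT.l))))) (CT.c CT.l (CT.a (CT.c CT.l (CT.b (CT.d CT.l CT.l) (CT.d CT.l CT.l))) (CT.c CT.l (CT.b (CT.d CT.l CT.l) (CT.d CT.l CT.l)))))) (CT.b (CT.c CT.l (CT.a (CT.c CT.l (CT.b (CT.d CT.l CT.l) (CT.c CT.l (CT.a CT.l CT.l)))) (CT.c CT.l (CT.d (CT.b CT.l CT.l) (CT.c CT.l (CT.b CT.l CT.l)))))) (CT.c CT.l (CT.a (CT.c CT.l (CT.d (CT.b CT.l CT.l) (CT.c CT.l (CT.b CT.l CT.l)))) (CT.c CT.l (CT.b (CT.c CT.l (CT.d CT.l CT.l)) (CT.a (CT.a CT.l CT.l) (CT.b CT.l CT.l))))))))) 549755813888 274877906944 824633720832 824633720832 0 1099511627776 1236950581248 206158430208 = true := by decide +kernel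

theorem chkG_59 : chk testGX (CT.b (CT.b (CT.c CT.l (CT.a (CT.c CT.l (CT.b (CT.d CT.l CT.l) (CT.d CT.l CT.l))) (CT.c CT.l (CT.d (CT.b CT.l CT.l) (CT.c CT.l (CT.b CT.l CT.l)))))) (CT.c CT.l (CT.a (CT.c CT.l (CT.d (CT.b CT.l CT.l) (CT.c CT.l (CT.b CT.l CT.l)))) (CT.c CT.l (CT.b (CT.c CT.l (CT.d CT.l CT.l)) (CT.c CT.l (CT.d CT.l CT.l))))))) (CT.b (CT.b (CT.c CT.l (CT.c CT.l (CT.a (CT.c CT.l (CT.d CT.l CT.l)) (CT.a (CT.b CT.l CT.l) (CT.b CT.l CT.l))))) (CT.c CT.l (CT.c CT.l (CT.a (CT.c CT.l (CT.d CT.l CT.l)) (CT.a (CT.b CT.l CT.l) (CT.d CT.l CT.l)))))) (CT.a (CT.c CT.l (CT.c CT.l (CT.a (CT.b (CT.b CT.l CT.l) (CT.b CT.l CT.l)) (CT.b (CT.b CT.l CT.l) (CT.d CT.l CT.l))))) (CT.c CT.l (CT.c (CT.a CT.l CT.l) (CT.b (CT.a (CT.d CT.l CT.l) (CT.c CT.l (CT.b CT.l CT.l))) (CT.c CT.l (CT.a (CT.b CT.l CT.l) (CT.c CT.l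 (CT.b CT.l CT.l)))))))))) 824633720832 137438953472 824633720832 824633720832 0 1099511627776 1236950581248 206158430208 = true := by decide +kernel

theorem chkG_60 : chk testGX (CT.b (CT.a (CT.c CT.l (CT.b (CT.c CT.l (CT.c CT.l (CT.d CT.l CT.l))) (CT.c CT.l (CT.a (CT.b CT.l CT.l) (CT.d CT.l CT.l))))) (CT.b (CT.c CT.l (CT.c CT.l (CT.a (CT.d CT.l CT.l) (CT.b (CT.d CT.l CT.l) (CT.d CT.l CT.l))))) (CT.c CT.l (CT.c CT.l (CT.a (CT.c CT.l (CT.d CT.l CT.l)) (CT.b (CT.d CT.l CT.l) (CT.d CT.l CT.l))))))) (CT.b (CT.c CT.l (CT.a (CT.c CT.l (CT.a (CT.d CT.l CT.l) (CT.d CT.l CT.l))) (CT.c CT.l (CT.a (CT.c CT.l (CT.d CT.l CT.l)) (CT.b (CT.d CT.l CT.l) (CT.d CT.l CT.l)))))) (CT.c CT.l (CT.a (CT.c CT.l (CT.a (CT.d CT.l CT.l) (CT.d CT.l CT.l))) (CT.c CT.l (CT.a (CT.c CT.l (CT.d CT.l CT.l)) (CT.b (CT.d CT.l CT.l) (CT.d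 CT.l CT.l)))))))) 962072674304 137438953472 824633720832 412316860416 0 1099511627776 1236950581248 206158430208 = true := by decide +kernel

end Vale.Agent.Lib.P154E
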