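import Vale.Agent.Lib.P154E.ETProg

/-!
Generated kernel checks of the Taylor model box tests for `G`.
-/

namespace Vale.Agent.Lib.P154E

open Vale.Agent.Lib.P154

theorem chkG_61 : chk testGX (CT.b (CT.a (CT.c CT.l (CT.b (CT.c CT.l (CT.a (CT.d CT.l CT.l) (CT.c CT.l (CT.d CT.l CT.l)))) (CT.c CT.l (CT.a (CT.d CT.l CT.l) (CT.c CT.l (CT.d CT.l CT.l)))))) (CT.b (CT.c CT.l (CT.c CT.l (CT.a (CT.c CT.l (CT.d CT.l CT.l)) (CT.b (CT.d CT.l CT.l) (CT.c CT.l (CT.d CT.l CT.l)))))) (CT.c CT.l (CT.c CT.l (CT.a (CT.b (CT.d CT.l CT.l) (CT.d CT.l CT.l)) (CT.c CT.l (CT.b (CT.d CT.l CT.l) (CT.c CT.l (CT.d CT.l CT.l))))))))) (CT.a (CT.c (CT.a CT.l CT.l) (CT.c (CT.b CT.l CT.l) (CT.a (CT.b (CT.c CT.l (CT.d CT.l CT.l)) (CT.b (CT.d CT.l CT.l) (CT.d CT.l CT.l))) (CT.b (CT.a (CT.d CT.l CT.l) (CT.d CT.l CT.l)) (CT.b (CT.d CT.l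 CT.l) (CT.c CT.l (CT.d CT.l CT.l))))))) (CT.b (CT.c CT.l (CT.a (CT.c CT.l (CT.b (CT.d CT.l CT.l) (CT.d CT.l CT.l))) (CT.a (CT.b (CT.d CT.l CT.l) (CT.d CT.l CT.l)) (CT.c CT.l (CT.b (CT.d CT.l CT.l) (CT.c CT.l (CT.d CT.l CT.l))))))) (CT.c (CT.a CT.l CT.l) (CT.b (CT.c CT.l (CT.a (CT.c CT.l (CT.d CT.l CT.l)) (CT.a (CT.d CT.l CT.l) (CT.b (CT.d CT.l CT.l) (CT.d CT.l (CT.a CT.l CT.l)))))) (CT.b (CT.c CT.l (CT.a (CT.d CT.l CT.l) (CT.a (CT.d CT.l CT.l) (CT.a (CT.d CT.l CT.l) (CT.d CT.l CT.l))))) (CT.c CT.l (CT.a (CT.c CT.l (CT.d CT.l CT.l)) (CT.a (CT.d CT.l CT.l) (CT.a (CT.d CT.l CT.l) (CT.c CT.l (CT.c CT.l (CT.d CT.l (CT.c CT.l CT.l)))))))))))))) 962072674304 137438953472 1236950581248 412316860416 0 1099511627776 1236950581248 206158430208 = true := by decide +kernel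

theorem chkG_62 : chk testGX (CT.b (CT.a (CT.a (CT.b CT.l CT.l) (CT.b CT.l CT.l)) (CT.b (CT.a (CT.a CT.l CT.l) (CT.b CT.l CT.l)) (CT.c CT.l (CT.a CT.l (CT.a CT.l CT.l))))) (CT.a (CT.a (CT.b CT.l CT.l) (CT.b CT.l (CT.a CT.l CT.l))) (CT.a (CT.a (CT.b CT.l CT.l) (CT.b CT.l CT.l)) (CT.a (CT.b CT.l (CT.a CT.l CT.l)) (CT.b (CT.b CT.l CT.l) (CT.b CT.l (CT.a CT.l CT.l))))))) 549755813888 549755813888 824633720832 824633720832 0 549755813888 1443109011456 206158430208 = true := by decide +kernel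

theorem chkG_63 : chk testGX (CT.b (CT.a (CT.a (CT.a (CT.b CT.l CT.l) (CT.b CT.l CT.l)) (CT.b (CT.a CT.l CT.l) (CT.b CT.l CT.l))) (CT.a (CT.b (CT.c CT.l (CT.a CT.l CT.l)) (CT.a (CT.a CT.l CT.l) (CT.a CT.l CT.l))) (CT.a (CT.b (CT.b CT.l CT.l) (CT.b CT.l CT.l)) (CT.b (CT.b CT.l CT.l) (CT.b CT.l CT.l))))) (CT.a (CT.a (CT.a (CT.b CT.l CT.l) (CT.b CT.l CT.l)) (CT.a (CT.b CT.l CT.l) (CT.a (CT.b CT.l CT.l) (CT.b CT.l CT.l)))) (CT.a (CT.a (CT.a (CT.b CT.l CT.l) (CT.b CT.l CT.l)) (CT.b (CT.a CT.l CT.l) (CT.b CT.l CT.l))) (CT.a (CT.b (CT.b CT.l CT.l) (CT.b CT.l (CT.a CT.l CT.l))) (CT.a (CT.b (CT.b CT.l CT.l) (CT.b CT.l (CT.a CT.l CT.l))) (CT.b (CT.b CT.l CT.l) (CT.b CT.l (CT.d CT.l CT.l)))))))) 549755813888 549755813888 824633720832 824633720832 549755813888 274877906944 1443109011456 206158430208 = true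 := by decide +kernel

theorem chkG_64 : chk testGX (CT.a (CT.b (CT.d (CT.b (CT.c CT.l (CT.b CT.l CT.l)) (CT.c CT.l (CT.b CT.l CT.l))) (CT.b (CT.c CT.l (CT.a (CT.c CT.l (CT.b CT.l CT.l)) (CT.c CT.l (CT.b CT.l CT.l)))) (CT.c CT.l (CT.b (CT.d CT.l (CT.a CT.l CT.l)) (CT.d CT.l (CT.a CT.l CT.l)))))) (CT.d (CT.a (CT.b (CT.b CT.l CT.l) (CT.b CT.l CT.l)) (CT.b (CT.b CT.l CT.l) (CT.b CT.l CT.l))) (CT.b (CT.c CT.l (CT.d (CT.c CT.l (CT.b CT.l CT.l)) (CT.a (CT.b CT.l CT.l) (CT.b CT.l CT.l)))) (CT.a (CT.c CT.l (CT.b (CT.b CT.l CT.l) (CT.b CT.l CT.l))) (CT.c CT.l (CT.b (CT.b CT.l CT.l) (CT.b CT.l CT.l))))))) (CT.b (CT.d (CT.b (CT.c CT.l (CT.b CT.l CT.l)) (CT.a (CT.b CT.l CT.l) (CT.b CT.l CT.l))) (CT.b (CT.c CT.l (CT.a (CT.c CT.l (CT.b CT.l CT.l)) (CT.c CT.l (CT.b CT.l CT.l)))) (CT.c CT.l (CT.b (CT.d CT.l (CT.a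 CT.l CT.l)) (CT.a (CT.a CT.l CT.l) (CT.a CT.l CT.l)))))) (CT.b (CT.b (CT.c CT.l (CT.a (CT.d CT.l (CT.b CT.l CT.l)) (CT.d CT.l (CT.b CT.l CT.l)))) (CT.c CT.l (CT.a (CT.d CT.l (CT.b CT.l CT.l)) (CT.d CT.l (CT.b CT.l CT.l))))) (CT.b (CT.c CT.l (CT.a (CT.d CT.l (CT.b CT.l CT.l)) (CT.d CT.l (CT.b CT.l CT.l)))) (CT.c CT.l (CT.a (CT.d CT.l (CT.b CT.l CT.l)) (CT.d CT.l (CT.b CT.l CT.l)))))))) 549755813888 137438953472 824633720832 824633720832 824633720832 274877906944 1443109011456 206158430208 = true := by decide +kernel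

end Vale.Agent.Lib.P154E
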