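import Vale.Agent.Lib.P154E.ETProg

/-!
Generated kernel checks of the Taylor model box tests for `G`.
-/

namespace Vale.Agent.Lib.P154E

open Vale.Agent.Lib.P154

theorem chkG_65 : chk testGX (CT.a (CT.b (CT.d (CT.b (CT.c CT.l (CT.b CT.l CT.l)) (CT.a (CT.b CT.l CT.l) (CT.b CT.l CT.l))) (CT.b (CT.c CT.l (CT.a (CT.c CT.l (CT.b CT.l CT.l)) (CT.c CT.l (CT.b CT.l CT.l)))) (CT.b (CT.c CT.l (CT.d CT.l (CT.a CT.l CT.l))) (CT.c CT.l (CT.a (CT.a CT.l CT.l) (CT.a CT.l CT.l)))))) (CT.b (CT.b (CT.c CT.l (CT.a (CT.d CT.l (CT.b CT.l CT.l)) (CT.d CT.l (CT.b CT.l CT.l)))) (CT.c CT.l (CT.a (CT.d CT.l (CT.b CT.l CT.l)) (CT.d CT.l (CT.b CT.l CT.l))))) (CT.b (CT.c CT.l (CT.a (CT.d CT.l (CT.b CT.l CT.l)) (CT.d CT.l (CT.b CT.l CT.l)))) (CT.c CT.l (CT.a (CT.d CT.l (CT.b CT.l CT.l)) (CT.d CT.l (CT.b CT.l CT.l)))))))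 (CT.b (CT.b (CT.d (CT.c CT.l (CT.b CT.l CT.l)) (CT.c CT.l (CT.b (CT.c CT.l (CT.a CT.l CT.l)) (CT.d CT.l (CT.a CT.l CT.l))))) (CT.b (CT.c CT.l (CT.a (CT.d CT.l (CT.a CT.l CT.l)) (CT.d CT.l (CT.a CT.l CT.l)))) (CT.c CT.l (CT.a (CT.d CT.l (CT.a CT.l CT.l)) (CT.d CT.l (CT.b CT.l CT.l)))))) (CT.b (CT.b (CT.c CT.l (CT.a (CT.d CT.l (CT.b CT.l CT.l)) (CT.d CT.l (CT.b CT.l CT.l)))) (CT.c CT.l (CT.a (CT.d CT.l (CT.b CT.l CT.l)) (CT.d CT.l (CT.b CT.l CT.l))))) (CT.b (CT.c CT.l (CT.a (CT.d CT.l (CT.b CT.l CT.l)) (CT.d CT.l (CT.b CT.l CT.l)))) (CT.a (CT.c CT.l (CT.d CT.l (CT.b CT.l (CT.a CT.l CT.l)))) (CT.a (CT.d CT.l (CT.b CT.l CT.l)) (CT.d CT.l (CT.b CT.l CT.l)))))))) 687194767360 137438953472 824633720832 824633720832 824633720832 274877906944 1443109011456 206158430208 = true := by decide +kernel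

theorem chkG_66 : chk testGX (CT.a (CT.a (CT.b (CT.b (CT.b CT.l CT.l) (CT.b CT.l CT.l)) (CT.b (CT.b CT.l (CT.a CT.l CT.l)) (CT.a (CT.b CT.l CT.l) (CT.b CT.l CT.l)))) (CT.b (CT.b (CT.b CT.l CT.l) (CT.a (CT.b CT.l CT.l) (CT.b CT.l CT.l))) (CT.a (CT.b (CT.b CT.l CT.l) (CT.b CT.l CT.l)) (CT.b (CT.b CT.l CT.l) (CT.b CT.l CT.l))))) (CT.a (CT.b (CT.a (CT.b (CT.b CT.l CT.l) (CT.b CT.l CT.l)) (CT.b (CT.b CT.l CT.l) (CT.b CT.l CT.l))) (CT.b (CT.a (CT.b CT.l CT.l) (CT.b CT.l CT.l)) (CT.b (CT.d CT.l CT.l) (CT.d CT.l (CT.a CT.l CT.l))))) (CT.b (CT.b (CT.b (CT.d CT.l CT.l) (CT.d CT.l CT.l)) (CT.b (CT.d CT.l CT.l) (CT.d CT.l CT.l))) (CT.b (CT.b (CT.d CT.l (CT.a CT.l CT.l)) (CT.d CT.l (CT.a CT.l CT.l))) (CT.a (CT.b (CT.b CT.l CT.l) (CT.d CT.l CT.l)) (CT.b (CT.d CT.l CT.l) (CT.b (CT.d CT.l CT.l) (CT.d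 CT.l CT.l)))))))) 824633720832 274877906944 824633720832 824633720832 824633720832 137438953472 1443109011456 206158430208 = true := by decide +kernel

theorem chkG_67 : chk testGX (CT.d (CT.a (CT.b (CT.b (CT.b CT.l (CT.a CT.l CT.l)) (CT.a (CT.b CT.l CT.l) (CT.b CT.l CT.l))) (CT.a (CT.b (CT.b CT.l CT.l) (CT.b CT.l CT.l)) (CT.b (CT.b CT.l CT.l) (CT.b CT.l (CT.a CT.l CT.l))))) (CT.a (CT.b (CT.b (CT.b CT.l CT.l) (CT.b CT.l CT.l)) (CT.b (CT.b CT.l CT.l) (CT.a (CT.b CT.l CT.l) (CT.b CT.l CT.l)))) (CT.b (CT.b (CT.b CT.l CT.l) (CT.b CT.l CT.l)) (CT.b (CT.b CT.l CT.l) (CT.b (CT.a CT.l CT.l) (CT.b CT.l CT.l)))))) (CT.a (CT.a (CT.b (CT.b (CT.a (CT.b CT.l CT.l) (CT.b CT.l CT.l)) (CT.b (CT.a CT.l CT.l) (CT.b CT.l CT.l))) (CT.b (CT.b (CT.b CT.l CT.l) (CT.b CT.l CT.l)) (CT.b (CT.b CT.l (CT.a CT.l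 CT.l)) (CT.c CT.l (CT.b CT.l CT.l))))) (CT.b (CT.b (CT.a (CT.b CT.l CT.l) (CT.b CT.l CT.l)) (CT.b (CT.a CT.l CT.l) (CT.b CT.l CT.l))) (CT.b (CT.b (CT.b CT.l CT.l) (CT.b CT.l (CT.a CT.l CT.l))) (CT.b (CT.c CT.l (CT.b CT.l CT.l)) (CT.a (CT.b CT.l CT.l) (CT.b CT.l CT.l)))))) (CT.b (CT.a (CT.b (CT.a (CT.b CT.l CT.l) (CT.b CT.l CT.l)) (CT.b (CT.b CT.l CT.l) (CT.b CT.l CT.l))) (CT.b (CT.a (CT.b CT.l CT.l) (CT.b CT.l CT.l)) (CT.b (CT.b CT.l CT.l) (CT.b CT.l (CT.a CT.l CT.l))))) (CT.a (CT.b (CT.b (CT.b CT.l CT.l) (CT.c CT.l (CT.b CT.l CT.l))) (CT.b (CT.d CT.l (CT.b CT.l CT.l)) (CT.a (CT.b CT.l CT.l) (CT.b CT.l CT.l)))) (CT.b (CT.b (CT.c CT.l (CT.b CT.l CT.l)) (CT.d CT.l (CT.a CT.l CT.l))) (CT.b (CT.a (CT.b CT.l CT.l) (CT.b CT.l CT.l)) (CT.b (CT.d CT.l CT.l) (CT.c CT.l (CT.d CT.l CT.l)))))))))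 824633720832 137438953472 824633720832 824633720832 962072674304 137438953472 1443109011456 206158430208 = true := by decide +kernel

end Vale.Agent.Lib.P154E
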