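import Vale.Agent.Lib.P154E.ETProg

/-!
Generated kernel checks of the Taylor model box tests for `G`.
-/

namespace Vale.Agent.Lib.P154E

open Vale.Agent.Lib.P154

theorem chkG_68 : chk testGX (CT.a (CT.a (CT.b (CT.b (CT.b CT.l CT.l) (CT.b CT.l CT.l)) (CT.b (CT.b CT.l (CT.a CT.l CT.l)) (CT.b (CT.a CT.l CT.l) (CT.b CT.l CT.l)))) (CT.b (CT.b (CT.b CT.l CT.l) (CT.b CT.l CT.l)) (CT.b (CT.a (CT.b CT.l CT.l) (CT.b CT.l CT.l)) (CT.b (CT.b CT.l CT.l) (CT.b CT.l (CT.a CT.l CT.l)))))) (CT.a (CT.b (CT.b (CT.b CT.l (CT.a CT.l CT.l)) (CT.a (CT.b CT.l CT.l) (CT.b CT.l CT.l))) (CT.b (CT.b (CT.a CT.l CT.l) (CT.b CT.l CT.l)) (CT.b (CT.b CT.l (CT.a CT.l CT.l)) (CT.a (CT.b CT.l CT.l) (CT.b CT.l (CT.a CT.l CT.l)))))) (CT.b (CT.b (CT.b (CT.d CT.l CT.l) (CT.d CT.l CT.l)) (CT.a (CT.b CT.l CT.l) (CT.b (CT.b CT.l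 CT.l) (CT.b CT.l CT.l)))) (CT.b (CT.a (CT.b (CT.a CT.l CT.l) (CT.b CT.l CT.l)) (CT.b (CT.b CT.l CT.l) (CT.b CT.l CT.l))) (CT.b (CT.a (CT.b CT.l CT.l) (CT.a (CT.b CT.l CT.l) (CT.b CT.l CT.l))) (CT.b (CT.a (CT.a CT.l CT.l) (CT.a CT.l (CT.b CT.l CT.l))) (CT.b (CT.a CT.l (CT.a CT.l (CT.d CT.l CT.l))) (CT.c CT.l (CT.c CT.l (CT.a CT.l CT.l)))))))))) 962072674304 137438953472 824633720832 824633720832 962072674304 137438953472 1443109011456 103079215104 = true := by decide +kernel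

theorem chkG_69 : chk testGX (CT.a (CT.b (CT.b (CT.b (CT.a CT.l CT.l) (CT.b CT.l CT.l)) (CT.b (CT.c CT.l (CT.b CT.l CT.l)) (CT.c CT.l (CT.b CT.l CT.l)))) (CT.b (CT.b (CT.d CT.l (CT.a CT.l CT.l)) (CT.d CT.l (CT.b CT.l CT.l))) (CT.b (CT.a (CT.b CT.l CT.l) (CT.b CT.l (CT.a CT.l CT.l))) (CT.b (CT.c CT.l (CT.d CT.l CT.l)) (CT.d CT.l (CT.a CT.l CT.l)))))) (CT.b (CT.b (CT.b (CT.c CT.l (CT.a CT.l CT.l)) (CT.d CT.l (CT.a CT.l CT.l))) (CT.b (CT.d CT.l (CT.a CT.l CT.l)) (CT.d CT.l (CT.a CT.l CT.l)))) (CT.b (CT.b (CT.d CT.l (CT.b CT.l CT.l)) (CT.b (CT.d CT.l CT.l) (CT.d CT.l CT.l))) (CT.b (CT.a (CT.d CT.l (CT.b CT.l CT.l)) (CT.d CT.l (CT.b CT.l CT.l))) (CT.b (CT.d CT.l (CT.a CT.l CT.l)) (CT.c CT.l (CT.d CT.l (CT.a CT.l CT.l)))))))) 962072674304 68719476736 824633720832 824633720832 962072674304 137438953472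 1546188226560 103079215104 = true := by decide +kernel

theorem chkG_70 : chk testGX (CT.a (CT.b (CT.b (CT.b (CT.d CT.l (CT.a CT.l CT.l)) (CT.d CT.l (CT.a CT.l CT.l))) (CT.b (CT.d CT.l (CT.a CT.l CT.l)) (CT.c CT.l (CT.d CT.l (CT.a CT.l CT.l))))) (CT.b (CT.b (CT.c CT.l (CT.d CT.l (CT.a CT.l (CT.a CT.l CT.l)))) (CT.a (CT.d CT.l (CT.b CT.l CT.l)) (CT.d CT.l (CT.b CT.l CT.l)))) (CT.b (CT.b (CT.d CT.l (CT.a CT.l CT.l)) (CT.c CT.l (CT.d CT.l (CT.a CT.l CT.l)))) (CT.b (CT.c CT.l (CT.d CT.l (CT.a CT.l CT.l))) (CT.d (CT.a CT.l (CT.a CT.l CT.l)) (CT.c CT.l (CT.c CT.l CT.l))))))) (CT.b (CT.c (CT.b (CT.b CT.l CT.l) (CT.b CT.l CT.l)) (CT.b (CT.b (CT.b (CT.c CT.l CT.l) (CT.c CT.l CT.l)) (CT.a (CT.d CT.l (CT.a CT.l CT.l)) (CT.d CT.l (CT.c CT.l CT.l)))) (CT.d (CT.a (CT.b CT.l CT.l) (CT.b CT.l CT.l)) (CT.b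 (CT.b CT.l (CT.a CT.l CT.l)) (CT.c CT.l (CT.b CT.l CT.l)))))) (CT.b (CT.a (CT.b (CT.d CT.l (CT.b CT.l CT.l)) (CT.c CT.l (CT.d CT.l (CT.b CT.l (CT.a CT.l CT.l))))) (CT.c (CT.b CT.l CT.l) (CT.b (CT.b (CT.c CT.l CT.l) (CT.d CT.l CT.l)) (CT.d (CT.b CT.l CT.l) (CT.c CT.l (CT.b CT.l CT.l)))))) (CT.c (CT.b (CT.b CT.l CT.l) (CT.b (CT.a CT.l CT.l) (CT.d CT.l CT.l))) (CT.b (CT.d (CT.a (CT.b CT.l CT.l) (CT.a (CT.b CT.l CT.l) (CT.b CT.l CT.l))) (CT.b (CT.a (CT.a CT.l CT.l) (CT.c CT.l CT.l)) (CT.c CT.l CT.l))) (CT.c (CT.b (CT.c (CT.a CT.l CT.l) (CT.d CT.l CT.l)) (CT.d CT.l CT.l)) (CT.a (CT.b CT.l CT.l) (CT.b CT.l CT.l)))))))) 1030792151040 68719476736 824633720832 824633720832 962072674304 137438953472 1546188226560 103079215104 = true := by decide +kernel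

end Vale.Agent.Lib.P154E
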