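import Vale.Agent.Lib.P154E.ETProg

/-!
Generated kernel checks of the Taylor model box tests for `G`.
-/

namespace Vale.Agent.Lib.P154E

open Vale.Agent.Lib.P154

theorem chkG_12 : chk testGX (CT.c (CT.b (CT.b CT.l CT.l) (CT.a CT.l (CT.a CT.l CT.l))) (CT.b (CT.a (CT.b (CT.c CT.l (CT.c CT.l (CT.a (CT.b CT.l CT.l) (CT.b CT.l CT.l)))) (CT.c CT.l (CT.a (CT.c CT.l (CT.b CT.l CT.l)) (CT.c CT.l (CT.b CT.l CT.l))))) (CT.b (CT.c CT.l (CT.a (CT.c CT.l (CT.b CT.l CT.l)) (CT.c CT.l (CT.b CT.l CT.l)))) (CT.c CT.l (CT.a (CT.c CT.l (CT.b CT.l CT.l)) (CT.c CT.l (CT.b CT.l CT.l)))))) (CT.b (CT.a (CT.c CT.l (CT.a (CT.c CT.l (CT.b CT.l CT.l)) (CT.a (CT.b CT.l CT.l) (CT.b CT.l CT.l)))) (CT.c CT.l (CT.a (CT.a (CT.b CT.l CT.l) (CT.b CT.l CT.l)) (CT.a (CT.b CT.l CT.l) (CT.b CT.l CT.l))))) (CT.a (CT.c CT.l (CT.a (CT.a (CT.b CT.l CT.l) (CT.b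 CT.l CT.l)) (CT.a (CT.b CT.l CT.l) (CT.b CT.l CT.l)))) (CT.c CT.l (CT.a (CT.a (CT.b CT.l CT.l) (CT.b CT.l CT.l)) (CT.a (CT.b CT.l CT.l) (CT.b CT.l CT.l)))))))) 274877906944 274877906944 824633720832 824633720832 0 1099511627776 1443109011456 103079215104 = true := by decide +kernel

theorem chkG_13 : chk testGX (CT.a (CT.b (CT.b (CT.c CT.l (CT.c CT.l (CT.a (CT.c CT.l (CT.a (CT.b CT.l CT.l) (CT.b CT.l CT.l))) (CT.c CT.l (CT.b (CT.b CT.l CT.l) (CT.c CT.l (CT.a CT.l CT.l))))))) (CT.c CT.l (CT.c CT.l (CT.a (CT.c CT.l (CT.a (CT.b CT.l CT.l) (CT.c CT.l (CT.b CT.l CT.l)))) (CT.c CT.l (CT.c CT.l (CT.a (CT.b CT.l CT.l) (CT.b CT.l CT.l)))))))) (CT.c CT.l (CT.b (CT.c CT.l (CT.a (CT.c CT.l (CT.a (CT.b CT.l CT.l) (CT.c CT.l (CT.b CT.l CT.l)))) (CT.c CT.l (CT.a (CT.c CT.l (CT.b CT.l CT.l)) (CT.c CT.l (CT.b CT.l CT.l)))))) (CT.c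 CT.l (CT.a (CT.c CT.l (CT.c CT.l (CT.a (CT.b CT.l CT.l) (CT.b CT.l CT.l)))) (CT.c CT.l (CT.a (CT.c CT.l (CT.b CT.l CT.l)) (CT.c CT.l (CT.b CT.l CT.l))))))))) (CT.b (CT.b (CT.c CT.l (CT.c CT.l (CT.d (CT.c CT.l (CT.a (CT.b CT.l CT.l) (CT.b CT.l CT.l))) (CT.c CT.l (CT.a (CT.c CT.l (CT.b CT.l CT.l)) (CT.c CT.l (CT.b CT.l CT.l))))))) (CT.c CT.l (CT.c CT.l (CT.a (CT.c CT.l (CT.a (CT.c CT.l (CT.b CT.l CT.l)) (CT.c CT.l (CT.b CT.l CT.l)))) (CT.c CT.l (CT.b (CT.c CT.l (CT.a CT.l CT.l)) (CT.d CT.l (CT.a CT.l CT.l)))))))) (CT.c CT.l (CT.b (CT.c CT.l (CT.a (CT.c CT.l (CT.b (CT.c CT.l (CT.a CT.l CT.l)) (CT.d CT.l (CT.a CT.l CT.l)))) (CT.c CT.l (CT.b (CT.d CT.l (CT.a CT.l CT.l)) (CT.d CT.l (CT.a CT.l CT.l)))))) (CT.c CT.l (CT.a (CT.c CT.l (CT.b (CT.d CT.l (CT.a CT.l CT.l)) (CT.d CT.l (CT.a CT.l CT.l)))) (CT.c CT.l (CT.b (CT.d CT.l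 (CT.a CT.l CT.l)) (CT.a (CT.b CT.l CT.l) (CT.b CT.l CT.l)))))))))) 0 274877906944 824633720832 824633720832 0 1099511627776 1546188226560 103079215104 = true := by decide +kernel

theorem chkG_14 : chk testGX (CT.b (CT.b CT.l (CT.a CT.l CT.l)) (CT.c CT.l (CT.a CT.l CT.l))) 274877906944 274877906944 824633720832 824633720832 0 549755813888 1546188226560 103079215104 = true := by decide +kernel

theorem chkG_15 : chk testGX (CT.a (CT.b (CT.b CT.l CT.l) (CT.b CT.l CT.l)) (CT.b (CT.b CT.l CT.l) (CT.a (CT.b CT.l CT.l) (CT.b CT.l CT.l)))) 274877906944 274877906944 824633720832 824633720832 549755813888 274877906944 1546188226560 103079215104 = true := by decide +kernel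

theorem chkG_16 : chk testGX (CT.a (CT.b (CT.b (CT.c CT.l (CT.d (CT.b CT.l CT.l) (CT.c CT.l (CT.b CT.l CT.l)))) (CT.c CT.l (CT.b (CT.c CT.l (CT.a CT.l CT.l)) (CT.d CT.l (CT.a CT.l CT.l))))) (CT.c (CT.b CT.l CT.l) (CT.d (CT.b (CT.b CT.l CT.l) (CT.c CT.l (CT.a CT.l CT.l))) (CT.a (CT.b (CT.b CT.l CT.l) (CT.b CT.l CT.l)) (CT.b (CT.b CT.l CT.l) (CT.b CT.l CT.l)))))) (CT.c (CT.b (CT.b CT.l CT.l) (CT.b CT.l CT.l)) (CT.d (CT.b (CT.b (CT.b CT.l CT.l) (CT.b CT.l CT.l)) (CT.b (CT.b CT.l (CT.a CT.l CT.l)) (CT.c CT.l (CT.b CT.l CT.l)))) (CT.a (CT.b (CT.b (CT.b CT.l CT.l) (CT.b CT.l CT.l)) (CT.b (CT.b CT.l CT.l) (CT.b CT.l (CT.a CT.l CT.l)))) (CT.b (CT.b (CT.b CT.l CT.l) (CT.b CT.l CT.l)) (CT.b (CT.b CT.l CT.l) (CT.b CT.l (CT.a CT.l CT.l)))))))) 274877906944 137438953472 824633720832 824633720832 824633720832 274877906944 1546188226560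 103079215104 = true := by decide +kernel

end Vale.Agent.Lib.P154E
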