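import Vale.Agent.Lib.P154E.ETProg

/-!
Generated kernel checks of the Taylor model box tests for `G`.
-/

namespace Vale.Agent.Lib.P154E

open Vale.Agent.Lib.P154

theorem chkG_17 : chk testGX (CT.a (CT.b (CT.b (CT.c CT.l (CT.d (CT.b CT.l CT.l) (CT.c CT.l (CT.b CT.l CT.l)))) (CT.c CT.l (CT.b (CT.d CT.l (CT.a CT.l CT.l)) (CT.d CT.l (CT.a CT.l CT.l))))) (CT.b (CT.c CT.l (CT.d (CT.c CT.l (CT.b CT.l CT.l)) (CT.a (CT.b CT.l CT.l) (CT.b CT.l CT.l)))) (CT.c CT.l (CT.a (CT.b (CT.b CT.l CT.l) (CT.b CT.l CT.l)) (CT.b (CT.b CT.l CT.l) (CT.b CT.l CT.l)))))) (CT.b (CT.b (CT.c CT.l (CT.a (CT.c CT.l (CT.b CT.l CT.l)) (CT.c CT.l (CT.b CT.l CT.l)))) (CT.c CT.l (CT.b (CT.d CT.l (CT.a CT.l CT.l)) (CT.d CT.l (CT.a CT.l CT.l))))) (CT.b (CT.c CT.l (CT.d (CT.c CT.l (CT.b CT.l CT.l)) (CT.a (CT.b CT.l CT.l) (CT.b CT.l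 CT.l)))) (CT.c CT.l (CT.a (CT.b (CT.b CT.l CT.l) (CT.b CT.l CT.l)) (CT.b (CT.b CT.l CT.l) (CT.b CT.l CT.l))))))) 412316860416 137438953472 824633720832 824633720832 824633720832 274877906944 1546188226560 103079215104 = true := by decide +kernel

theorem chkG_18 : chk testGX (CT.b (CT.d (CT.b (CT.c CT.l (CT.a (CT.a (CT.d CT.l CT.l) (CT.d CT.l CT.l)) (CT.b (CT.d CT.l CT.l) (CT.d CT.l CT.l)))) (CT.c CT.l (CT.a (CT.b (CT.d CT.l CT.l) (CT.d CT.l CT.l)) (CT.b (CT.c CT.l (CT.d CT.l CT.l)) (CT.a (CT.d CT.l CT.l) (CT.d CT.l CT.l)))))) (CT.b (CT.c CT.l (CT.c (CT.d CT.l CT.l) (CT.d (CT.d CT.l CT.l) (CT.a CT.l (CT.a CT.l CT.l))))) (CT.a (CT.c CT.l (CT.b (CT.d CT.l CT.l) (CT.d CT.l CT.l))) (CT.c CT.l (CT.c (CT.d CT.l CT.l) (CT.b (CT.d CT.l CT.l) (CT.d CT.l CT.l))))))) (CT.b (CT.d (CT.c CT.l (CT.a (CT.b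 (CT.c CT.l (CT.d CT.l CT.l)) (CT.c CT.l (CT.d CT.l CT.l))) (CT.b (CT.b (CT.d CT.l CT.l) (CT.d CT.l CT.l)) (CT.d (CT.b CT.l CT.l) (CT.d CT.l CT.l))))) (CT.b (CT.c CT.l (CT.a (CT.d CT.l CT.l) (CT.a (CT.d CT.l CT.l) (CT.d CT.l CT.l)))) (CT.c CT.l (CT.a (CT.c CT.l (CT.d CT.l CT.l)) (CT.d (CT.b CT.l CT.l) (CT.d CT.l CT.l)))))) (CT.c (CT.c CT.l (CT.d CT.l CT.l)) (CT.a (CT.d (CT.a (CT.b (CT.d CT.l CT.l) (CT.d CT.l CT.l)) (CT.b (CT.d CT.l CT.l) (CT.d CT.l CT.l))) (CT.b (CT.c CT.l (CT.d CT.l CT.l)) (CT.c CT.l (CT.d CT.l CT.l)))) (CT.d (CT.b (CT.c CT.l (CT.b (CT.d CT.l CT.l) (CT.d CT.l CT.l))) (CT.c CT.l (CT.d (CT.b CT.l CT.l) (CT.d CT.l CT.l)))) (CT.b (CT.d (CT.d CT.l CT.l) (CT.d CT.l CT.l)) (CT.c CT.l (CT.a (CT.d CT.l CT.l) (CT.d CT.l CT.l))))))))) 549755813888 274877906944 0 824633720832 0 1099511627776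 0 824633720832 = true := by decide +kernel

theorem chkG_19 : chk testGX (CT.d (CT.b (CT.b (CT.c CT.l (CT.a (CT.a CT.l CT.l) (CT.d CT.l CT.l))) (CT.c CT.l (CT.a (CT.d CT.l CT.l) (CT.c CT.l (CT.b CT.l CT.l))))) (CT.b (CT.c CT.l (CT.a (CT.c CT.l (CT.b CT.l CT.l)) (CT.b (CT.a CT.l CT.l) (CT.d CT.l CT.l)))) (CT.c CT.l (CT.a (CT.a (CT.b CT.l CT.l) (CT.b CT.l CT.l)) (CT.b (CT.d CT.l CT.l) (CT.c CT.l (CT.a CT.l CT.l))))))) (CT.b (CT.b (CT.c CT.l (CT.c CT.l (CT.a (CT.a CT.l CT.l) (CT.b CT.l CT.l)))) (CT.c CT.l (CT.a (CT.c CT.l (CT.b CT.l CT.l)) (CT.b (CT.a CT.l CT.l) (CT.d CT.l CT.l))))) (CT.b (CT.c CT.l (CT.a (CT.b (CT.a CT.l CT.l) (CT.d CT.l CT.l)) (CT.c CT.l (CT.a (CT.b CT.l CT.l) (CT.b CT.l CT.l))))) (CT.c CT.l (CT.a (CT.c CT.l (CT.a (CT.b CT.l CT.l) (CT.b CT.l CT.l))) (CT.c CT.l (CT.a (CT.b CT.l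 CT.l) (CT.b CT.l CT.l)))))))) 549755813888 274877906944 0 824633720832 0 1099511627776 824633720832 412316860416 = true := by decide +kernel

theorem chkG_20 : chk testGX (CT.b (CT.b (CT.c CT.l (CT.a (CT.c CT.l (CT.d CT.l (CT.a CT.l CT.l))) (CT.c CT.l (CT.a (CT.b CT.l CT.l) (CT.b CT.l CT.l))))) (CT.c CT.l (CT.a (CT.c CT.l (CT.a (CT.b CT.l CT.l) (CT.b CT.l CT.l))) (CT.c CT.l (CT.a (CT.b CT.l CT.l) (CT.b CT.l (CT.a CT.l CT.l))))))) (CT.c (CT.b CT.l (CT.a CT.l CT.l)) (CT.a (CT.c (CT.b CT.l CT.l) (CT.d (CT.b (CT.a CT.l CT.l) (CT.b CT.l CT.l)) (CT.b (CT.b CT.l (CT.a CT.l CT.l)) (CT.c CT.l (CT.b CT.l CT.l))))) (CT.c (CT.b CT.l (CT.a CT.l CT.l)) (CT.d (CT.b (CT.b CT.l CT.l) (CT.c CT.l (CT.a CT.l CT.l))) (CT.b (CT.c CT.l (CT.a CT.l CT.l)) (CT.a (CT.b CT.l CT.l) (CT.b CT.l CT.l)))))))) 549755813888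 274877906944 0 824633720832 0 1099511627776 1236950581248 206158430208 = true := by decide +kernel

end Vale.Agent.Lib.P154E
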