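import Vale.Agent.Lib.P154E.ETProg

/-!
Generated kernel checks of the Taylor model box tests for `G`.
-/

namespace Vale.Agent.Lib.P154E

open Vale.Agent.Lib.P154

theorem chkG_21 : chk testGX (CT.b (CT.b (CT.c CT.l (CT.c CT.l (CT.a (CT.c CT.l (CT.d CT.l (CT.b CT.l CT.l))) (CT.c CT.l (CT.d CT.l (CT.b CT.l CT.l)))))) (CT.c CT.l (CT.b (CT.c CT.l (CT.c CT.l (CT.a (CT.d CT.l CT.l) (CT.d CT.l CT.l)))) (CT.c CT.l (CT.a (CT.d CT.l (CT.a CT.l CT.l)) (CT.d CT.l (CT.a CT.l CT.l))))))) (CT.b (CT.c CT.l (CT.c CT.l (CT.d (CT.a (CT.b CT.l CT.l) (CT.b CT.l CT.l)) (CT.a (CT.c CT.l (CT.c CT.l (CT.b CT.l CT.l))) (CT.c CT.l (CT.a (CT.b CT.l CT.l) (CT.b CT.l CT.l))))))) (CT.c CT.l (CT.c (CT.a CT.l CT.l) (CT.c (CT.d CT.l (CT.a CT.l CT.l)) (CT.a (CT.b (CT.d CT.l (CT.a CT.l CT.l)) (CT.d CT.l (CT.a CT.l CT.l)))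 (CT.b (CT.d CT.l (CT.a CT.l CT.l)) (CT.d CT.l (CT.a CT.l CT.l))))))))) 549755813888 137438953472 0 824633720832 0 1099511627776 1443109011456 206158430208 = true := by decide +kernel

theorem chkG_22 : chk testGX (CT.b (CT.b (CT.c CT.l (CT.c CT.l (CT.a (CT.c CT.l (CT.d CT.l (CT.b CT.l CT.l))) (CT.a (CT.d CT.l (CT.b CT.l CT.l)) (CT.d CT.l (CT.b CT.l CT.l)))))) (CT.c CT.l (CT.a (CT.c CT.l (CT.b (CT.d CT.l (CT.a CT.l CT.l)) (CT.d CT.l (CT.a CT.l CT.l)))) (CT.c CT.l (CT.b (CT.d CT.l (CT.a CT.l CT.l)) (CT.d CT.l (CT.a CT.l CT.l))))))) (CT.b (CT.c CT.l (CT.d (CT.c CT.l (CT.a (CT.b CT.l CT.l) (CT.b CT.l CT.l))) (CT.c CT.l (CT.d (CT.a (CT.b CT.l CT.l) (CT.b CT.l CT.l)) (CT.c CT.l (CT.a (CT.b CT.l CT.l) (CT.b CT.l CT.l))))))) (CT.c CT.l (CT.a (CT.c CT.l (CT.b (CT.c CT.l (CT.d CT.l (CT.a CT.l CT.l)))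 (CT.c CT.l (CT.d CT.l (CT.a CT.l CT.l))))) (CT.c CT.l (CT.b (CT.c CT.l (CT.d CT.l (CT.a CT.l CT.l))) (CT.a (CT.d CT.l (CT.b CT.l CT.l)) (CT.d CT.l (CT.b CT.l CT.l))))))))) 687194767360 137438953472 0 824633720832 0 1099511627776 1443109011456 206158430208 = true := by decide +kernel

theorem chkG_23 : chk testGX (CT.d (CT.b (CT.c (CT.b CT.l CT.l) (CT.c (CT.b (CT.d CT.l CT.l) (CT.d CT.l CT.l)) (CT.a (CT.b (CT.d CT.l CT.l) (CT.d CT.l (CT.a CT.l CT.l))) (CT.b (CT.d (CT.b CT.l CT.l) (CT.d CT.l CT.l)) (CT.d (CT.d CT.l CT.l) (CT.d CT.l CT.l)))))) (CT.b (CT.c CT.l (CT.a (CT.d (CT.b CT.l CT.l) (CT.d CT.l CT.l)) (CT.c (CT.d CT.l CT.l) (CT.c (CT.d CT.l CT.l) (CT.d (CT.d CT.l CT.l) (CT.d CT.l (CT.a CT.l CT.l))))))) (CT.c CT.l (CT.c (CT.d CT.l (CT.a CT.l CT.l)) (CT.a (CT.d (CT.b CT.l CT.l) (CT.d CT.l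 CT.l)) (CT.b (CT.d (CT.d CT.l CT.l) (CT.d CT.l CT.l)) (CT.d (CT.d CT.l CT.l) (CT.c CT.l (CT.d CT.l CT.l))))))))) (CT.a (CT.b (CT.c CT.l (CT.c (CT.d CT.l CT.l) (CT.d (CT.d CT.l CT.l) (CT.d CT.l CT.l)))) (CT.b (CT.c CT.l (CT.d (CT.d CT.l CT.l) (CT.d CT.l CT.l))) (CT.c CT.l (CT.d (CT.d CT.l CT.l) (CT.d CT.l CT.l))))) (CT.b (CT.b (CT.c CT.l (CT.c (CT.d CT.l CT.l) (CT.d (CT.c CT.l (CT.d CT.l CT.l)) (CT.b (CT.d CT.l CT.l) (CT.d CT.l CT.l))))) (CT.c CT.l (CT.c (CT.d CT.l CT.l) (CT.d (CT.a (CT.b CT.l CT.l) (CT.d CT.l CT.l)) (CT.d (CT.b CT.l CT.l) (CT.d CT.l CT.l)))))) (CT.d (CT.c CT.l (CT.c (CT.b CT.l CT.l) (CT.b (CT.b (CT.d CT.l CT.l) (CT.d CT.l CT.l)) (CT.a (CT.d CT.l CT.l) (CT.b (CT.d CT.l CT.l) (CT.d CT.l CT.l)))))) (CT.c CT.l (CT.a (CT.b (CT.d CT.l CT.l) (CT.d CT.l CT.l)) (CT.b (CT.c CT.l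 (CT.b (CT.d CT.l CT.l) (CT.d CT.l CT.l))) (CT.c CT.l (CT.b (CT.d CT.l CT.l) (CT.d CT.l CT.l)))))))))) 824633720832 274877906944 0 412316860416 0 1099511627776 0 824633720832 = true := by decide +kernel

end Vale.Agent.Lib.P154E
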