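import Vale.Agent.Lib.P154E.ETProg

/-!
Generated kernel checks of the Taylor model box tests for `G`.
-/

namespace Vale.Agent.Lib.P154E

open Vale.Agent.Lib.P154

theorem chkG_24 : chk testGX (CT.b (CT.a (CT.b (CT.c CT.l (CT.d (CT.d CT.l CT.l) (CT.d CT.l CT.l))) (CT.c CT.l (CT.d (CT.d CT.l CT.l) (CT.c CT.l (CT.a CT.l CT.l))))) (CT.c (CT.c CT.l (CT.b CT.l CT.l)) (CT.a (CT.b (CT.d (CT.d CT.l CT.l) (CT.d CT.l CT.l)) (CT.d (CT.d CT.l CT.l) (CT.d CT.l CT.l))) (CT.b (CT.c (CT.d CT.l CT.l) (CT.c (CT.d CT.l CT.l) (CT.d (CT.d CT.l CT.l) (CT.d CT.l CT.l)))) (CT.c (CT.d CT.l CT.l) (CT.b (CT.d (CT.d CT.l CT.l) (CT.d CT.l CT.l)) (CT.d (CT.d CT.l CT.l) (CT.d CT.l CT.l)))))))) (CT.c (CT.a (CT.b CT.l CT.l) (CT.c CT.l (CT.b CT.l CT.l))) (CT.a (CT.c (CT.d CT.l (CT.a CT.l CT.l)) (CT.b (CT.a (CT.d CT.l CT.l)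 (CT.d CT.l CT.l)) (CT.d (CT.d CT.l CT.l) (CT.d CT.l CT.l)))) (CT.b (CT.a (CT.d (CT.d CT.l CT.l) (CT.d CT.l CT.l)) (CT.c (CT.d CT.l CT.l) (CT.b (CT.d (CT.d CT.l CT.l) (CT.d CT.l CT.l)) (CT.d (CT.d CT.l CT.l) (CT.d CT.l CT.l))))) (CT.c (CT.d CT.l CT.l) (CT.a (CT.d (CT.d CT.l CT.l) (CT.d CT.l CT.l)) (CT.b (CT.d (CT.d CT.l CT.l) (CT.d CT.l CT.l)) (CT.d (CT.d CT.l CT.l) (CT.d CT.l CT.l))))))))) 824633720832 274877906944 0 412316860416 0 1099511627776 824633720832 412316860416 = true := by decide +kernel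

theorem chkG_25 : chk testGX (CT.c (CT.c CT.l (CT.b (CT.d CT.l CT.l) (CT.d CT.l CT.l))) (CT.a (CT.c (CT.d CT.l (CT.a CT.l CT.l)) (CT.a (CT.b (CT.d CT.l (CT.d CT.l (CT.a CT.l CT.l))) (CT.d CT.l (CT.d CT.l (CT.a CT.l CT.l)))) (CT.d (CT.c CT.l (CT.b CT.l CT.l)) (CT.b (CT.d CT.l (CT.a CT.l CT.l)) (CT.d CT.l (CT.a CT.l CT.l)))))) (CT.a (CT.d (CT.c CT.l (CT.b (CT.d CT.l CT.l) (CT.d CT.l CT.l))) (CT.c CT.l (CT.b (CT.c CT.l (CT.d CT.l (CT.a CT.l CT.l))) (CT.c CT.l (CT.d CT.l (CT.a CT.l CT.l)))))) (CT.c (CT.b (CT.d CT.l CT.l) (CT.d CT.l CT.l)) (CT.d (CT.b (CT.a (CT.d CT.l CT.l) (CT.d CT.l CT.l)) (CT.d (CT.b CT.l CT.l) (CT.d CT.l CT.l))) (CT.c (CT.d CT.l CT.l) (CT.d (CT.b (CT.d CT.l CT.l) (CT.d CT.l CT.l)) (CT.a (CT.d CT.l (CT.b CT.l CT.l)) (CT.c CT.l (CT.b (CT.c CT.l CT.l) (CT.c CT.l CT.l)))))))))))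 824633720832 274877906944 0 206158430208 0 1099511627776 1236950581248 412316860416 = true := by decide +kernel

theorem chkG_26 : chk testGX (CT.b (CT.c (CT.c CT.l (CT.d CT.l CT.l)) (CT.c (CT.a (CT.d CT.l CT.l) (CT.a (CT.d CT.l CT.l) (CT.d CT.l CT.l))) (CT.d (CT.a (CT.c CT.l (CT.a CT.l CT.l)) (CT.a (CT.d CT.l CT.l) (CT.d (CT.b CT.l CT.l) (CT.d CT.l CT.l)))) (CT.a (CT.a (CT.d CT.l (CT.a CT.l CT.l)) (CT.d CT.l (CT.a CT.l CT.l))) (CT.c (CT.d CT.l CT.l) (CT.a (CT.d CT.l (CT.a CT.l (CT.a CT.l CT.l))) (CT.a (CT.d CT.l (CT.a CT.l CT.l)) (CT.d (CT.a CT.l CT.l) (CT.c CT.l (CT.c CT.l CT.l)))))))))) (CT.c (CT.c CT.l (CT.d CT.l CT.l)) (CT.c (CT.a (CT.d CT.l CT.l) (CT.a (CT.d CT.l CT.l) (CT.d CT.l CT.l))) (CT.d (CT.a (CT.a (CT.a CT.l CT.l) (CT.a CT.l CT.l)) (CT.a (CT.d CT.l CT.l) (CT.d (CT.b CT.l CT.l)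 (CT.d CT.l CT.l)))) (CT.a (CT.a (CT.d CT.l (CT.a CT.l CT.l)) (CT.c CT.l (CT.d CT.l (CT.a CT.l CT.l)))) (CT.c (CT.a CT.l (CT.a CT.l CT.l)) (CT.a (CT.d CT.l (CT.a CT.l (CT.a CT.l CT.l))) (CT.a (CT.d CT.l (CT.d CT.l CT.l)) (CT.d (CT.b CT.l CT.l) (CT.c CT.l (CT.c CT.l CT.l))))))))))) 824633720832 274877906944 206158430208 206158430208 0 1099511627776 1236950581248 412316860416 = true := by decide +kernel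

end Vale.Agent.Lib.P154E
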