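import Vale.Agent.Lib.P154E.ETProg

/-!
Generated kernel checks of the Taylor model box tests for `G`.
-/

namespace Vale.Agent.Lib.P154E

open Vale.Agent.Lib.P154

theorem chkG_27 : chk testGX (CT.c (CT.c (CT.d CT.l (CT.a CT.l CT.l)) (CT.d (CT.d CT.l CT.l) (CT.d (CT.a CT.l CT.l) (CT.d CT.l CT.l)))) (CT.c (CT.d (CT.d (CT.d CT.l CT.l) (CT.a (CT.b CT.l CT.l) (CT.d CT.l CT.l))) (CT.a (CT.d (CT.d CT.l CT.l) (CT.d CT.l CT.l)) (CT.d (CT.d CT.l CT.l) (CT.a (CT.d CT.l CT.l) (CT.d CT.l CT.l))))) (CT.a (CT.d (CT.d (CT.d (CT.d CT.l CT.l) (CT.d CT.l CT.l)) (CT.d (CT.d CT.l CT.l) (CT.d CT.l CT.l))) (CT.d (CT.d (CT.d CT.l CT.l) (CT.d CT.l CT.l)) (CT.c (CT.d CT.l (CT.a CT.l CT.l)) (CT.a (CT.d CT.l (CT.d CT.l (CT.a CT.l CT.l))) (CT.d (CT.a CT.l CT.l) (CT.d CT.l (CT.a CT.l CT.l))))))) (CT.a (CT.d (CT.d (CT.d (CT.d CT.l CT.l)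 (CT.d CT.l CT.l)) (CT.d (CT.d CT.l CT.l) (CT.d CT.l CT.l))) (CT.d (CT.d (CT.d CT.l CT.l) (CT.d CT.l CT.l)) (CT.d (CT.d CT.l CT.l) (CT.c CT.l (CT.d CT.l (CT.a CT.l (CT.a CT.l CT.l))))))) (CT.d (CT.b (CT.d (CT.d (CT.d CT.l CT.l) (CT.d CT.l CT.l)) (CT.d (CT.d CT.l CT.l) (CT.d CT.l CT.l))) (CT.d (CT.d (CT.d CT.l CT.l) (CT.d CT.l CT.l)) (CT.d (CT.d CT.l CT.l) (CT.d CT.l CT.l)))) (CT.d (CT.b (CT.d (CT.d CT.l CT.l) (CT.d CT.l CT.l)) (CT.d (CT.d CT.l CT.l) (CT.d CT.l CT.l))) (CT.a (CT.d (CT.d CT.l CT.l) (CT.d CT.l (CT.d CT.l (CT.a CT.l CT.l)))) (CT.c (CT.d CT.l CT.l) (CT.d (CT.d CT.l CT.l) (CT.d (CT.b CT.l CT.l) (CT.d CT.l (CT.a CT.l (CT.c CT.l CT.l))))))))))))) 824633720832 274877906944 412316860416 103079215104 0 1099511627776 0 1649267441664 = true := by decide +kernel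

theorem chkG_28 : chk testGX (CT.c (CT.d CT.l (CT.a CT.l CT.l)) (CT.d (CT.d CT.l CT.l) (CT.d (CT.a CT.l CT.l) (CT.d CT.l CT.l)))) 824633720832 274877906944 515396075520 103079215104 0 549755813888 0 1649267441664 = true := by decide +kernel

theorem chkG_29 : chk testGX (CT.c (CT.d (CT.d (CT.d CT.l CT.l) (CT.a (CT.b CT.l CT.l) (CT.d CT.l CT.l))) (CT.a (CT.d (CT.d CT.l CT.l) (CT.d CT.l CT.l)) (CT.d (CT.d CT.l CT.l) (CT.a (CT.d CT.l CT.l) (CT.d CT.l CT.l))))) (CT.a (CT.d (CT.d (CT.a (CT.a (CT.d CT.l CT.l) (CT.d CT.l CT.l)) (CT.b (CT.d CT.l CT.l) (CT.d CT.l CT.l))) (CT.d (CT.d CT.l CT.l) (CT.d CT.l CT.l))) (CT.d (CT.d (CT.d CT.l CT.l) (CT.a CT.l (CT.a CT.l CT.l))) (CT.d (CT.a (CT.a CT.l CT.l) (CT.d CT.l CT.l)) (CT.a (CT.c CT.l (CT.d CT.l (CT.a CT.l CT.l))) (CT.c CT.l (CT.d CT.l (CT.a CT.l CT.l))))))) (CT.a (CT.d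 (CT.d (CT.b (CT.b (CT.d CT.l CT.l) (CT.d CT.l CT.l)) (CT.d (CT.b CT.l CT.l) (CT.d CT.l CT.l))) (CT.d (CT.c CT.l (CT.d CT.l CT.l)) (CT.d CT.l CT.l))) (CT.d (CT.d (CT.d CT.l CT.l) (CT.d CT.l CT.l)) (CT.d (CT.d CT.l CT.l) (CT.a (CT.d CT.l (CT.a CT.l CT.l)) (CT.c CT.l (CT.d CT.l (CT.a CT.l CT.l))))))) (CT.c (CT.d (CT.d (CT.d CT.l CT.l) (CT.d CT.l CT.l)) (CT.d (CT.d CT.l CT.l) (CT.d CT.l (CT.a CT.l CT.l)))) (CT.d (CT.b (CT.d (CT.d (CT.d CT.l CT.l) (CT.d CT.l CT.l)) (CT.d (CT.d CT.l CT.l) (CT.d CT.l CT.l))) (CT.d (CT.d (CT.d CT.l CT.l) (CT.c CT.l (CT.d CT.l CT.l))) (CT.d (CT.d CT.l CT.l) (CT.d CT.l CT.l)))) (CT.d (CT.b (CT.d (CT.d CT.l CT.l) (CT.d CT.l CT.l)) (CT.d (CT.d CT.l CT.l) (CT.d CT.l CT.l))) (CT.d (CT.d (CT.a CT.l CT.l) (CT.d CT.l CT.l)) (CT.a (CT.d CT.l (CT.a CT.l (CT.a CT.l CT.l))) (CT.d (CT.b CT.l CT.l)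 (CT.d CT.l (CT.a CT.l (CT.c CT.l CT.l)))))))))))) 824633720832 274877906944 515396075520 103079215104 549755813888 549755813888 0 1649267441664 = true := by decide +kernel

theorem chkG_30 : chk testGX (CT.d (CT.d CT.l CT.l) (CT.d (CT.d CT.l CT.l) (CT.c CT.l (CT.d CT.l CT.l)))) 824633720832 274877906944 618475290624 103079215104 0 549755813888 0 1649267441664 = true := by decide +kernel

theorem chkG_31 : chk testGX (CT.d (CT.d (CT.d CT.l CT.l) (CT.a (CT.a CT.l CT.l) (CT.d CT.l CT.l))) (CT.a (CT.d (CT.d CT.l CT.l) (CT.d CT.l CT.l)) (CT.d (CT.d CT.l CT.l) (CT.a (CT.d CT.l CT.l) (CT.d CT.l CT.l))))) 824633720832 274877906944 618475290624 103079215104 549755813888 274877906944 0 1649267441664 = true := by decide +kernel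

end Vale.Agent.Lib.P154E
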