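import Vale.Agent.Lib.P154E.ETProg

/-!
Generated kernel checks of the Taylor model box tests for `G`.
-/

namespace Vale.Agent.Lib.P154E

open Vale.Agent.Lib.P154

theorem chkG_32 : chk testGX (CT.a (CT.d (CT.d (CT.b (CT.d (CT.a CT.l CT.l) (CT.d CT.l CT.l)) (CT.d (CT.d CT.l CT.l) (CT.d CT.l CT.l))) (CT.d (CT.c CT.l (CT.d CT.l CT.l)) (CT.d CT.l CT.l))) (CT.c (CT.d (CT.d CT.l CT.l) (CT.d CT.l (CT.a CT.l CT.l))) (CT.d (CT.d (CT.d CT.l CT.l) (CT.a CT.l CT.l)) (CT.a (CT.d (CT.a CT.l CT.l) (CT.d CT.l (CT.a CT.l CT.l))) (CT.d (CT.a CT.l CT.l) (CT.d CT.l (CT.a CT.l (CT.a CT.l CT.l)))))))) (CT.a (CT.d (CT.d (CT.b (CT.d (CT.d CT.l CT.l) (CT.d CT.l CT.l)) (CT.d (CT.d CT.l CT.l) (CT.d CT.l CT.l))) (CT.d (CT.c CT.l (CT.d CT.l CT.l)) (CT.d CT.l CT.l))) (CT.d (CT.d (CT.d CT.l CT.l) (CT.d CT.l CT.l)) (CT.c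 (CT.d CT.l CT.l) (CT.d (CT.d CT.l CT.l) (CT.a (CT.c CT.l (CT.d CT.l CT.l)) (CT.d CT.l (CT.a CT.l CT.l))))))) (CT.d (CT.c (CT.d (CT.d CT.l CT.l) (CT.d CT.l CT.l)) (CT.b (CT.d (CT.a (CT.d (CT.b CT.l CT.l) (CT.d CT.l CT.l)) (CT.d (CT.d CT.l CT.l) (CT.d CT.l CT.l))) (CT.d (CT.c CT.l (CT.d CT.l CT.l)) (CT.d CT.l CT.l))) (CT.d (CT.b (CT.d (CT.d CT.l CT.l) (CT.d CT.l CT.l)) (CT.d (CT.d CT.l CT.l) (CT.d CT.l CT.l))) (CT.d (CT.a (CT.d CT.l CT.l) (CT.d CT.l CT.l)) (CT.d CT.l CT.l))))) (CT.d (CT.c (CT.d CT.l CT.l) (CT.b (CT.d (CT.d CT.l CT.l) (CT.d CT.l CT.l)) (CT.d (CT.d CT.l CT.l) (CT.d CT.l CT.l)))) (CT.d (CT.a (CT.d CT.l CT.l) (CT.b (CT.d CT.l CT.l) (CT.d CT.l CT.l))) (CT.d (CT.a (CT.a CT.l CT.l) (CT.d CT.l CT.l)) (CT.c CT.l (CT.a (CT.d CT.l (CT.a CT.l CT.l)) (CT.c CT.l (CT.d CT.l (CT.a CT.l CT.l)))))))))))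 824633720832 274877906944 618475290624 103079215104 824633720832 274877906944 0 1649267441664 = true := by decide +kernel

theorem chkG_33 : chk testGX (CT.d (CT.d CT.l CT.l) (CT.a (CT.c CT.l (CT.d CT.l CT.l)) (CT.c CT.l (CT.d CT.l (CT.a CT.l CT.l))))) 824633720832 274877906944 721554505728 103079215104 0 549755813888 0 1649267441664 = true := by decide +kernel

theorem chkG_34 : chk testGX (CT.d (CT.d (CT.c CT.l (CT.b (CT.d (CT.d CT.l CT.l) (CT.d CT.l CT.l)) (CT.a (CT.d CT.l CT.l) (CT.a (CT.d CT.l CT.l) (CT.d CT.l CT.l))))) (CT.a (CT.b (CT.d CT.l CT.l) (CT.d CT.l CT.l)) (CT.c CT.l (CT.d (CT.d CT.l CT.l) (CT.b CT.l CT.l))))) (CT.c (CT.d (CT.d CT.l CT.l) (CT.d CT.l CT.l)) (CT.a (CT.d (CT.d CT.l (CT.a CT.l CT.l)) (CT.d (CT.d CT.l CT.l) (CT.a (CT.d CT.l (CT.b CT.l CT.l)) (CT.d CT.l (CT.b CT.l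 CT.l))))) (CT.d (CT.a (CT.d CT.l CT.l) (CT.d CT.l CT.l)) (CT.d (CT.d CT.l CT.l) (CT.c CT.l (CT.c (CT.a CT.l CT.l) (CT.d CT.l (CT.a CT.l CT.l))))))))) 824633720832 137438953472 721554505728 103079215104 549755813888 549755813888 0 1649267441664 = true := by decide +kernel

theorem chkG_35 : chk testGX (CT.c (CT.d (CT.d (CT.a CT.l CT.l) (CT.d CT.l CT.l)) (CT.d (CT.d CT.l CT.l) (CT.a (CT.d CT.l CT.l) (CT.d CT.l CT.l)))) (CT.c (CT.d (CT.a (CT.d (CT.b CT.l CT.l) (CT.d CT.l CT.l)) (CT.d (CT.d CT.l CT.l) (CT.d CT.l CT.l))) (CT.d (CT.a (CT.d CT.l CT.l) (CT.d CT.l CT.l)) (CT.d (CT.d CT.l CT.l) (CT.a (CT.a CT.l CT.l) (CT.b CT.l CT.l))))) (CT.a (CT.d (CT.d (CT.b (CT.d (CT.d CT.l CT.l) (CT.d CT.l CT.l)) (CT.d (CT.d CT.l CT.l) (CT.d CT.l CT.l))) (CT.d (CT.d (CT.a CT.l CT.l) CT.l) (CT.d CT.l CT.l))) (CT.d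 (CT.d (CT.d CT.l CT.l) (CT.d CT.l CT.l)) (CT.d (CT.d CT.l CT.l) (CT.a (CT.d CT.l (CT.a CT.l CT.l)) (CT.d CT.l (CT.d CT.l CT.l)))))) (CT.b (CT.d (CT.c (CT.d (CT.d CT.l CT.l) (CT.d CT.l CT.l)) (CT.d (CT.b (CT.d (CT.d CT.l CT.l) (CT.d CT.l CT.l)) (CT.c (CT.d CT.l CT.l) (CT.d (CT.d CT.l CT.l) (CT.d CT.l CT.l)))) (CT.d (CT.d (CT.a CT.l CT.l) CT.l) (CT.d CT.l CT.l)))) (CT.d (CT.d (CT.d CT.l CT.l) (CT.d CT.l CT.l)) (CT.d (CT.c CT.l (CT.d CT.l CT.l)) (CT.a (CT.d CT.l (CT.a CT.l CT.l)) (CT.d CT.l (CT.c CT.l (CT.c CT.l CT.l))))))) (CT.d (CT.d (CT.d (CT.a (CT.d CT.l CT.l) (CT.b (CT.d CT.l CT.l) (CT.c CT.l (CT.d CT.l CT.l)))) (CT.a (CT.d CT.l CT.l) (CT.b (CT.d CT.l CT.l) (CT.d CT.l CT.l)))) (CT.d (CT.b (CT.d CT.l CT.l) (CT.d CT.l CT.l)) (CT.c CT.l (CT.d CT.l CT.l)))) (CT.d (CT.d (CT.d CT.l CT.l) (CT.d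 CT.l CT.l)) (CT.d (CT.c CT.l (CT.d CT.l CT.l)) (CT.a (CT.d CT.l (CT.d CT.l CT.l)) (CT.d CT.l (CT.c CT.l (CT.c CT.l CT.l))))))))))) 962072674304 137438953472 721554505728 103079215104 549755813888 549755813888 0 1649267441664 = true := by decide +kernel

end Vale.Agent.Lib.P154E
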