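import Mathlib
import Vale.Agent.Lib.P154E.ETCheck
import Vale.Agent.Lib.P154E.EChkF0
import Vale.Agent.Lib.P154E.EChkF1
import Vale.Agent.Lib.P154E.EChkF2
import Vale.Agent.Lib.P154E.EChkF3
import Vale.Agent.Lib.P154E.EChkF4
import Vale.Agent.Lib.P154E.EChkF5
import Vale.Agent.Lib.P154E.EChkF6
import Vale.Agent.Lib.P154E.EChkF7
import Vale.Agent.Lib.P154E.EChkF8
import Vale.Agent.Lib.P154E.EChkF9
import Vale.Agent.Lib.P154E.EChkF10
import Vale.Agent.Lib.P154E.EChkF11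
import Vale.Agent.Lib.P154E.EChkF12
import Vale.Agent.Lib.P154E.EChkF13
import Vale.Agent.Lib.P154E.EChkF14
import Vale.Agent.Lib.P154E.EChkF15
import Vale.Agent.Lib.P154E.EChkF16
import Vale.Agent.Lib.P154E.EChkF17
import Vale.Agent.Lib.P154E.EChkF18
import Vale.Agent.Lib.P154E.EChkF19
import Vale.Agent.Lib.P154E.EChkF20
import Vale.Agent.Lib.P154E.EChkF21
import Vale.Agent.Lib.P154E.EChkF22
import Vale.Agent.Lib.P154E.EChkF23
import Vale.Agent.Lib.P154E.EChkF24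
import Vale.Agent.Lib.P154E.EChkF25
import Vale.Agent.Lib.P154E.EChkF26
import Vale.Agent.Lib.P154E.EChkF27
import Vale.Agent.Lib.P154E.EChkF28
import Vale.Agent.Lib.P154E.EChkF29
import Vale.Agent.Lib.P154E.EChkF30
import Vale.Agent.Lib.P154E.EChkF31
import Vale.Agent.Lib.P154E.EChkF32
import Vale.Agent.Lib.P154E.EChkF33
import Vale.Agent.Lib.P154E.EChkF34
import Vale.Agent.Lib.P154E.EChkF35
import Vale.Agent.Lib.P154E.EChkG0
import Vale.Agent.Lib.P154E.EChkG1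
import Vale.Agent.Lib.P154E.EChkG2
import Vale.Agent.Lib.P154E.EChkG3
import Vale.Agent.Lib.P154E.EChkG4
import Vale.Agent.Lib.P154E.EChkG5
import Vale.Agent.Lib.P154E.EChkG6
import Vale.Agent.Lib.P154E.EChkG7
import Vale.Agent.Lib.P154E.EChkG8
import Vale.Agent.Lib.P154E.EChkG9
import Vale.Agent.Lib.P154E.EChkG10
import Vale.Agent.Lib.P154E.EChkG11
import Vale.Agent.Lib.P154E.EChkG12
import Vale.Agent.Lib.P154E.EChkG13
import Vale.Agent.Lib.P154E.EChkG14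
import Vale.Agent.Lib.P154E.EChkG15
import Vale.Agent.Lib.P154E.EChkG16
import Vale.Agent.Lib.P154E.EChkG17
import Vale.Agent.Lib.P154E.EChkG18
import Vale.Agent.Lib.P154E.EChkG19
import Vale.Agent.Lib.P154E.EChkG20

/-!
Generated: assembling the box checks.
-/

namespace Vale.Agent.Lib.P154E

open Vale.Agent.Lib.P154

theorem goodF_top : Good (fun R X Q Y => PhiF R X Q Y ∨ PhiFC R X Q Y) 0 1099511627776 0 1649267441664 0 1099511627776 0 1649267441664 :=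
  (good_b (good_b (good_c (chk_sound testFX_sound _ _ _ _ _ _ _ _ _ chkF_0) (good_a (good_a (good_b (chk_sound testFX_sound _ _ _ _ _ _ _ _ _ chkF_1) (chk_sound testFX_sound _ _ _ _ _ _ _ _ _ chkF_2)) (good_c (chk_sound testFX_sound _ _ _ _ _ _ _ _ _ chkF_3) (chk_sound testFX_sound _ _ _ _ _ _ _ _ _ chkF_4))) (good_a (good_d (chk_sound testFX_sound _ _ _ _ _ _ _ _ _ chkF_5) (good_c (chk_sound testFX_sound _ _ _ _ _ _ _ _ _ chkF_6) (chk_sound testFX_sound _ _ _ _ _ _ _ _ _ chkF_7))) (good_b (chk_sound testFX_sound _ _ _ _ _ _ _ _ _ chkF_8) (chk_sound testFX_sound _ _ _ _ _ _ _ _ _ chkF_9))))) (good_d (good_d (chk_sound testFX_sound _ _ _ _ _ _ _ _ _ chkF_10) (good_c (chk_sound testFX_sound _ _ _ _ _ _ _ _ _ chkF_11) (good_a (chk_sound testFX_sound _ _ _ _ _ _ _ _ _ chkF_12) (chk_sound testFX_sound _ _ _ _ _ _ _ _ _ chkF_13)))) (good_d (good_a (good_a (chk_sound testFX_sound _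 _ _ _ _ _ _ _ _ chkF_14) (chk_sound testFX_sound _ _ _ _ _ _ _ _ _ chkF_15)) (good_a (chk_sound testFX_sound _ _ _ _ _ _ _ _ _ chkF_16) (chk_sound testFX_sound _ _ _ _ _ _ _ _ _ chkF_17))) (good_a (good_a (chk_sound testFX_sound _ _ _ _ _ _ _ _ _ chkF_18) (chk_sound testFX_sound _ _ _ _ _ _ _ _ _ chkF_19)) (good_a (good_d (chk_sound testFX_sound _ _ _ _ _ _ _ _ _ chkF_20) (chk_sound testFX_sound _ _ _ _ _ _ _ _ _ chkF_21)) (good_a (chk_sound testFX_sound _ _ _ _ _ _ _ _ _ chkF_22) (good_b (chk_sound testFX_sound _ _ _ _ _ _ _ _ _ chkF_23) (chk_sound testFX_sound _ _ _ _ _ _ _ _ _ chkF_24)))))))) (good_d (good_b (good_c (good_a (chk_sound testFX_sound _ _ _ _ _ _ _ _ _ chkF_25) (good_b (chk_sound testFX_sound _ _ _ _ _ _ _ _ _ chkF_26) (chk_sound testFX_sound _ _ _ _ _ _ _ _ _ chkF_27))) (good_b (good_d (chk_sound testFX_sound _ _ _ _ _ _ _ _ _ chkF_28) (good_a (chk_sound testFX_sound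 _ _ _ _ _ _ _ _ _ chkF_29) (chk_sound testFX_sound _ _ _ _ _ _ _ _ _ chkF_30))) (good_c (chk_sound testFX_sound _ _ _ _ _ _ _ _ _ chkF_31) (good_a (chk_sound testFX_sound _ _ _ _ _ _ _ _ _ chkF_32) (good_d (chk_sound testFX_sound _ _ _ _ _ _ _ _ _ chkF_33) (chk_sound testFX_sound _ _ _ _ _ _ _ _ _ chkF_34)))))) (good_b (good_d (good_c (chk_sound testFX_sound _ _ _ _ _ _ _ _ _ chkF_35) (good_c (chk_sound testFX_sound _ _ _ _ _ _ _ _ _ chkF_36) (good_a (chk_sound testFX_sound _ _ _ _ _ _ _ _ _ chkF_37) (chk_sound testFX_sound _ _ _ _ _ _ _ _ _ chkF_38)))) (good_a (chk_sound testFX_sound _ _ _ _ _ _ _ _ _ chkF_39) (good_a (chk_sound testFX_sound _ _ _ _ _ _ _ _ _ chkF_40) (good_c (chk_sound testFX_sound _ _ _ _ _ _ _ _ _ chkF_41) (good_a (chk_sound testFX_sound _ _ _ _ _ _ _ _ _ chkF_42) (chk_sound testFX_sound _ _ _ _ _ _ _ _ _ chkF_43)))))) (good_c (good_a (chk_sound testFX_sound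 _ _ _ _ _ _ _ _ _ chkF_44) (chk_sound testFX_sound _ _ _ _ _ _ _ _ _ chkF_45)) (good_a (chk_sound testFX_sound _ _ _ _ _ _ _ _ _ chkF_46) (good_a (good_c (chk_sound testFX_sound _ _ _ _ _ _ _ _ _ chkF_47) (chk_sound testFX_sound _ _ _ _ _ _ _ _ _ chkF_48)) (good_a (good_a (chk_sound testFX_sound _ _ _ _ _ _ _ _ _ chkF_49) (chk_sound testFX_sound _ _ _ _ _ _ _ _ _ chkF_50)) (good_a (chk_sound testFX_sound _ _ _ _ _ _ _ _ _ chkF_51) (good_a (chk_sound testFX_sound _ _ _ _ _ _ _ _ _ chkF_52) (chk_sound testFX_sound _ _ _ _ _ _ _ _ _ chkF_53))))))))) (good_c (good_a (good_a (chk_sound testFX_sound _ _ _ _ _ _ _ _ _ chkF_54) (good_a (chk_sound testFX_sound _ _ _ _ _ _ _ _ _ chkF_55) (chk_sound testFX_sound _ _ _ _ _ _ _ _ _ chkF_56))) (good_d (good_a (good_a (chk_sound testFX_sound _ _ _ _ _ _ _ _ _ chkF_57) (chk_sound testFX_sound _ _ _ _ _ _ _ _ _ chkF_58)) (good_a (chk_sound testFX_sound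 _ _ _ _ _ _ _ _ _ chkF_59) (chk_sound testFX_sound _ _ _ _ _ _ _ _ _ chkF_60))) (good_b (good_c (chk_sound testFX_sound _ _ _ _ _ _ _ _ _ chkF_61) (chk_sound testFX_sound _ _ _ _ _ _ _ _ _ chkF_62)) (good_d (chk_sound testFX_sound _ _ _ _ _ _ _ _ _ chkF_63) (chk_sound testFX_sound _ _ _ _ _ _ _ _ _ chkF_64))))) (good_b (good_d (good_a (good_d (chk_sound testFX_sound _ _ _ _ _ _ _ _ _ chkF_65) (chk_sound testFX_sound _ _ _ _ _ _ _ _ _ chkF_66)) (good_c (good_d (chk_sound testFX_sound _ _ _ _ _ _ _ _ _ chkF_67) (chk_sound testFX_sound _ _ _ _ _ _ _ _ _ chkF_68)) (good_a (chk_sound testFX_sound _ _ _ _ _ _ _ _ _ chkF_69) (good_a (chk_sound testFX_sound _ _ _ _ _ _ _ _ _ chkF_70) (chk_sound testFX_sound _ _ _ _ _ _ _ _ _ chkF_71))))) (good_c (good_b (chk_sound testFX_sound _ _ _ _ _ _ _ _ _ chkF_72) (good_a (chk_sound testFX_sound _ _ _ _ _ _ _ _ _ chkF_73) (chk_sound testFX_sound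 _ _ _ _ _ _ _ _ _ chkF_74))) (good_c (good_a (chk_sound testFX_sound _ _ _ _ _ _ _ _ _ chkF_75) (good_a (chk_sound testFX_sound _ _ _ _ _ _ _ _ _ chkF_76) (chk_sound testFX_sound _ _ _ _ _ _ _ _ _ chkF_77))) (good_a (chk_sound testFX_sound _ _ _ _ _ _ _ _ _ chkF_78) (good_a (chk_sound testFX_sound _ _ _ _ _ _ _ _ _ chkF_79) (good_a (chk_sound testFX_sound _ _ _ _ _ _ _ _ _ chkF_80) (good_a (chk_sound testFX_sound _ _ _ _ _ _ _ _ _ chkF_81) (chk_sound testFX_sound _ _ _ _ _ _ _ _ _ chkF_82)))))))) (good_a (good_a (good_a (chk_sound testFX_sound _ _ _ _ _ _ _ _ _ chkF_83) (good_b (chk_sound testFX_sound _ _ _ _ _ _ _ _ _ chkF_84) (chk_sound testFX_sound _ _ _ _ _ _ _ _ _ chkF_85))) (good_a (good_b (chk_sound testFX_sound _ _ _ _ _ _ _ _ _ chkF_86) (chk_sound testFX_sound _ _ _ _ _ _ _ _ _ chkF_87)) (good_a (chk_sound testFX_sound _ _ _ _ _ _ _ _ _ chkF_88) (good_b (chk_sound testFX_sound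 _ _ _ _ _ _ _ _ _ chkF_89) (chk_sound testFX_sound _ _ _ _ _ _ _ _ _ chkF_90))))) (good_a (good_a (good_a (good_b (chk_sound testFX_sound _ _ _ _ _ _ _ _ _ chkF_91) (chk_sound testFX_sound _ _ _ _ _ _ _ _ _ chkF_92)) (good_b (chk_sound testFX_sound _ _ _ _ _ _ _ _ _ chkF_93) (chk_sound testFX_sound _ _ _ _ _ _ _ _ _ chkF_94))) (good_a (good_b (chk_sound testFX_sound _ _ _ _ _ _ _ _ _ chkF_95) (chk_sound testFX_sound _ _ _ _ _ _ _ _ _ chkF_96)) (good_b (chk_sound testFX_sound _ _ _ _ _ _ _ _ _ chkF_97) (chk_sound testFX_sound _ _ _ _ _ _ _ _ _ chkF_98)))) (good_a (good_c (good_a (chk_sound testFX_sound _ _ _ _ _ _ _ _ _ chkF_99) (chk_sound testFX_sound _ _ _ _ _ _ _ _ _ chkF_100)) (good_c (good_a (chk_sound testFX_sound _ _ _ _ _ _ _ _ _ chkF_101) (chk_sound testFX_sound _ _ _ _ _ _ _ _ _ chkF_102)) (good_d (chk_sound testFX_sound _ _ _ _ _ _ _ _ _ chkF_103) (good_a (chk_sound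 testFX_sound _ _ _ _ _ _ _ _ _ chkF_104) (chk_sound testFX_sound _ _ _ _ _ _ _ _ _ chkF_105))))) (good_a (good_c (chk_sound testFX_sound _ _ _ _ _ _ _ _ _ chkF_106) (good_a (chk_sound testFX_sound _ _ _ _ _ _ _ _ _ chkF_107) (good_b (chk_sound testFX_sound _ _ _ _ _ _ _ _ _ chkF_108) (chk_sound testFX_sound _ _ _ _ _ _ _ _ _ chkF_109)))) (good_a (good_b (chk_sound testFX_sound _ _ _ _ _ _ _ _ _ chkF_110) (good_b (chk_sound testFX_sound _ _ _ _ _ _ _ _ _ chkF_111) (chk_sound testFX_sound _ _ _ _ _ _ _ _ _ chkF_112))) (good_b (good_b (chk_sound testFX_sound _ _ _ _ _ _ _ _ _ chkF_113) (chk_sound testFX_sound _ _ _ _ _ _ _ _ _ chkF_114)) (good_c (chk_sound testFX_sound _ _ _ _ _ _ _ _ _ chkF_115) (good_b (chk_sound testFX_sound _ _ _ _ _ _ _ _ _ chkF_116) (chk_sound testFX_sound _ _ _ _ _ _ _ _ _ chkF_117)))))))))))))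

theorem goodG_top : Good (fun R X Q Y => PhiG R X Q Y ∨ PhiGC R X Q Y) 0 1099511627776 0 1649267441664 0 1099511627776 0 1649267441664 :=
  (good_a (good_d (good_d (good_b (chk_sound testGX_sound _ _ _ _ _ _ _ _ _ chkG_0) (chk_sound testGX_sound _ _ _ _ _ _ _ _ _ chkG_1)) (good_b (chk_sound testGX_sound _ _ _ _ _ _ _ _ _ chkG_2) (chk_sound testGX_sound _ _ _ _ _ _ _ _ _ chkG_3))) (good_d (good_a (chk_sound testGX_sound _ _ _ _ _ _ _ _ _ chkG_4) (good_b (chk_sound testGX_sound _ _ _ _ _ _ _ _ _ chkG_5) (chk_sound testGX_sound _ _ _ _ _ _ _ _ _ chkG_6))) (good_d (good_a (chk_sound testGX_sound _ _ _ _ _ _ _ _ _ chkG_7) (chk_sound testGX_sound _ _ _ _ _ _ _ _ _ chkG_8)) (good_b (good_a (chk_sound testGX_sound _ _ _ _ _ _ _ _ _ chkG_9) (chk_sound testGX_sound _ _ _ _ _ _ _ _ _ chkG_10)) (good_d (good_a (chk_sound testGX_sound _ _ _ _ _ _ _ _ _ chkG_11) (chk_sound testGX_sound _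 _ _ _ _ _ _ _ _ chkG_12)) (good_a (chk_sound testGX_sound _ _ _ _ _ _ _ _ _ chkG_13) (good_c (chk_sound testGX_sound _ _ _ _ _ _ _ _ _ chkG_14) (good_c (chk_sound testGX_sound _ _ _ _ _ _ _ _ _ chkG_15) (good_a (chk_sound testGX_sound _ _ _ _ _ _ _ _ _ chkG_16) (chk_sound testGX_sound _ _ _ _ _ _ _ _ _ chkG_17)))))))))) (good_b (good_a (good_d (chk_sound testGX_sound _ _ _ _ _ _ _ _ _ chkG_18) (good_d (chk_sound testGX_sound _ _ _ _ _ _ _ _ _ chkG_19) (good_d (chk_sound testGX_sound _ _ _ _ _ _ _ _ _ chkG_20) (good_a (chk_sound testGX_sound _ _ _ _ _ _ _ _ _ chkG_21) (chk_sound testGX_sound _ _ _ _ _ _ _ _ _ chkG_22))))) (good_b (good_d (chk_sound testGX_sound _ _ _ _ _ _ _ _ _ chkG_23) (good_d (chk_sound testGX_sound _ _ _ _ _ _ _ _ _ chkG_24) (good_b (chk_sound testGX_sound _ _ _ _ _ _ _ _ _ chkG_25) (chk_sound testGX_sound _ _ _ _ _ _ _ _ _ chkG_26)))) (good_b (good_b (chk_sound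 testGX_sound _ _ _ _ _ _ _ _ _ chkG_27) (good_c (chk_sound testGX_sound _ _ _ _ _ _ _ _ _ chkG_28) (chk_sound testGX_sound _ _ _ _ _ _ _ _ _ chkG_29))) (good_b (good_c (chk_sound testGX_sound _ _ _ _ _ _ _ _ _ chkG_30) (good_c (chk_sound testGX_sound _ _ _ _ _ _ _ _ _ chkG_31) (chk_sound testGX_sound _ _ _ _ _ _ _ _ _ chkG_32))) (good_c (chk_sound testGX_sound _ _ _ _ _ _ _ _ _ chkG_33) (good_a (chk_sound testGX_sound _ _ _ _ _ _ _ _ _ chkG_34) (chk_sound testGX_sound _ _ _ _ _ _ _ _ _ chkG_35))))))) (good_d (good_a (good_d (chk_sound testGX_sound _ _ _ _ _ _ _ _ _ chkG_36) (chk_sound testGX_sound _ _ _ _ _ _ _ _ _ chkG_37)) (good_d (good_a (good_b (chk_sound testGX_sound _ _ _ _ _ _ _ _ _ chkG_38) (chk_sound testGX_sound _ _ _ _ _ _ _ _ _ chkG_39)) (good_d (good_a (chk_sound testGX_sound _ _ _ _ _ _ _ _ _ chkG_40) (good_b (chk_sound testGX_sound _ _ _ _ _ _ _ _ _ chkG_41) (chk_sound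 testGX_sound _ _ _ _ _ _ _ _ _ chkG_42))) (good_a (chk_sound testGX_sound _ _ _ _ _ _ _ _ _ chkG_43) (good_b (chk_sound testGX_sound _ _ _ _ _ _ _ _ _ chkG_44) (chk_sound testGX_sound _ _ _ _ _ _ _ _ _ chkG_45))))) (good_a (chk_sound testGX_sound _ _ _ _ _ _ _ _ _ chkG_46) (good_d (good_b (chk_sound testGX_sound _ _ _ _ _ _ _ _ _ chkG_47) (chk_sound testGX_sound _ _ _ _ _ _ _ _ _ chkG_48)) (good_b (chk_sound testGX_sound _ _ _ _ _ _ _ _ _ chkG_49) (chk_sound testGX_sound _ _ _ _ _ _ _ _ _ chkG_50)))))) (good_d (good_b (good_d (chk_sound testGX_sound _ _ _ _ _ _ _ _ _ chkG_51) (chk_sound testGX_sound _ _ _ _ _ _ _ _ _ chkG_52)) (good_a (chk_sound testGX_sound _ _ _ _ _ _ _ _ _ chkG_53) (good_a (chk_sound testGX_sound _ _ _ _ _ _ _ _ _ chkG_54) (good_b (chk_sound testGX_sound _ _ _ _ _ _ _ _ _ chkG_55) (good_d (chk_sound testGX_sound _ _ _ _ _ _ _ _ _ chkG_56) (chk_sound testGX_sound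 _ _ _ _ _ _ _ _ _ chkG_57)))))) (good_d (good_a (chk_sound testGX_sound _ _ _ _ _ _ _ _ _ chkG_58) (good_a (chk_sound testGX_sound _ _ _ _ _ _ _ _ _ chkG_59) (good_b (chk_sound testGX_sound _ _ _ _ _ _ _ _ _ chkG_60) (chk_sound testGX_sound _ _ _ _ _ _ _ _ _ chkG_61)))) (good_c (chk_sound testGX_sound _ _ _ _ _ _ _ _ _ chkG_62) (good_c (chk_sound testGX_sound _ _ _ _ _ _ _ _ _ chkG_63) (good_a (good_a (chk_sound testGX_sound _ _ _ _ _ _ _ _ _ chkG_64) (chk_sound testGX_sound _ _ _ _ _ _ _ _ _ chkG_65)) (good_c (chk_sound testGX_sound _ _ _ _ _ _ _ _ _ chkG_66) (good_a (chk_sound testGX_sound _ _ _ _ _ _ _ _ _ chkG_67) (good_d (chk_sound testGX_sound _ _ _ _ _ _ _ _ _ chkG_68) (good_a (chk_sound testGX_sound _ _ _ _ _ _ _ _ _ chkG_69) (chk_sound testGX_sound _ _ _ _ _ _ _ _ _ chkG_70)))))))))))))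

/-- The verified bounds for `F1`. -/
theorem phiF_box {R X Q Y : ℝ} (h1 : 0 ≤ R) (h2 : R ≤ 1) (h3 : 0 ≤ X) (h4 : X ≤ 3 / 2)
    (h5 : 0 ≤ Q) (h6 : Q ≤ 1) (h7 : 0 ≤ Y) (h8 : Y ≤ 3 / 2) : PhiF R X Q Y ∨ PhiFC R X Q Y :=
  goodF_top R X Q Y (inBox_topE h1 h2 h3 h4 h5 h6 h7 h8)

/-- The verified bounds for `G2`. -/
theorem phiG_box {R X Q Y : ℝ} (h1 : 0 ≤ R) (h2 : R ≤ 1) (h3 : 0 ≤ X) (h4 : X ≤ 3 / 2)
    (h5 : 0 ≤ Q) (h6 : Q ≤ 1) (h7 : 0 ≤ Y) (h8 : Y ≤ 3 / 2) : PhiG R X Q Y ∨ PhiGC R X Q Y :=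
  goodG_top R X Q Y (inBox_topE h1 h2 h3 h4 h5 h6 h7 h8)

end Vale.Agent.Lib.P154E
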