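import Vale.Agent.Lib.P154.TMProg

/-!
Generated Taylor model programs for the inequalities at full channel strength.
-/

namespace Vale.Agent.Lib.P154E

open Vale.Agent.Lib.P154

/-- The constant `- q / 2^40`. -/
def constNeg (q : Nat) : TM := TM.mk 0 q 0 0 0 0 0 0 0 0 0 0

noncomputable def uPartET (R X : TM) : TM × TM × TM × TM × TM × TM × TM × TM × TM × TM × TM × TM :=
  let x2 := sqT X
  let aux1 := smulT 2 x2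
  let sig := addC 1649267441664 aux1
  let gam3 := subC 274877906944 x2
  let r2 := sqT R
  let rg3 := mulT R gam3
  let s := mulT r2 sig
  let c3 := mulT r2 rg3
  let s3 := thirdT s
  let sig3 := thirdT sig
  let y := mulT R X
  let h := shrT 1 R
  let U0 := rsubC 1099511627776 R
  let aux2 := subT h y
  let aux3 := nrmT aux2
  let U1 := addC 1099511627776 aux3
  let aux4 := addT h y
  let aux5 := nrmT aux4
  let U2 := addC 1099511627776 aux5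
  let aux6 := shrT 1 s
  let aux7 := rsubC 1099511627776 aux6
  let aux8 := addT aux7 c3
  let G := nrmT aux8
  let Y0 := mulT R sig
  (sig, sig3, rg3, r2, s, c3, s3, U0, U1, U2, G, Y0)

noncomputable def vPartET (Q Y : TM) : TM × TM × TM × TM × TM × TM × TM × TM × TM :=
  let xp2 := sqT Y
  let aux1 := smulT 2 xp2
  let sigp := addC 1649267441664 aux1
  let gamp3 := subC 274877906944 xp2
  let rp2 := sqT Q
  let S := mulT rp2 sigp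
  let rg3p := mulT Q gamp3
  let C3 := mulT rp2 rg3p
  let aux2 := shrT 1 S
  let aux3 := rsubC 1099511627776 aux2
  let aux4 := addT aux3 C3
  let Gw := nrmT aux4
  let aux5 := scaleT 3 6 S
  let aux6 := rsubC 1099511627776 aux5
  let aux7 := mulT S aux6
  let fS := scaleT 11 7 aux7
  let r4 := sqT rp2
  (xp2, sigp, rp2, S, rg3p, C3, Gw, fS, r4)

noncomputable def alphasET (X Y : TM) : TM × TM × TM × TM × TM × TM :=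
  let aux1 := mulT X Y
  let z := thirdT aux1
  let hx := shrT 1 X
  let hy := shrT 1 Y
  let z2 := smulT 2 z
  let al0 := addC 549755813888 z2
  let al1 := rsubC 549755813888 z2
  let aux2 := addT hx hy
  let sxy := nrmT aux2
  let aux3 := addT sxy z
  let aux4 := nrmT aux3
  let al2 := subC 274877906944 aux4
  let aux5 := subT hy hx
  let dyx := nrmT aux5
  let aux6 := subT dyx z
  let aux7 := nrmT aux6
  let al3 := subC 274877906944 aux7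
  let aux8 := subT hx hy
  let dxy := nrmT aux8
  let aux9 := subT dxy z
  let aux10 := nrmT aux9
  let al4 := subC 274877906944 aux10
  let aux11 := subT z sxy
  let aux12 := nrmT aux11
  let al5 := subC 274877906944 aux12
  (al0, al1, al2, al3, al4, al5)

noncomputable def matFET (U0 U1 U2 X Y y2 : TM) : TM × TM × TM × TM × TM × TM × TM × TM × TM × TM × TM × TM × TM × TM × TM × TM × TM × TM × TM :=
  let w0 := sqT U0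
  let w1 := sqT U1
  let w2 := sqT U2
  let aux1 := addT w0 w1
  let W0 := addT aux1 w2
  let wx0 := mulT w0 Y
  let wx1 := mulT w1 Y
  let wx2 := mulT w2 Y
  let wxx0 := mulT w0 y2
  let wxx1 := mulT w1 y2
  let wxx2 := mulT w2 y2
  let wh0 := shrT 1 w0
  let wh1 := shrT 1 w1
  let wh2 := shrT 1 w2
  let wq0 := shrT 2 w0
  let wq1 := shrT 2 w1
  let wq2 := shrT 2 w2
  let a00 := negT w0
  let a01 := subT wh0 wx0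
  let a02 := addT wh0 wx0
  let bc0 := addT wq0 wxx0
  let b01 := subT bc0 wx0
  let b02 := addT bc0 wx0
  let a10 := negT w1
  let a11 := subT wh1 wx1
  let a12 := addT wh1 wx1
  let bc1 := addT wq1 wxx1
  let b11 := subT bc1 wx1
  let b12 := addT bc1 wx1
  let a20 := negT w2
  let a21 := subT wh2 wx2
  let a22 := addT wh2 wx2
  let bc2 := addT wq2 wxx2
  let b21 := subT bc2 wx2
  let b22 := addT bc2 wx2
  let t0 := negT U0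
  let aux2 := rsubC 549755813888 X
  let t1 := mulT aux2 U1
  let aux3 := addC 549755813888 X
  let t2 := mulT aux3 U2
  let tx0 := mulT t0 Y
  let tx1 := mulT t1 Y
  let tx2 := mulT t2 Y
  let th0 := shrT 1 t0
  let th1 := shrT 1 t1
  let th2 := shrT 1 t2
  let d00 := negT t0
  let d01 := subT th0 tx0
  let d02 := addT th0 tx0
  let d10 := negT t1
  let d11 := subT th1 tx1
  let d12 := addT th1 tx1
  let d20 := negT t2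
  let d21 := subT th2 tx2
  let d22 := addT th2 tx2
  let aux4 := addT a00 a11
  let aux5 := addT aux4 a22
  let P1g0 := nrmT aux5
  let aux6 := addT w0 b11
  let aux7 := addT aux6 b22
  let P2g0 := nrmT aux7
  let aux8 := addT d00 d11
  let aux9 := addT aux8 d22
  let Y1g0 := nrmT aux9
  let aux10 := addT a00 a12
  let aux11 := addT aux10 a21
  let P1g1 := nrmT aux11
  let aux12 := addT w0 b12
  let aux13 := addT aux12 b21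
  let P2g1 := nrmT aux13
  let aux14 := addT d00 d12
  let aux15 := addT aux14 d21
  let Y1g1 := nrmT aux15
  let aux16 := addT a01 a10
  let aux17 := addT aux16 a22
  let P1g2 := nrmT aux17
  let aux18 := addT b01 w1
  let aux19 := addT aux18 b22
  let P2g2 := nrmT aux19
  let aux20 := addT d01 d10
  let aux21 := addT aux20 d22
  let Y1g2 := nrmT aux21
  let aux22 := addT a01 a12
  let aux23 := addT aux22 a20
  let P1g3 := nrmT aux23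
  let aux24 := addT b01 b12
  let aux25 := addT aux24 w2
  let P2g3 := nrmT aux25
  let aux26 := addT d01 d12
  let aux27 := addT aux26 d20
  let Y1g3 := nrmT aux27
  let aux28 := addT a02 a10
  let aux29 := addT aux28 a21
  let P1g4 := nrmT aux29
  let aux30 := addT b02 w1
  let aux31 := addT aux30 b21
  let P2g4 := nrmT aux31
  let aux32 := addT d02 d10
  let aux33 := addT aux32 d21
  let Y1g4 := nrmT aux33
  let aux34 := addT a02 a11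
  let aux35 := addT aux34 a20
  let P1g5 := nrmT aux35
  let aux36 := addT b02 b11
  let aux37 := addT aux36 w2
  let P2g5 := nrmT aux37
  let aux38 := addT d02 d11
  let aux39 := addT aux38 d20
  let Y1g5 := nrmT aux39
  (P1g0, P2g0, Y1g0, P1g1, P2g1, Y1g1, P1g2, P2g2, Y1g2, P1g3, P2g3, Y1g3, P1g4, P2g4, Y1g4, P1g5, P2g5, Y1g5, W0)

noncomputable def matDET (U0 U1 U2 X Y : TM) : TM × TM × TM × TM × TM × TM × TM × TM × TM × TM × TM :=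
  let w0 := sqT U0
  let w1 := sqT U1
  let w2 := sqT U2
  let t0 := negT U0
  let aux1 := rsubC 549755813888 X
  let t1 := mulT aux1 U1
  let aux2 := addC 549755813888 X
  let t2 := mulT aux2 U2
  let tx0 := mulT t0 Y
  let tx1 := mulT t1 Y
  let tx2 := mulT t2 Y
  let th0 := shrT 1 t0
  let th1 := shrT 1 t1
  let th2 := shrT 1 t2
  let d00 := negT t0
  let d01 := subT th0 tx0
  let d02 := addT th0 tx0
  let d10 := negT t1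
  let d11 := subT th1 tx1
  let d12 := addT th1 tx1
  let d20 := negT t2
  let d21 := subT th2 tx2
  let d22 := addT th2 tx2
  let aux3 := addT d00 d11
  let aux4 := addT aux3 d22
  let Y1g0 := nrmT aux4
  let aux5 := addT d00 d12
  let aux6 := addT aux5 d21
  let Y1g1 := nrmT aux6
  let aux7 := addT d01 d10
  let aux8 := addT aux7 d22
  let Y1g2 := nrmT aux8
  let aux9 := addT d01 d12
  let aux10 := addT aux9 d20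
  let Y1g3 := nrmT aux10
  let aux11 := addT d02 d10
  let aux12 := addT aux11 d21
  let Y1g4 := nrmT aux12
  let aux13 := addT d02 d11
  let aux14 := addT aux13 d20
  let Y1g5 := nrmT aux14
  let vm := rsubC 549755813888 Y
  let vp := addC 549755813888 Y
  (Y1g0, Y1g1, Y1g2, Y1g3, Y1g4, Y1g5, w0, w1, w2, vm, vp)

noncomputable def matGET (U0 U1 U2 Y : TM) : TM × TM × TM × TM × TM :=
  let w0 := sqT U0
  let w1 := sqT U1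
  let w2 := sqT U2
  let vm := rsubC 549755813888 Y
  let vp := addC 549755813888 Y
  (w0, w1, w2, vm, vp)

noncomputable def permAET (R Q al : TM) : TM × TM :=
  let ra := mulT R al
  let a := mulT Q ra
  let m := addC 1099511627776 a
  (ra, m)

noncomputable def permBET (ra m al w0 w1 w2 v0 v1 v2 Y0 Y1 rp2 C1 GG3 Ah : TM) : TM :=
  let ib := invT m
  let d0 := subT v0 ra
  let d1 := subT v1 ra
  let d2 := subT v2 ra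
  let q0 := sqT d0
  let q1 := sqT d1
  let q2 := sqT d2
  let aux1 := mulT w0 q0
  let aux2 := mulT w1 q1
  let aux3 := mulT w2 q2
  let aux4 := addT aux1 aux2
  let aux5 := addT aux4 aux3
  let Qt := nrmT aux5
  let aux6 := mulT ra Y0
  let aux7 := subT Y1 aux6
  let Lt := nrmT aux7
  let alsq := sqT al
  let a0 := mulT al Qt
  let aa := mulT rp2 a0
  let ib1 := addC 1099511627776 ib
  let aux8 := mulT aa ib1
  let aux9 := smulT 2 Lt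
  let tt := subT aux9 aux8
  let t2 := sqT tt
  let a2 := sqT aa
  let aux10 := smulT 2 a2
  let ww := addT t2 aux10
  let aux11 := mulT C1 Qt
  let ib2 := addC 2199023255552 ib
  let aux12 := mulT GG3 ib2
  let aux13 := addT aux11 aux12
  let xx := mulT alsq aux13
  let yy := mulT Ah ww
  let aux14 := subT xx yy
  let zz := nrmT aux14
  let Rg := mulT ib zz
  Rg

noncomputable def permGET (ra m al w0 w1 w2 v0 v1 v2 : TM) : TM :=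
  let ib := invT m
  let d0 := subT v0 ra
  let d1 := subT v1 ra
  let d2 := subT v2 ra
  let q0 := sqT d0
  let q1 := sqT d1
  let q2 := sqT d2
  let aux1 := mulT w0 q0
  let aux2 := mulT w1 q1
  let aux3 := mulT w2 q2
  let aux4 := addT aux1 aux2
  let aux5 := addT aux4 aux3
  let Qt := nrmT aux5
  let alsq := sqT al
  let Ta := mulT alsq Qt
  let Ka := mulT Ta ib
  Ka

noncomputable def hPartET (sig sig3 rg3 s s3 : TM) : TM × TM × TM :=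
  let aux1 := mulT sig3 s3
  let aux2 := shrT 1 aux1
  let aux3 := shrT 1 sig3
  let aux4 := subT aux2 aux3
  let Hr := subT aux4 rg3
  let aux5 := subT sig3 rg3
  let aux6 := rsubC 2199023255552 s3
  let aux7 := mulT aux5 aux6
  let Lam1 := shrT 1 aux7
  let aux8 := mulT sig s
  let aux9 := scaleT 3 6 s
  let aux10 := rsubC 1099511627776 aux9
  let f2 := mulT aux8 aux10
  (Hr, Lam1, f2)

noncomputable def polysET (sig sig3 rg3 c3 s3 : TM) : TM × TM × TM :=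
  let s3c3 := mulT s3 c3
  let s3sq := sqT s3
  let s3cu := mulT s3sq s3
  let rc := mulT rg3 c3
  let c3sq := sqT c3
  let s3c := mulT s3sq c3
  let hs := shrT 1 s3c3
  let aux1 := addC 1099511627776 c3
  let aux2 := smulT 2 s3
  let aux3 := subT aux1 aux2
  let aux4 := nrmT aux3
  let aux5 := subT aux4 hs
  let aux6 := nrmT aux5
  let aux7 := scaleT 3 2 s3sq
  let aux8 := addT aux6 aux7
  let aux9 := nrmT aux8
  let h31 := mulT sig aux9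
  let aux10 := shrT 2 s3
  let aux11 := addT c3 aux10
  let aux12 := nrmT aux11
  let aux13 := subT aux12 hs
  let aux14 := nrmT aux13
  let aux15 := shrT 2 s3sq
  let aux16 := subT aux14 aux15
  let aux17 := nrmT aux16
  let aux18 := shrT 3 s3cu
  let aux19 := addT aux17 aux18
  let aux20 := nrmT aux19
  let aux21 := mulT sig aux20
  let aux22 := smulT 4 rg3
  let aux23 := subT rc aux22
  let aux24 := nrmT aux23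
  let aux25 := addT aux24 aux21
  let h61 := nrmT aux25
  let aux26 := shrT 2 s3c3
  let aux27 := addT s3 aux26
  let aux28 := nrmT aux27
  let aux29 := shrT 2 s3cu
  let aux30 := addT aux28 aux29
  let aux31 := nrmT aux30
  let aux32 := mulT sig aux31
  let aux33 := shrT 1 c3
  let aux34 := rsubC 2199023255552 aux33
  let aux35 := subT aux34 c3sq
  let aux36 := nrmT aux35
  let aux37 := scaleT 5 1 s3sq
  let aux38 := addT aux36 aux37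
  let aux39 := nrmT aux38
  let aux40 := scaleT 5 3 s3c
  let aux41 := addT aux39 aux40
  let aux42 := nrmT aux41
  let aux43 := mulT sig3 aux42
  let aux44 := smulT 2 rc
  let aux45 := subT aux44 rg3
  let aux46 := nrmT aux45
  let aux47 := subT aux46 aux32
  let aux48 := nrmT aux47
  let aux49 := addT aux48 aux43
  let h71 := nrmT aux49
  (h31, h61, h71)

noncomputable def finalFET (sig rg3 r2 s G Hr Lam1 f2 h31 h61 h71 rp2 S C3 Gw fS r4 tau : TM) : TM × TM × TM × TM :=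
  let aux1 := mulT tau Lam1
  let n0 := subT Hr aux1
  let aux2 := scaleT 9 6 s
  let aux3 := rsubC 2199023255552 aux2
  let f1 := mulT sig aux3
  let aux4 := mulT f1 r2
  let aux5 := scaleT 11 7 aux4
  let aux6 := rsubC 1649267441664 aux5
  let aux7 := smulT 2 s
  let aux8 := subT aux7 S
  let aux9 := mulT aux8 S
  let aux10 := scaleT 33 13 aux9
  let Cn := addT aux6 aux10
  let C1 := mulT Cn rp2
  let Tn := mulT Cn n0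
  let hsig := shrT 1 sig
  let aux11 := subT hsig rg3
  let T1 := scaleT 3 1 aux11
  let T2 := scaleT 11 7 f1
  let aux12 := mulT G Gw
  let GG3 := smulT 3 aux12
  let aux13 := subT rg3 hsig
  let T4 := mulT aux13 fS
  let aux14 := mulT G sig
  let aux15 := subT tau fS
  let aux16 := mulT aux14 aux15
  let T5 := scaleT 21 7 aux16
  let aux17 := smulT 3 rg3
  let aux18 := scaleT 11 7 f2
  let aux19 := subT aux17 aux18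
  let aux20 := scaleT 11 10 S
  let aux21 := scaleT 25 7 aux19
  let aux22 := mulT aux20 aux19
  let T6 := subT aux21 aux22
  let aux23 := mulT tau h31
  let aux24 := smulT 4 aux23
  let aux25 := mulT S h61
  let aux26 := addT aux24 aux25
  let aux27 := mulT C3 h71
  let aux28 := smulT 9 aux27
  let aux29 := subT aux26 aux28
  let W0h := nrmT aux29
  let aux30 := addT s S
  let aux31 := scaleT 3 5 aux30
  let aux32 := rsubC 1099511627776 aux31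
  let Ah := scaleT 11 7 aux32
  let T7 := mulT Ah W0h
  let aux33 := mulT S sig
  let aux34 := smulT 3 aux33
  let T8 := scaleT 33 13 aux34
  let aux35 := addT Tn T1
  let aux36 := subT aux35 T2
  let aux37 := addT aux36 T4
  let aux38 := addT aux37 T5
  let aux39 := addT aux38 T6
  let aux40 := subT aux39 T7
  let aux41 := addT aux40 T8
  let PP := nrmT aux41
  (PP, C1, GG3, Ah)

noncomputable def progFET (R X Q Y : TM) : TM × TM × TM × TM × TM × TM × TM × TM :=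
  let ou := uPartET R X
  let ov := vPartET Q Y
  let oa := alphasET X Y
  let om := matDET ou.2.2.2.2.2.2.2.1 ou.2.2.2.2.2.2.2.2.1 ou.2.2.2.2.2.2.2.2.2.1 X Y
  let vneg := constNeg 1099511627776
  let pa0 := permAET R Q oa.1
  let pa1 := permAET R Q oa.2.1
  let pa2 := permAET R Q oa.2.2.1
  let pa3 := permAET R Q oa.2.2.2.1
  let pa4 := permAET R Q oa.2.2.2.2.1
  let pa5 := permAET R Q oa.2.2.2.2.2
  let isg := invT ov.2.1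
  let aux1 := mulT ov.2.2.2.2.1 isg
  let tau := smulT 3 aux1
  let aux2 := shrT 1 isg
  let is6 := thirdT aux2
  let oh := hPartET ou.1 ou.2.1 ou.2.2.1 ou.2.2.2.2.1 ou.2.2.2.2.2.2.1
  let op := polysET ou.1 ou.2.1 ou.2.2.1 ou.2.2.2.2.2.1 ou.2.2.2.2.2.2.1
  let ofin := finalFET ou.1 ou.2.2.1 ou.2.2.2.1 ou.2.2.2.2.1 ou.2.2.2.2.2.2.2.2.2.2.1 oh.1 oh.2.1 oh.2.2 op.1 op.2.1 op.2.2 ov.2.2.1 ov.2.2.2.1 ov.2.2.2.2.2.1 ov.2.2.2.2.2.2.1 ov.2.2.2.2.2.2.2.1 ov.2.2.2.2.2.2.2.2 tau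
  let pb0 := permBET pa0.1 pa0.2 oa.1 om.2.2.2.2.2.2.1 om.2.2.2.2.2.2.2.1 om.2.2.2.2.2.2.2.2.1 vneg om.2.2.2.2.2.2.2.2.2.1 om.2.2.2.2.2.2.2.2.2.2 ou.2.2.2.2.2.2.2.2.2.2.2 om.1 ov.2.2.1 ofin.2.1 ofin.2.2.1 ofin.2.2.2
  let pb1 := permBET pa1.1 pa1.2 oa.2.1 om.2.2.2.2.2.2.1 om.2.2.2.2.2.2.2.1 om.2.2.2.2.2.2.2.2.1 vneg om.2.2.2.2.2.2.2.2.2.2 om.2.2.2.2.2.2.2.2.2.1 ou.2.2.2.2.2.2.2.2.2.2.2 om.2.1 ov.2.2.1 ofin.2.1 ofin.2.2.1 ofin.2.2.2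
  let pb2 := permBET pa2.1 pa2.2 oa.2.2.1 om.2.2.2.2.2.2.1 om.2.2.2.2.2.2.2.1 om.2.2.2.2.2.2.2.2.1 om.2.2.2.2.2.2.2.2.2.1 vneg om.2.2.2.2.2.2.2.2.2.2 ou.2.2.2.2.2.2.2.2.2.2.2 om.2.2.1 ov.2.2.1 ofin.2.1 ofin.2.2.1 ofin.2.2.2
  let pb3 := permBET pa3.1 pa3.2 oa.2.2.2.1 om.2.2.2.2.2.2.1 om.2.2.2.2.2.2.2.1 om.2.2.2.2.2.2.2.2.1 om.2.2.2.2.2.2.2.2.2.1 om.2.2.2.2.2.2.2.2.2.2 vneg ou.2.2.2.2.2.2.2.2.2.2.2 om.2.2.2.1 ov.2.2.1 ofin.2.1 ofin.2.2.1 ofin.2.2.2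
  let pb4 := permBET pa4.1 pa4.2 oa.2.2.2.2.1 om.2.2.2.2.2.2.1 om.2.2.2.2.2.2.2.1 om.2.2.2.2.2.2.2.2.1 om.2.2.2.2.2.2.2.2.2.2 vneg om.2.2.2.2.2.2.2.2.2.1 ou.2.2.2.2.2.2.2.2.2.2.2 om.2.2.2.2.1 ov.2.2.1 ofin.2.1 ofin.2.2.1 ofin.2.2.2
  let pb5 := permBET pa5.1 pa5.2 oa.2.2.2.2.2 om.2.2.2.2.2.2.1 om.2.2.2.2.2.2.2.1 om.2.2.2.2.2.2.2.2.1 om.2.2.2.2.2.2.2.2.2.2 om.2.2.2.2.2.2.2.2.2.1 vneg ou.2.2.2.2.2.2.2.2.2.2.2 om.2.2.2.2.2.1 ov.2.2.1 ofin.2.1 ofin.2.2.1 ofin.2.2.2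
  let aux3 := addT pb0 pb1
  let aux4 := addT aux3 pb2
  let aux5 := addT aux4 pb3
  let aux6 := addT aux5 pb4
  let aux7 := addT aux6 pb5
  let BB := mulT is6 aux7
  let res := addT ofin.1 BB
  (pa0.2, pa1.2, pa2.2, pa3.2, pa4.2, pa5.2, ov.2.1, res)

noncomputable def progGET (R X Q Y : TM) : TM × TM × TM × TM × TM × TM × TM × TM :=
  let ou := uPartET R X
  let ov := vPartET Q Y
  let oa := alphasET X Y
  let om := matGET ou.2.2.2.2.2.2.2.1 ou.2.2.2.2.2.2.2.2.1 ou.2.2.2.2.2.2.2.2.2.1 Y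
  let vneg := constNeg 1099511627776
  let pa0 := permAET R Q oa.1
  let pa1 := permAET R Q oa.2.1
  let pa2 := permAET R Q oa.2.2.1
  let pa3 := permAET R Q oa.2.2.2.1
  let pa4 := permAET R Q oa.2.2.2.2.1
  let pa5 := permAET R Q oa.2.2.2.2.2
  let pb0 := permGET pa0.1 pa0.2 oa.1 om.1 om.2.1 om.2.2.1 vneg om.2.2.2.1 om.2.2.2.2
  let pb1 := permGET pa1.1 pa1.2 oa.2.1 om.1 om.2.1 om.2.2.1 vneg om.2.2.2.2 om.2.2.2.1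
  let pb2 := permGET pa2.1 pa2.2 oa.2.2.1 om.1 om.2.1 om.2.2.1 om.2.2.2.1 vneg om.2.2.2.2
  let pb3 := permGET pa3.1 pa3.2 oa.2.2.2.1 om.1 om.2.1 om.2.2.1 om.2.2.2.1 om.2.2.2.2 vneg
  let pb4 := permGET pa4.1 pa4.2 oa.2.2.2.2.1 om.1 om.2.1 om.2.2.1 om.2.2.2.2 vneg om.2.2.2.1
  let pb5 := permGET pa5.1 pa5.2 oa.2.2.2.2.2 om.1 om.2.1 om.2.2.1 om.2.2.2.2 om.2.2.2.1 vneg
  let aux1 := addT pb0 pb1
  let aux2 := addT aux1 pb2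
  let aux3 := addT aux2 pb3
  let aux4 := addT aux3 pb4
  let aux5 := addT aux4 pb5
  let isg := invT ov.2.1
  let aux6 := shrT 1 isg
  let is6 := thirdT aux6
  let B1 := mulT is6 aux5
  let oh := hPartET ou.1 ou.2.1 ou.2.2.1 ou.2.2.2.2.1 ou.2.2.2.2.2.2.1
  let aux7 := mulT ov.2.2.2.2.1 isg
  let tau := smulT 3 aux7
  let aux8 := scaleT 7 5 ou.1
  let aux9 := smulT 3 ou.2.2.1
  let aux10 := scaleT 9 5 aux9
  let aux11 := subT aux8 aux10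
  let aux12 := mulT ou.1 ou.2.2.2.2.1
  let aux13 := scaleT 3 8 aux12
  let aux14 := addT aux11 aux13
  let Lt1 := nrmT aux14
  let aux15 := smulT 3 ou.2.2.1
  let aux16 := scaleT 11 7 oh.2.2
  let aux17 := subT aux15 aux16
  let aux18 := scaleT 57 8 aux17
  let aux19 := negT oh.1
  let aux20 := subT aux19 aux18
  let aux21 := shrT 10 ou.1
  let aux22 := subT aux20 aux21
  let aux23 := mulT ov.2.2.2.2.2.2.2.1 Lt1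
  let aux24 := addT aux22 aux23
  let aux25 := mulT ov.2.2.1 B1
  let aux26 := subT aux24 aux25
  let aux27 := subT oh.2.1 Lt1
  let aux28 := mulT tau aux27
  let aux29 := addT aux26 aux28
  (pa0.2, pa1.2, pa2.2, pa3.2, pa4.2, pa5.2, ov.2.1, aux29)

noncomputable def rawFET (ra m W0 Y0 P1 P2 Y1 QR rp2 s GG : TM) : TM :=
  let ib := invT m
  let ra2 := sqT ra
  let aux1 := mulT ra P1
  let aux2 := smulT 2 aux1
  let aux3 := subT P2 aux2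
  let aux4 := mulT ra2 W0
  let aux5 := addT aux3 aux4
  let Qt := nrmT aux5
  let aux6 := mulT ra Y0
  let aux7 := subT Y1 aux6
  let Lt := nrmT aux7
  let aux8 := mulT QR Lt
  let aux9 := smulT 2 aux8
  let aux10 := mulT rp2 Qt
  let aux11 := mulT ib aux10
  let aux12 := addT aux9 aux11
  let Mg := nrmT aux12
  let aux13 := mulT ib Mg
  let aux14 := addT s aux13
  let sp := nrmT aux14
  let sp2 := sqT sp
  let sp3 := mulT sp2 sp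
  let aux15 := scaleT 3 1 sp
  let aux16 := subC 3298534883328 aux15
  let aux17 := scaleT 11 7 sp2
  let aux18 := subT aux16 aux17
  let aux19 := scaleT 33 13 sp3
  let aux20 := addT aux18 aux19
  let t2 := mulT m aux20
  let aux21 := sqT ib
  let aux22 := mulT GG aux21
  let t1 := smulT 3 aux22
  let aux23 := addT t1 t2
  let aux24 := nrmT aux23
  aux24

noncomputable def rawGET (ra m W0 Y0 P1 P2 Y1 QR rp2 s : TM) : TM :=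
  let ib := invT m
  let ra2 := sqT ra
  let aux1 := mulT ra P1
  let aux2 := smulT 2 aux1
  let aux3 := subT P2 aux2
  let aux4 := mulT ra2 W0
  let aux5 := addT aux3 aux4
  let Qt := nrmT aux5
  let aux6 := mulT ra Y0
  let aux7 := subT Y1 aux6
  let Lt := nrmT aux7
  let aux8 := mulT QR Lt
  let aux9 := smulT 2 aux8
  let aux10 := mulT rp2 Qt
  let aux11 := mulT ib aux10
  let aux12 := addT aux9 aux11
  let Mg := nrmT aux12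
  let aux13 := mulT m s
  let aux14 := addT aux13 Mg
  let aux15 := nrmT aux14
  aux15

noncomputable def polyCET (s c3 G S C3 : TM) : TM × TM :=
  let s2 := sqT s
  let S2 := sqT S
  let aux1 := scaleT 3 6 s
  let aux2 := rsubC 1099511627776 aux1
  let aux3 := mulT s2 aux2
  let aux4 := scaleT 11 7 aux3
  let aux5 := smulT 3 c3
  let Xu := subT aux5 aux4
  let aux6 := scaleT 3 6 S
  let aux7 := rsubC 1099511627776 aux6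
  let aux8 := mulT S2 aux7
  let aux9 := scaleT 11 7 aux8
  let aux10 := smulT 3 C3
  let Xv := subT aux10 aux9
  let aux11 := scaleT 25 7 S
  let aux12 := rsubC 1099511627776 aux11
  let aux13 := scaleT 11 10 S2
  let aux14 := addT aux12 aux13
  let aux15 := mulT aux14 Xu
  let aux16 := scaleT 21 7 s
  let aux17 := rsubC 1099511627776 aux16
  let aux18 := mulT G aux17
  let aux19 := mulT aux18 Xv
  let aux20 := addT aux15 aux19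
  let LI := nrmT aux20
  let cc := smulT 3 c3
  let aux21 := scaleT 7 5 s
  let aux22 := scaleT 9 5 cc
  let aux23 := subT aux21 aux22
  let aux24 := scaleT 3 8 s2
  let aux25 := addT aux23 aux24
  let Lam := nrmT aux25
  let aux26 := addT s S
  let aux27 := mulT S Xu
  let aux28 := scaleT 57 8 aux27
  let aux29 := subT aux26 aux28
  let aux30 := mulT Lam Xv
  let aux31 := subT aux29 aux30
  let aux32 := mulT S s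
  let aux33 := shrT 10 aux32
  let aux34 := subT aux31 aux33
  let RII := nrmT aux34
  (LI, RII)

noncomputable def baseCET (R X Q Y : TM) : TM × TM × TM × TM × TM × TM × TM × TM × TM × TM × TM × TM × TM × TM × TM × TM × TM × TM × TM × TM × TM × TM × TM × TM × TM × TM × TM × TM × TM × TM × TM × TM × TM × TM × TM × TM × TM × TM :=
  let ou := uPartET R X
  let ov := vPartET Q Y
  let oa := alphasET X Y
  let om := matFET ou.2.2.2.2.2.2.2.1 ou.2.2.2.2.2.2.2.2.1 ou.2.2.2.2.2.2.2.2.2.1 X Y ov.1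
  let pa0 := permAET R Q oa.1
  let pa1 := permAET R Q oa.2.1
  let pa2 := permAET R Q oa.2.2.1
  let pa3 := permAET R Q oa.2.2.2.1
  let pa4 := permAET R Q oa.2.2.2.2.1
  let pa5 := permAET R Q oa.2.2.2.2.2
  let QR := mulT Q R
  let GG := mulT ou.2.2.2.2.2.2.2.2.2.2.1 ov.2.2.2.2.2.2.1
  let opc := polyCET ou.2.2.2.2.1 ou.2.2.2.2.2.1 ou.2.2.2.2.2.2.2.2.2.2.1 ov.2.2.2.1 ov.2.2.2.2.2.1
  (pa0.1, pa0.2, om.1, om.2.1, om.2.2.1, pa1.1, pa1.2, om.2.2.2.1, om.2.2.2.2.1, om.2.2.2.2.2.1, pa2.1, pa2.2, om.2.2.2.2.2.2.1, om.2.2.2.2.2.2.2.1, om.2.2.2.2.2.2.2.2.1, pa3.1, pa3.2, om.2.2.2.2.2.2.2.2.2.1, om.2.2.2.2.2.2.2.2.2.2.1, om.2.2.2.2.2.2.2.2.2.2.2.1, pa4.1, pa4.2, om.2.2.2.2.2.2.2.2.2.2.2.2.1, om.2.2.2.2.2.2.2.2.2.2.2.2.2.1, om.2.2.2.2.2.2.2.2.2.2.2.2.2.2.1, pa5.1, pa5.2, om.2.2.2.2.2.2.2.2.2.2.2.2.2.2.2.1, om.2.2.2.2.2.2.2.2.2.2.2.2.2.2.2.2.1,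 om.2.2.2.2.2.2.2.2.2.2.2.2.2.2.2.2.2.1, om.2.2.2.2.2.2.2.2.2.2.2.2.2.2.2.2.2.2, ou.2.2.2.2.2.2.2.2.2.2.2, QR, ov.2.2.1, ou.2.2.2.2.1, GG, opc.1, opc.2)

/-- Upper bound of a model, scaled by `2^40`. -/
def hiT (a : TM) : Nat := Nat.sub (Nat.add a.cp (Nat.add a.r a.e)) a.cn

/-- The constant `q / 2^40`. -/
def constPos (q : Nat) : TM := TM.mk q 0 0 0 0 0 0 0 0 0 0 0

/-- A denominator is called small when its upper bound is at most `1/4`. -/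
def smallT (m : TM) : Bool := Nat.ble (hiT m) 274877906944

/-- The checks on a denominator. -/
def okT (m : TM) : Bool := or (smallT m) (posT m)

/-- The term for the first functional: a crude constant bound when the denominator is small. -/
noncomputable def pickF (m raw : TM) : TM :=
  Bool.rec (motive := fun _ => TM) raw (constNeg (Nat.mul 3 (hiT m))) (smallT m)

/-- The term for the second functional: a crude constant bound when the denominator is small. -/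
noncomputable def pickG (m raw : TM) : TM :=
  Bool.rec (motive := fun _ => TM) raw (constPos (Nat.mul 6 (hiT m))) (smallT m)

/-- The corner box test for the first functional. -/
noncomputable def testFC (l1 w1 l2 w2 l3 w3 l4 w4 : Nat) : Bool :=
  (fun o =>
    (and (okT o.2.1) (and (okT o.2.2.2.2.2.2.1) (and (okT o.2.2.2.2.2.2.2.2.2.2.2.1) (and (okT o.2.2.2.2.2.2.2.2.2.2.2.2.2.2.2.2.1) (and (okT o.2.2.2.2.2.2.2.2.2.2.2.2.2.2.2.2.2.2.2.2.2.1) (and (okT o.2.2.2.2.2.2.2.2.2.2.2.2.2.2.2.2.2.2.2.2.2.2.2.2.2.2.1) (nonnegT (subT (addT (addT (addT (addT (addT (pickF o.2.1 (rawFET o.1 o.2.1 o.2.2.2.2.2.2.2.2.2.2.2.2.2.2.2.2.2.2.2.2.2.2.2.2.2.2.2.2.2.2.1 o.2.2.2.2.2.2.2.2.2.2.2.2.2.2.2.2.2.2.2.2.2.2.2.2.2.2.2.2.2.2.2.1 o.2.2.1 o.2.2.2.1 o.2.2.2.2.1 o.2.2.2.2.2.2.2.2.2.2.2.2.2.2.2.2.2.2.2.2.2.2.2.2.2.2.2.2.2.2.2.2.1 o.2.2.2.2.2.2.2.2.2.2.2.2.2.2.2.2.2.2.2.2.2.2.2.2.2.2.2.2.2.2.2.2.2.1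 o.2.2.2.2.2.2.2.2.2.2.2.2.2.2.2.2.2.2.2.2.2.2.2.2.2.2.2.2.2.2.2.2.2.2.1 o.2.2.2.2.2.2.2.2.2.2.2.2.2.2.2.2.2.2.2.2.2.2.2.2.2.2.2.2.2.2.2.2.2.2.2.1)) (pickF o.2.2.2.2.2.2.1 (rawFET o.2.2.2.2.2.1 o.2.2.2.2.2.2.1 o.2.2.2.2.2.2.2.2.2.2.2.2.2.2.2.2.2.2.2.2.2.2.2.2.2.2.2.2.2.2.1 o.2.2.2.2.2.2.2.2.2.2.2.2.2.2.2.2.2.2.2.2.2.2.2.2.2.2.2.2.2.2.2.1 o.2.2.2.2.2.2.2.1 o.2.2.2.2.2.2.2.2.1 o.2.2.2.2.2.2.2.2.2.1 o.2.2.2.2.2.2.2.2.2.2.2.2.2.2.2.2.2.2.2.2.2.2.2.2.2.2.2.2.2.2.2.2.1 o.2.2.2.2.2.2.2.2.2.2.2.2.2.2.2.2.2.2.2.2.2.2.2.2.2.2.2.2.2.2.2.2.2.1 o.2.2.2.2.2.2.2.2.2.2.2.2.2.2.2.2.2.2.2.2.2.2.2.2.2.2.2.2.2.2.2.2.2.2.1 o.2.2.2.2.2.2.2.2.2.2.2.2.2.2.2.2.2.2.2.2.2.2.2.2.2.2.2.2.2.2.2.2.2.2.2.1))) (pickF o.2.2.2.2.2.2.2.2.2.2.2.1 (rawFET o.2.2.2.2.2.2.2.2.2.2.1 o.2.2.2.2.2.2.2.2.2.2.2.1 o.2.2.2.2.2.2.2.2.2.2.2.2.2.2.2.2.2.2.2.2.2.2.2.2.2.2.2.2.2.2.1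 o.2.2.2.2.2.2.2.2.2.2.2.2.2.2.2.2.2.2.2.2.2.2.2.2.2.2.2.2.2.2.2.1 o.2.2.2.2.2.2.2.2.2.2.2.2.1 o.2.2.2.2.2.2.2.2.2.2.2.2.2.1 o.2.2.2.2.2.2.2.2.2.2.2.2.2.2.1 o.2.2.2.2.2.2.2.2.2.2.2.2.2.2.2.2.2.2.2.2.2.2.2.2.2.2.2.2.2.2.2.2.1 o.2.2.2.2.2.2.2.2.2.2.2.2.2.2.2.2.2.2.2.2.2.2.2.2.2.2.2.2.2.2.2.2.2.1 o.2.2.2.2.2.2.2.2.2.2.2.2.2.2.2.2.2.2.2.2.2.2.2.2.2.2.2.2.2.2.2.2.2.2.1 o.2.2.2.2.2.2.2.2.2.2.2.2.2.2.2.2.2.2.2.2.2.2.2.2.2.2.2.2.2.2.2.2.2.2.2.1))) (pickF o.2.2.2.2.2.2.2.2.2.2.2.2.2.2.2.2.1 (rawFET o.2.2.2.2.2.2.2.2.2.2.2.2.2.2.2.1 o.2.2.2.2.2.2.2.2.2.2.2.2.2.2.2.2.1 o.2.2.2.2.2.2.2.2.2.2.2.2.2.2.2.2.2.2.2.2.2.2.2.2.2.2.2.2.2.2.1 o.2.2.2.2.2.2.2.2.2.2.2.2.2.2.2.2.2.2.2.2.2.2.2.2.2.2.2.2.2.2.2.1 o.2.2.2.2.2.2.2.2.2.2.2.2.2.2.2.2.2.1 o.2.2.2.2.2.2.2.2.2.2.2.2.2.2.2.2.2.2.1 o.2.2.2.2.2.2.2.2.2.2.2.2.2.2.2.2.2.2.2.1 o.2.2.2.2.2.2.2.2.2.2.2.2.2.2.2.2.2.2.2.2.2.2.2.2.2.2.2.2.2.2.2.2.1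 o.2.2.2.2.2.2.2.2.2.2.2.2.2.2.2.2.2.2.2.2.2.2.2.2.2.2.2.2.2.2.2.2.2.1 o.2.2.2.2.2.2.2.2.2.2.2.2.2.2.2.2.2.2.2.2.2.2.2.2.2.2.2.2.2.2.2.2.2.2.1 o.2.2.2.2.2.2.2.2.2.2.2.2.2.2.2.2.2.2.2.2.2.2.2.2.2.2.2.2.2.2.2.2.2.2.2.1))) (pickF o.2.2.2.2.2.2.2.2.2.2.2.2.2.2.2.2.2.2.2.2.2.1 (rawFET o.2.2.2.2.2.2.2.2.2.2.2.2.2.2.2.2.2.2.2.2.1 o.2.2.2.2.2.2.2.2.2.2.2.2.2.2.2.2.2.2.2.2.2.1 o.2.2.2.2.2.2.2.2.2.2.2.2.2.2.2.2.2.2.2.2.2.2.2.2.2.2.2.2.2.2.1 o.2.2.2.2.2.2.2.2.2.2.2.2.2.2.2.2.2.2.2.2.2.2.2.2.2.2.2.2.2.2.2.1 o.2.2.2.2.2.2.2.2.2.2.2.2.2.2.2.2.2.2.2.2.2.2.1 o.2.2.2.2.2.2.2.2.2.2.2.2.2.2.2.2.2.2.2.2.2.2.2.1 o.2.2.2.2.2.2.2.2.2.2.2.2.2.2.2.2.2.2.2.2.2.2.2.2.1 o.2.2.2.2.2.2.2.2.2.2.2.2.2.2.2.2.2.2.2.2.2.2.2.2.2.2.2.2.2.2.2.2.1 o.2.2.2.2.2.2.2.2.2.2.2.2.2.2.2.2.2.2.2.2.2.2.2.2.2.2.2.2.2.2.2.2.2.1 o.2.2.2.2.2.2.2.2.2.2.2.2.2.2.2.2.2.2.2.2.2.2.2.2.2.2.2.2.2.2.2.2.2.2.1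 o.2.2.2.2.2.2.2.2.2.2.2.2.2.2.2.2.2.2.2.2.2.2.2.2.2.2.2.2.2.2.2.2.2.2.2.1))) (pickF o.2.2.2.2.2.2.2.2.2.2.2.2.2.2.2.2.2.2.2.2.2.2.2.2.2.2.1 (rawFET o.2.2.2.2.2.2.2.2.2.2.2.2.2.2.2.2.2.2.2.2.2.2.2.2.2.1 o.2.2.2.2.2.2.2.2.2.2.2.2.2.2.2.2.2.2.2.2.2.2.2.2.2.2.1 o.2.2.2.2.2.2.2.2.2.2.2.2.2.2.2.2.2.2.2.2.2.2.2.2.2.2.2.2.2.2.1 o.2.2.2.2.2.2.2.2.2.2.2.2.2.2.2.2.2.2.2.2.2.2.2.2.2.2.2.2.2.2.2.1 o.2.2.2.2.2.2.2.2.2.2.2.2.2.2.2.2.2.2.2.2.2.2.2.2.2.2.2.1 o.2.2.2.2.2.2.2.2.2.2.2.2.2.2.2.2.2.2.2.2.2.2.2.2.2.2.2.2.1 o.2.2.2.2.2.2.2.2.2.2.2.2.2.2.2.2.2.2.2.2.2.2.2.2.2.2.2.2.2.1 o.2.2.2.2.2.2.2.2.2.2.2.2.2.2.2.2.2.2.2.2.2.2.2.2.2.2.2.2.2.2.2.2.1 o.2.2.2.2.2.2.2.2.2.2.2.2.2.2.2.2.2.2.2.2.2.2.2.2.2.2.2.2.2.2.2.2.2.1 o.2.2.2.2.2.2.2.2.2.2.2.2.2.2.2.2.2.2.2.2.2.2.2.2.2.2.2.2.2.2.2.2.2.2.1 o.2.2.2.2.2.2.2.2.2.2.2.2.2.2.2.2.2.2.2.2.2.2.2.2.2.2.2.2.2.2.2.2.2.2.2.1)))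 (smulT 6 o.2.2.2.2.2.2.2.2.2.2.2.2.2.2.2.2.2.2.2.2.2.2.2.2.2.2.2.2.2.2.2.2.2.2.2.2.1))))))))))
    (baseCET (var1 l1 w1) (var2 l2 w2) (var3 l3 w3) (var4 l4 w4))

/-- The corner box test for the second functional. -/
noncomputable def testGC (l1 w1 l2 w2 l3 w3 l4 w4 : Nat) : Bool :=
  (fun o =>
    (and (okT o.2.1) (and (okT o.2.2.2.2.2.2.1) (and (okT o.2.2.2.2.2.2.2.2.2.2.2.1) (and (okT o.2.2.2.2.2.2.2.2.2.2.2.2.2.2.2.2.1) (and (okT o.2.2.2.2.2.2.2.2.2.2.2.2.2.2.2.2.2.2.2.2.2.1) (and (okT o.2.2.2.2.2.2.2.2.2.2.2.2.2.2.2.2.2.2.2.2.2.2.2.2.2.2.1) (nonnegT (subT (smulT 6 o.2.2.2.2.2.2.2.2.2.2.2.2.2.2.2.2.2.2.2.2.2.2.2.2.2.2.2.2.2.2.2.2.2.2.2.2.2) (addT (addT (addT (addT (addT (pickG o.2.1 (rawGET o.1 o.2.1 o.2.2.2.2.2.2.2.2.2.2.2.2.2.2.2.2.2.2.2.2.2.2.2.2.2.2.2.2.2.2.1 o.2.2.2.2.2.2.2.2.2.2.2.2.2.2.2.2.2.2.2.2.2.2.2.2.2.2.2.2.2.2.2.1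 o.2.2.1 o.2.2.2.1 o.2.2.2.2.1 o.2.2.2.2.2.2.2.2.2.2.2.2.2.2.2.2.2.2.2.2.2.2.2.2.2.2.2.2.2.2.2.2.1 o.2.2.2.2.2.2.2.2.2.2.2.2.2.2.2.2.2.2.2.2.2.2.2.2.2.2.2.2.2.2.2.2.2.1 o.2.2.2.2.2.2.2.2.2.2.2.2.2.2.2.2.2.2.2.2.2.2.2.2.2.2.2.2.2.2.2.2.2.2.1)) (pickG o.2.2.2.2.2.2.1 (rawGET o.2.2.2.2.2.1 o.2.2.2.2.2.2.1 o.2.2.2.2.2.2.2.2.2.2.2.2.2.2.2.2.2.2.2.2.2.2.2.2.2.2.2.2.2.2.1 o.2.2.2.2.2.2.2.2.2.2.2.2.2.2.2.2.2.2.2.2.2.2.2.2.2.2.2.2.2.2.2.1 o.2.2.2.2.2.2.2.1 o.2.2.2.2.2.2.2.2.1 o.2.2.2.2.2.2.2.2.2.1 o.2.2.2.2.2.2.2.2.2.2.2.2.2.2.2.2.2.2.2.2.2.2.2.2.2.2.2.2.2.2.2.2.1 o.2.2.2.2.2.2.2.2.2.2.2.2.2.2.2.2.2.2.2.2.2.2.2.2.2.2.2.2.2.2.2.2.2.1 o.2.2.2.2.2.2.2.2.2.2.2.2.2.2.2.2.2.2.2.2.2.2.2.2.2.2.2.2.2.2.2.2.2.2.1))) (pickG o.2.2.2.2.2.2.2.2.2.2.2.1 (rawGET o.2.2.2.2.2.2.2.2.2.2.1 o.2.2.2.2.2.2.2.2.2.2.2.1 o.2.2.2.2.2.2.2.2.2.2.2.2.2.2.2.2.2.2.2.2.2.2.2.2.2.2.2.2.2.2.1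 o.2.2.2.2.2.2.2.2.2.2.2.2.2.2.2.2.2.2.2.2.2.2.2.2.2.2.2.2.2.2.2.1 o.2.2.2.2.2.2.2.2.2.2.2.2.1 o.2.2.2.2.2.2.2.2.2.2.2.2.2.1 o.2.2.2.2.2.2.2.2.2.2.2.2.2.2.1 o.2.2.2.2.2.2.2.2.2.2.2.2.2.2.2.2.2.2.2.2.2.2.2.2.2.2.2.2.2.2.2.2.1 o.2.2.2.2.2.2.2.2.2.2.2.2.2.2.2.2.2.2.2.2.2.2.2.2.2.2.2.2.2.2.2.2.2.1 o.2.2.2.2.2.2.2.2.2.2.2.2.2.2.2.2.2.2.2.2.2.2.2.2.2.2.2.2.2.2.2.2.2.2.1))) (pickG o.2.2.2.2.2.2.2.2.2.2.2.2.2.2.2.2.1 (rawGET o.2.2.2.2.2.2.2.2.2.2.2.2.2.2.2.1 o.2.2.2.2.2.2.2.2.2.2.2.2.2.2.2.2.1 o.2.2.2.2.2.2.2.2.2.2.2.2.2.2.2.2.2.2.2.2.2.2.2.2.2.2.2.2.2.2.1 o.2.2.2.2.2.2.2.2.2.2.2.2.2.2.2.2.2.2.2.2.2.2.2.2.2.2.2.2.2.2.2.1 o.2.2.2.2.2.2.2.2.2.2.2.2.2.2.2.2.2.1 o.2.2.2.2.2.2.2.2.2.2.2.2.2.2.2.2.2.2.1 o.2.2.2.2.2.2.2.2.2.2.2.2.2.2.2.2.2.2.2.1 o.2.2.2.2.2.2.2.2.2.2.2.2.2.2.2.2.2.2.2.2.2.2.2.2.2.2.2.2.2.2.2.2.1 o.2.2.2.2.2.2.2.2.2.2.2.2.2.2.2.2.2.2.2.2.2.2.2.2.2.2.2.2.2.2.2.2.2.1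 o.2.2.2.2.2.2.2.2.2.2.2.2.2.2.2.2.2.2.2.2.2.2.2.2.2.2.2.2.2.2.2.2.2.2.1))) (pickG o.2.2.2.2.2.2.2.2.2.2.2.2.2.2.2.2.2.2.2.2.2.1 (rawGET o.2.2.2.2.2.2.2.2.2.2.2.2.2.2.2.2.2.2.2.2.1 o.2.2.2.2.2.2.2.2.2.2.2.2.2.2.2.2.2.2.2.2.2.1 o.2.2.2.2.2.2.2.2.2.2.2.2.2.2.2.2.2.2.2.2.2.2.2.2.2.2.2.2.2.2.1 o.2.2.2.2.2.2.2.2.2.2.2.2.2.2.2.2.2.2.2.2.2.2.2.2.2.2.2.2.2.2.2.1 o.2.2.2.2.2.2.2.2.2.2.2.2.2.2.2.2.2.2.2.2.2.2.1 o.2.2.2.2.2.2.2.2.2.2.2.2.2.2.2.2.2.2.2.2.2.2.2.1 o.2.2.2.2.2.2.2.2.2.2.2.2.2.2.2.2.2.2.2.2.2.2.2.2.1 o.2.2.2.2.2.2.2.2.2.2.2.2.2.2.2.2.2.2.2.2.2.2.2.2.2.2.2.2.2.2.2.2.1 o.2.2.2.2.2.2.2.2.2.2.2.2.2.2.2.2.2.2.2.2.2.2.2.2.2.2.2.2.2.2.2.2.2.1 o.2.2.2.2.2.2.2.2.2.2.2.2.2.2.2.2.2.2.2.2.2.2.2.2.2.2.2.2.2.2.2.2.2.2.1))) (pickG o.2.2.2.2.2.2.2.2.2.2.2.2.2.2.2.2.2.2.2.2.2.2.2.2.2.2.1 (rawGET o.2.2.2.2.2.2.2.2.2.2.2.2.2.2.2.2.2.2.2.2.2.2.2.2.2.1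 o.2.2.2.2.2.2.2.2.2.2.2.2.2.2.2.2.2.2.2.2.2.2.2.2.2.2.1 o.2.2.2.2.2.2.2.2.2.2.2.2.2.2.2.2.2.2.2.2.2.2.2.2.2.2.2.2.2.2.1 o.2.2.2.2.2.2.2.2.2.2.2.2.2.2.2.2.2.2.2.2.2.2.2.2.2.2.2.2.2.2.2.1 o.2.2.2.2.2.2.2.2.2.2.2.2.2.2.2.2.2.2.2.2.2.2.2.2.2.2.2.1 o.2.2.2.2.2.2.2.2.2.2.2.2.2.2.2.2.2.2.2.2.2.2.2.2.2.2.2.2.1 o.2.2.2.2.2.2.2.2.2.2.2.2.2.2.2.2.2.2.2.2.2.2.2.2.2.2.2.2.2.1 o.2.2.2.2.2.2.2.2.2.2.2.2.2.2.2.2.2.2.2.2.2.2.2.2.2.2.2.2.2.2.2.2.1 o.2.2.2.2.2.2.2.2.2.2.2.2.2.2.2.2.2.2.2.2.2.2.2.2.2.2.2.2.2.2.2.2.2.1 o.2.2.2.2.2.2.2.2.2.2.2.2.2.2.2.2.2.2.2.2.2.2.2.2.2.2.2.2.2.2.2.2.2.2.1))))))))))))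
    (baseCET (var1 l1 w1) (var2 l2 w2) (var3 l3 w3) (var4 l4 w4))

/-- The box test for `F1`: all denominators certified positive and `F1 ≥ 0`. -/
noncomputable def testF (l1 w1 l2 w2 l3 w3 l4 w4 : Nat) : Bool :=
  (fun o =>
    and (posT o.1) (and (posT o.2.1) (and (posT o.2.2.1) (and (posT o.2.2.2.1)
      (and (posT o.2.2.2.2.1) (and (posT o.2.2.2.2.2.1) (and (posT o.2.2.2.2.2.2.1)
        (nonnegT o.2.2.2.2.2.2.2))))))))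
    (progFET (var1 l1 w1) (var2 l2 w2) (var3 l3 w3) (var4 l4 w4))

/-- The box test for `G2`: all denominators certified positive and `G2 ≥ 0`. -/
noncomputable def testG (l1 w1 l2 w2 l3 w3 l4 w4 : Nat) : Bool :=
  (fun o =>
    and (posT o.1) (and (posT o.2.1) (and (posT o.2.2.1) (and (posT o.2.2.2.1)
      (and (posT o.2.2.2.2.1) (and (posT o.2.2.2.2.2.1) (and (posT o.2.2.2.2.2.2.1)
        (nonnegT o.2.2.2.2.2.2.2))))))))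
    (progGET (var1 l1 w1) (var2 l2 w2) (var3 l3 w3) (var4 l4 w4))

/-- Either test for the first functional. -/
noncomputable def testFX (l1 w1 l2 w2 l3 w3 l4 w4 : Nat) : Bool :=
  or (testF l1 w1 l2 w2 l3 w3 l4 w4) (testFC l1 w1 l2 w2 l3 w3 l4 w4)

/-- Either test for the second functional. -/
noncomputable def testGX (l1 w1 l2 w2 l3 w3 l4 w4 : Nat) : Bool :=
  or (testG l1 w1 l2 w2 l3 w3 l4 w4) (testGC l1 w1 l2 w2 l3 w3 l4 w4)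

end Vale.Agent.Lib.P154E
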